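import Vale.Agent.P004R.St0

/-!
# P004R: the row `ABS`
-/

set_option autoImplicit false
set_option linter.all false

noncomputable section

namespace Vale.Agent.P004R

open Subgroup Polynomial

namespace Ab

theorem two_pow_poly (m : ℕ) : ∃ h : ℤ[X], (1 + X) ^ 2 ^ m = 1 + X ^ 2 ^ m + 2 * X * h := by
  induction m with
  | zero => exact ⟨0, by simp⟩
  | succ m ih =>
    obtain ⟨h, e⟩ := ih
    obtain ⟨k, hk⟩ : ∃ k, 2 ^ m = k + 1 := ⟨2 ^ m - 1, by have := Nat.one_le_two_pow (n := m); omega⟩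
    refine ⟨X ^ k + 2 * h + 2 * X ^ (k + 1) * h + 2 * X * h ^ 2, ?_⟩
    rw [pow_succ 2 m, pow_mul, pow_mul, e, hk]
    ring

section

variable {A : Type} [AddCommGroup A]

/-- the doubles -/
def db (A : Type) [AddCommGroup A] : AddSubgroup A := (nsmulAddMonoidHom 2 : A →+ A).range

theorem mem_db {a : A} : a ∈ db A ↔ ∃ b, 2 • b = a := Iff.rfl

theorem end_rel (s : Module.End ℤ A) (m : ℕ) (hs : s ^ 2 ^ m = -1) :
    ∃ h : Module.End ℤ A, ∀ a, ((s - 1) ^ 2 ^ m : Module.End ℤ A) a =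
      -(2 • a) - (s - 1 : Module.End ℤ A) (2 • h a) := by
  obtain ⟨h, e⟩ := two_pow_poly m
  have e1 := congrArg (aeval (s - 1)) e
  simp only [map_pow, map_add, map_one, aeval_X, map_mul, add_sub_cancel, hs, map_ofNat] at e1
  refine ⟨aeval (s - 1) h, fun a => ?_⟩
  have e2 := congrArg (fun φ : Module.End ℤ A => φ a) e1
  simp only [LinearMap.neg_apply, Module.End.one_apply, LinearMap.add_apply, Module.End.mul_apply,
    Module.End.ofNat_apply] at e2
  rw [map_nsmul, two_nsmul a]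
  rw [eq_sub_iff_add_eq, ← add_left_cancel_iff (a := a), ← add_assoc, ← e2]
  abel

theorem low [Finite A] (f : Module.End ℤ A) (n : ℕ) (h0 : ∀ a, (f ^ (n + 1)) a ∈ db A)
    (hi : (db A).index < 2 ^ (n + 1)) (a : A) : (f ^ n) a ∈ db A := by
  let P : ℕ → AddSubgroup A := fun i => (db A) ⊔ (f ^ i).toAddMonoidHom.range
  have mem : ∀ i x, x ∈ P i ↔ ∃ b c, x = 2 • b + (f ^ i) c := fun i x => by
    simp only [P, AddSubgroup.mem_sup]
    exact ⟨fun ⟨_, ⟨b, hb⟩, _, ⟨c, hc⟩, k⟩ => ⟨b, c, by rw [← k, ← hb, ← hc]; rfl⟩,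
      fun ⟨b, c, k⟩ => ⟨_, ⟨b, rfl⟩, _, ⟨c, rfl⟩, k.symm⟩⟩
  have le : ∀ i, P (i + 1) ≤ P i := fun i x hx => by
    obtain ⟨b, c, rfl⟩ := (mem _ _).1 hx
    exact (mem _ _).2 ⟨b, f c, by rw [pow_succ, Module.End.mul_apply]⟩
  have st : ∀ i, P i ≤ P (i + 1) → P (i + 1) ≤ P (i + 2) := fun i h x hx => by
    obtain ⟨b, c, rfl⟩ := (mem _ _).1 hx
    obtain ⟨b', c', k⟩ := (mem _ _).1 (h ((mem i ((f ^ i) c)).2 ⟨0, c, by simp⟩))
    refine (mem _ _).2 ⟨b + f b', c', ?_⟩
    rw [pow_succ' f i, Module.End.mul_apply, k, map_add, map_nsmul, pow_succ' f (i + 1),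
      Module.End.mul_apply, nsmul_add, add_assoc]
  have top : P (n + 1) ≤ db A := sup_le le_rfl (by rintro _ ⟨c, rfl⟩; exact h0 c)
  by_contra hc
  have ne : ∀ k i, i + k = n → ¬ P i ≤ P (i + 1) := by
    intro k
    induction k with
    | zero =>
      intro i hi' h
      rw [add_zero] at hi'
      subst hi'
      exact hc (top (h ((mem _ _).2 ⟨0, a, by simp⟩)))
    | succ k ih => exact fun i hi' h => ih (i + 1) (by omega) (st i h)
  have big : ∀ i, i ≤ n + 1 → 2 ^ i ≤ (P i).index := by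
    intro i
    induction i with
    | zero => exact fun _ => Nat.pos_of_ne_zero AddSubgroup.index_ne_zero_of_finite
    | succ i ih =>
      intro hi'
      have h1 := AddSubgroup.relIndex_mul_index (le i)
      have h2 : (P (i + 1)).relIndex (P i) ≠ 1 := fun k =>
        ne (n - i) i (by omega) (AddSubgroup.relIndex_eq_one.1 k)
      have h3 : (P (i + 1)).relIndex (P i) ≠ 0 := AddSubgroup.index_ne_zero_of_finite
      have h4 := ih (by omega)
      rw [← h1, pow_succ']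
      exact Nat.mul_le_mul (by omega) h4
  have h5 := big (n + 1) le_rfl
  rw [show P (n + 1) = db A from le_antisymm top le_sup_left] at h5
  omega

theorem olem [Finite A] (s : Module.End ℤ A) (m : ℕ) (hs : s ^ 2 ^ m = -1)
    (hi : (db A).index < 2 ^ 2 ^ m) :
    ∃ b o, Odd o ∧ (db A).index = 2 ^ b ∧ Nat.card A = 2 ^ b * o := by
  obtain ⟨h, e⟩ := end_rel s m hs
  obtain ⟨k, hk⟩ : ∃ k, 2 ^ m = k + 1 := ⟨2 ^ m - 1, by have := Nat.one_le_two_pow (n := m); omega⟩
  rw [hk] at e hi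
  set f := s - 1
  have h0 : ∀ a, (f ^ (k + 1)) a = 2 • (-a - f (h a)) := fun a => by
    rw [e, map_nsmul, nsmul_sub, neg_nsmul]
  have h1 := low f k (fun a => ⟨_, (h0 a).symm⟩) hi
  have h2 : ∀ a, ∃ b, 2 • a = f (2 • b) := fun a => by
    obtain ⟨c, hc⟩ := mem_db.1 (h1 a)
    refine ⟨-c - h a, ?_⟩
    have := e a
    rw [pow_succ', Module.End.mul_apply, ← hc] at this
    rw [nsmul_sub, neg_nsmul, map_sub, map_neg, this]
    abel
  have h3 : ∀ i a, ∃ b, 2 • a = (f ^ i) (2 • b) := fun i => by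
    induction i with
    | zero => exact fun a => ⟨a, rfl⟩
    | succ i ih =>
      intro a
      obtain ⟨b, hb⟩ := ih a
      obtain ⟨c, hc⟩ := h2 b
      exact ⟨c, by rw [hb, hc, pow_succ, Module.End.mul_apply]⟩
  have h4 : Function.Surjective (nsmulAddMonoidHom 2 : db A →+ db A) := by
    rintro ⟨_, a, rfl⟩
    obtain ⟨b, hb⟩ := h3 (k + 1) a
    refine ⟨⟨2 • (-b - f (h b)), _, rfl⟩, Subtype.ext ?_⟩
    show 2 • 2 • (-b - f (h b)) = 2 • a
    rw [hb, map_nsmul, h0]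
  have h5 := Finite.injective_iff_surjective.2 h4
  have h6 : Odd (Nat.card (db A)) := by
    rw [← Nat.not_even_iff_odd, even_iff_two_dvd]
    intro k2
    obtain ⟨x, hx⟩ := exists_prime_addOrderOf_dvd_card' (G := db A) 2 k2
    have : x = 0 := h5 (by
      rw [map_zero]
      exact (hx ▸ addOrderOf_nsmul_eq_zero x :))
    rw [this, addOrderOf_zero] at hx
    omega
  have h7 : IsPGroup 2 (Multiplicative (A ⧸ db A)) := fun x => ⟨1, by
    obtain ⟨a, ha⟩ := QuotientAddGroup.mk_surjective x.toAdd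
    apply Multiplicative.toAdd.injective
    rw [toAdd_pow, ← ha, toAdd_one, ← QuotientAddGroup.mk_nsmul, QuotientAddGroup.eq_zero_iff]
    exact ⟨a, rfl⟩⟩
  obtain ⟨b, hb⟩ := IsPGroup.iff_card.1 h7
  have h8 : (db A).index = 2 ^ b := hb
  exact ⟨b, _, h6, h8, by rw [← h8, mul_comm, AddSubgroup.card_mul_index]⟩

end

theorem olem' {B : Type} [CommGroup B] [Finite B] (s : B →* B) (m : ℕ)
    (hs : ∀ x, x * s^[2 ^ m] x = 1) (hi : (sq B).index < 2 ^ 2 ^ m) :
    ∃ b o, Odd o ∧ (sq B).index = 2 ^ b ∧ Nat.card B = 2 ^ b * o := by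
  have e : (sq B).index = (db (Additive B)).index := rfl
  rw [e] at hi ⊢
  refine olem (A := Additive B) (MonoidHom.toAdditive s).toIntLinearMap m ?_ hi
  ext x
  rw [Module.End.pow_apply]
  exact eq_inv_of_mul_eq_one_right (hs x)

theorem idx {I G : Type} [CommGroup I] [CommGroup G] (N : Subgroup (I × G)) :
    N.index = (N.map (MonoidHom.fst I G)).index * (N.comap (MonoidHom.inr I G)).index := by
  have e : (MonoidHom.inr I G).range = (MonoidHom.fst I G).ker := by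
    ext ⟨a, b⟩
    simp [eq_comm, mem_prod]
  rw [index_map, index_comap, e, MonoidHom.range_eq_top.2 Prod.fst_surjective, index_top, mul_one,
    ← relIndex_sup_left, mul_comm, relIndex_mul_index le_sup_left]

variable {X I G : Type} [CommGroup X] [CommGroup I] [CommGroup G] (d : X →* I) (ρ : X →* G)

/-- the index of the graph and a product -/
theorem idx2 (U : Subgroup I) (V : Subgroup G) : ((d.prod ρ).range ⊔ U.prod V).index =
    (d.range ⊔ U).index * (V ⊔ (U.comap d).map ρ).index := by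
  rw [idx]
  congr 2
  · ext a
    simp only [mem_map, mem_sup, MonoidHom.mem_range, mem_prod]
    constructor
    · rintro ⟨_, ⟨_, ⟨x, rfl⟩, z, hz, rfl⟩, rfl⟩
      exact ⟨_, ⟨x, rfl⟩, z.1, hz.1, rfl⟩
    · rintro ⟨_, ⟨x, rfl⟩, z, hz, rfl⟩
      exact ⟨_, ⟨_, ⟨x, rfl⟩, (z, 1), ⟨hz, one_mem _⟩, rfl⟩, rfl⟩
  · ext g
    simp only [mem_map, mem_sup, MonoidHom.mem_range, mem_prod, mem_comap]
    constructor
    · rintro ⟨_, ⟨x, rfl⟩, z, hz, k⟩
      have k1 : d x * z.1 = 1 := congrArg Prod.fst k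
      have k2 : ρ x * z.2 = g := congrArg Prod.snd k
      refine ⟨z.2, hz.2, _, ⟨x, ?_, rfl⟩, by rw [mul_comm, k2]⟩
      rw [eq_inv_of_mul_eq_one_left k1]
      exact inv_mem hz.1
    · rintro ⟨z, hz, _, ⟨x, hx, rfl⟩, rfl⟩
      exact ⟨_, ⟨x, rfl⟩, ((d x)⁻¹, z), ⟨inv_mem hx, hz⟩, Prod.ext (by simp) (by simp [mul_comm])⟩

theorem dvd1 (X' C : Subgroup X) (I' : Subgroup I) (G' : Subgroup G) (h1 : X'.map d ≤ I')
    (h2 : X'.map ρ ≤ G') (h3 : C ≤ d.ker) : (G' ⊔ C.map ρ).index * d.range.index ∣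
      ((d.prod ρ).range ⊔ I'.prod G').index *
        (((X' ⊓ d.ker) ⊔ C).relIndex d.ker * (X'.map d).relIndex I') := by
  have k1 : d.ker ≤ I'.comap d := fun x hx => by
    rw [mem_comap, MonoidHom.mem_ker.1 hx]; exact one_mem _
  have k2 : X' ≤ I'.comap d := map_le_iff_le_comap.1 h1
  have a1 : (G' ⊔ C.map ρ).relIndex (G' ⊔ (I'.comap d).map ρ) ∣ (X' ⊔ C).relIndex (I'.comap d) := by
    have : G' ⊔ (I'.comap d).map ρ = (G' ⊔ C.map ρ) ⊔ (I'.comap d).map ρ := by
      rw [sup_assoc, sup_eq_right.2 (map_mono (h3.trans k1))]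
    rw [this, relIndex_sup_left, ← relIndex_comap]
    exact relIndex_dvd_of_le_left _ (sup_le (map_le_iff_le_comap.1 (h2.trans le_sup_left))
      (map_le_iff_le_comap.1 le_sup_right))
  have a2 : (X' ⊔ C).relIndex (I'.comap d) =
      ((X' ⊓ d.ker) ⊔ C).relIndex d.ker * (X'.map d).relIndex (I' ⊓ d.range) := by
    rw [← relIndex_mul_relIndex (X' ⊔ C) (X' ⊔ d.ker) _ (sup_le_sup_left h3 _) (sup_le k2 k1)]
    congr 1
    · have : X' ⊔ d.ker = (X' ⊔ C) ⊔ d.ker := by rw [sup_assoc, sup_eq_right.2 h3]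
      rw [this, relIndex_sup_left, ← inf_relIndex_right, sup_comm X' C, sup_inf_assoc_of_le _ h3,
        sup_comm]
    · rw [← comap_map_eq, relIndex_comap, map_comap_eq, inf_comm]
  have a3 : (X'.map d).relIndex I' =
      (X'.map d).relIndex (I' ⊓ d.range) * d.range.relIndex I' := by
    rw [← relIndex_mul_relIndex _ (I' ⊓ d.range) I' (le_inf h1 (map_le_range _ _)) inf_le_left,
      inf_relIndex_left]
  have a4 : d.range.index = d.range.relIndex I' * (d.range ⊔ I').index := by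
    rw [← relIndex_sup_left, relIndex_mul_index le_sup_left]
  have a5 := relIndex_mul_index (H := G' ⊔ C.map ρ) (K := G' ⊔ (I'.comap d).map ρ)
    (sup_le_sup_left (map_mono (h3.trans k1)) _)
  obtain ⟨t, ht⟩ := a1
  rw [a2] at ht
  rw [idx2, a3, a4, ← a5, ← mul_assoc (relIndex _ d.ker), ht]
  exact ⟨t, by ring⟩

theorem cnt (S : Subgroup I) (h2 : ∀ a : I, a ^ 2 = 1 → a = 1) (h0 : d.range.index ≠ 0) :
    (sq X).relIndex ((S ⊔ sq I).comap d) =
      (sq d.ker).index * (sq I).relIndex (S ⊔ sq I) * (d.range ⊔ (S ⊔ sq I)).index := by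
  have k0 : sq X ≤ (sq I).comap d := by
    rintro _ ⟨x, rfl⟩
    exact ⟨d x, (map_pow d x 2).symm⟩
  have k1 : d.ker ≤ (sq I).comap d := fun x hx => by
    rw [mem_comap, MonoidHom.mem_ker.1 hx]; exact one_mem _
  have inj : Function.Injective (powMonoidHom 2 : I →* I) :=
    (injective_iff_map_eq_one _).2 h2
  have b1 : (sq X).relIndex d.ker = (sq d.ker).index := by
    rw [relIndex]
    congr 1
    ext x
    rw [mem_subgroupOf]
    constructor
    · rintro ⟨y, hy⟩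
      have hy' : y ^ 2 = x := hy
      exact ⟨⟨y, h2 _ (by rw [← map_pow, hy']; exact x.2)⟩, Subtype.ext hy'⟩
    · rintro ⟨y, rfl⟩
      exact ⟨y, rfl⟩
  have b2 : d.range.relIndex (d.range.comap (powMonoidHom 2 : I →* I)) =
      (d.range ⊔ sq I).index := by
    have c1 : d.range ≤ d.range.comap (powMonoidHom 2 : I →* I) := fun x hx => pow_mem hx 2
    have c2 := relIndex_mul_index c1
    have c3 := relIndex_mul_index (le_sup_left : d.range ≤ d.range ⊔ sq I)
    rw [relIndex_sup_left, ← index_comap] at c3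
    have c4 : (d.range.comap (powMonoidHom 2 : I →* I)).index ≠ 0 := fun k => h0 (by
      rw [← c2, k, mul_zero])
    exact mul_right_cancel₀ c4 (by rw [c2, mul_comm, c3])
  have b3 : (sq X ⊔ d.ker).relIndex ((sq I).comap d) = (d.range ⊔ sq I).index := by
    rw [← comap_map_eq, relIndex_comap, map_comap_eq, ← b2, ← relIndex_map_map_of_injective d.range _ inj,
      map_comap_eq, inf_comm]
    congr 1
    ext a
    constructor
    · rintro ⟨_, ⟨x, rfl⟩, rfl⟩
      exact ⟨d x, ⟨x, rfl⟩, (map_pow d x 2).symm⟩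
    · rintro ⟨_, ⟨x, rfl⟩, rfl⟩
      exact ⟨_, ⟨x, rfl⟩, map_pow d x 2⟩
  have b4 : (sq I).relIndex (S ⊔ sq I) = ((sq I).comap d).relIndex ((S ⊔ sq I).comap d) *
      (d.range ⊔ sq I).relIndex (d.range ⊔ (S ⊔ sq I)) := by
    rw [relIndex_comap, map_comap_eq, ← relIndex_sup_left (d.range ⊓ (S ⊔ sq I)) (sq I),
      ← sup_inf_assoc_of_le _ (le_sup_right : sq I ≤ S ⊔ sq I),
      ← relIndex_mul_relIndex (sq I) ((sq I ⊔ d.range) ⊓ (S ⊔ sq I)) (S ⊔ sq I)
        (le_inf le_sup_left le_sup_right) inf_le_right, inf_relIndex_right]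
    congr 1
    rw [← relIndex_sup_left (S ⊔ sq I) (sq I ⊔ d.range), sup_comm (sq I) d.range, sup_assoc,
      sup_eq_right.2 (le_sup_right : sq I ≤ S ⊔ sq I)]
  have b5 := relIndex_mul_index (sup_le_sup_left (le_sup_right : sq I ≤ S ⊔ sq I) d.range)
  rw [← relIndex_mul_relIndex _ ((sq I).comap d) _ k0 (comap_mono le_sup_right),
    ← relIndex_mul_relIndex _ (sq X ⊔ d.ker) _ le_sup_left (sup_le k0 k1), relIndex_sup_left, b1,
    b3, b4, ← b5]
  ring

end Ab

open Ab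

theorem abs : ABS := by
  intro X I G _ _ _ _ d ρ sX sI sG X' C I' S G' m e1 e2 s1 s2 n1 n2 l1 l2 l3 l4 h2 h0 x y hx hy x0
    y0 hg z hz
  set V := (S ⊔ sq I).comap d with hV
  have c1 := cnt d S h2 h0
  rw [hx, hy, ← hV] at c1
  have a0 : (d.range ⊔ (S ⊔ sq I)).index ≠ 0 := fun k => h0 (Nat.eq_zero_of_zero_dvd
    (k ▸ index_dvd_of_le le_sup_left))
  have c2 : z * ((sq G).comap ρ).relIndex V = (sq X).relIndex V := by
    rw [← hz, ← inf_relIndex_left V ((sq G).comap ρ)]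
    refine relIndex_mul_relIndex _ _ _ (le_inf ?_ ?_) inf_le_left <;> rintro _ ⟨a, rfl⟩
    · exact mem_sup_right ⟨d a, (map_pow d a 2).symm⟩
    · exact ⟨ρ a, (map_pow ρ a 2).symm⟩
  have c3 : ((sq G).comap ρ).relIndex V * (sq G ⊔ V.map ρ).index = (sq G).index := by
    rw [relIndex_comap, ← relIndex_sup_left, relIndex_mul_index le_sup_left]
  have z0 : z ≠ 0 := fun k => mul_ne_zero (mul_ne_zero x0 y0) a0 (by rw [← c1, ← c2, k, zero_mul])
  refine ⟨z0, fun hlt => ?_⟩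
  have c4 := idx2 d ρ (S ⊔ sq I) (sq G)
  rw [← hV] at c4
  have c5 : ((d.prod ρ).range ⊔ (S ⊔ sq I).prod (sq G)).index ≤ z := by
    refine Nat.le_of_mul_le_mul_right (c := x * y) ?_ (by positivity)
    calc _ = z * (sq G).index := by
          rw [c4, ← c3, ← mul_assoc z, c2, c1]; ring
      _ ≤ _ := Nat.mul_le_mul_left _ hg
  set N := (d.prod ρ).range ⊔ I'.prod G' with hN
  have N0 : N.index ≠ 0 := by
    rw [hN, idx2]
    exact mul_ne_zero (fun k => h0 (Nat.eq_zero_of_zero_dvd (k ▸ index_dvd_of_le le_sup_left)))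
      index_ne_zero_of_finite
  have : Finite ((I × G) ⧸ N) := Nat.finite_of_card_ne_zero N0
  have st : N ≤ N.comap (sI.prodMap sG) := by
    refine sup_le ?_ ?_
    · rintro _ ⟨a, rfl⟩
      exact mem_sup_left ⟨sX a, Prod.ext (e1 a) (e2 a)⟩
    · exact fun a ha => mem_sup_right ⟨s1 _ ha.1, s2 _ ha.2⟩
  have c6 : (sq ((I × G) ⧸ N)).index ≤ z := by
    refine le_trans (Nat.le_of_dvd (Nat.pos_of_ne_zero ?_) ?_) c5
    · rw [c4]
      exact mul_ne_zero a0 index_ne_zero_of_finite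
    · rw [← index_comap_of_surjective _ (QuotientGroup.mk'_surjective N)]
      refine index_dvd_of_le (sup_le (fun a ha => ?_) fun a ha => ?_)
      · rw [mem_comap, QuotientGroup.mk'_apply, (QuotientGroup.eq_one_iff a).2 (mem_sup_left ha)]
        exact one_mem _
      · obtain ⟨u, hu, _, ⟨w, rfl⟩, k⟩ := mem_sup.1 ha.1
        obtain ⟨g, hg'⟩ := ha.2
        have : a = (u, 1) * (w, g) ^ 2 := Prod.ext k.symm (by simpa using hg'.symm)
        rw [mem_comap, this, map_mul, map_pow, QuotientGroup.mk'_apply,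
          (QuotientGroup.eq_one_iff (u, (1 : G))).2
            (mem_sup_right (mem_prod.2 ⟨l4 hu, one_mem _⟩)), one_mul]
        exact ⟨_, rfl⟩
  obtain ⟨b, o, ho, k1, k2⟩ := olem' (QuotientGroup.map N N (sI.prodMap sG) st) m (fun q => by
    obtain ⟨a, rfl⟩ := QuotientGroup.mk_surjective q
    have : ∀ i, (QuotientGroup.map N N (sI.prodMap sG) st)^[i] (a : (I × G) ⧸ N) =
        ((sI^[i] a.1, sG^[i] a.2) : I × G) := fun i => by
      induction i with
      | zero => rfl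
      | succ i ih => simp only [Function.iterate_succ_apply', ih]; rfl
    rw [this, ← QuotientGroup.mk_mul, QuotientGroup.eq_one_iff]
    exact mem_sup_right ⟨n1 _, n2 _⟩) (c6.trans_lt hlt)
  refine ⟨b, o, k1 ▸ c6, ho, ?_⟩
  rw [← k2]
  exact dvd1 d ρ X' C I' G' l1 l2 l3

end Vale.Agent.P004R
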