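import Mathlib

/-!
# P004R: groups of units of quotients (general lemmas)
-/

set_option autoImplicit false

open Ideal Function

namespace Vale.Agent.P004R.Lo

section group

variable {G : Type*} [CommGroup G]

theorem idx_dvd {N : Subgroup G} {x : G} {n : ℕ} (h : x ^ n ∈ N) :
    N.index ∣ n * (N ⊔ Subgroup.zpowers x).index := by
  have a := (Subgroup.zpowers (QuotientGroup.mk' N x)).card_mul_index
  rw [Nat.card_zpowers, ← MonoidHom.map_zpowers, Subgroup.index_map, QuotientGroup.ker_mk',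
    QuotientGroup.range_mk', Subgroup.index_top, mul_one, sup_comm] at a
  rw [Subgroup.index, ← a]
  refine mul_dvd_mul_right (orderOf_dvd_of_pow_eq_one ?_) _
  rw [← map_pow]
  exact (QuotientGroup.eq_one_iff _).2 h

theorem odd_rel [Finite G] {N A : Subgroup G} {o : ℕ} (ho : Odd o) (h : ∀ x ∈ A, x ^ o ∈ N) :
    Odd (N.relIndex A) := by
  refine Nat.not_even_iff_odd.1 fun e => ?_
  obtain ⟨y, hy⟩ := exists_prime_orderOf_dvd_card' (G := A ⧸ N.subgroupOf A) 2 e.two_dvd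
  obtain ⟨g, rfl⟩ := QuotientGroup.mk_surjective y
  refine ho.not_two_dvd_nat (hy ▸ orderOf_dvd_of_pow_eq_one ?_)
  rw [← QuotientGroup.mk_pow]
  exact (QuotientGroup.eq_one_iff _).2 (h g g.2)

end group

theorem pow_dvd_of {α : Type*} [CommMonoidWithZero α] [IsCancelMulZero α] {p a b : α} (hp : Prime p)
    {k l : ℕ} (h : ¬p ^ (k + 1) ∣ a) (h' : p ^ (k + l) ∣ a * b) : p ^ l ∣ b := by
  rw [pow_dvd_iff_le_emultiplicity] at h h' ⊢
  rw [emultiplicity_mul hp, Nat.cast_add] at h'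
  rw [not_le, Nat.cast_succ, ENat.lt_add_one_iff (ENat.natCast_ne_top k)] at h
  exact (ENat.add_le_add_iff_left (ENat.natCast_ne_top k)).1 (h'.trans (add_le_add_left h _))

section ring

variable {R : Type*} [CommRing R]

theorem tot_mul {I J : Ideal R} (h : IsCoprime I J) :
    Nat.card (R ⧸ I * J)ˣ = Nat.card (R ⧸ I)ˣ * Nat.card (R ⧸ J)ˣ := by
  rw [Nat.card_congr ((Units.mapEquiv (quotientMulEquivQuotientProd I J h).toMulEquiv).trans
    MulEquiv.prodUnits).toEquiv, Nat.card_prod]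

theorem tot_prod {ι : Type*} {I : ι → Ideal R} (h : Pairwise (IsCoprime on I)) (s : Finset ι) :
    Nat.card (R ⧸ ∏ i ∈ s, I i)ˣ = ∏ i ∈ s, Nat.card (R ⧸ I i)ˣ := by
  classical
  induction s using Finset.induction_on with
  | empty =>
    have : Subsingleton (R ⧸ ∏ i ∈ ∅, I i) := Ideal.Quotient.subsingleton_iff.2 (by simp)
    rw [Nat.card_unique, Finset.prod_empty]
  | insert i s hi ih =>
    rw [Finset.prod_insert hi, Finset.prod_insert hi, tot_mul (IsCoprime.prod_right fun j hj =>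
      h (ne_of_mem_of_not_mem hj hi).symm), ih]

theorem mem_mul_prod {ι : Type*} [Fintype ι] {V : Ideal R} {W : ι → Ideal R}
    (h : ∀ i, IsCoprime V (W i)) (h' : Pairwise (IsCoprime on W)) {x : R} :
    x ∈ V * ∏ i, W i ↔ x ∈ V ∧ ∀ i, x ∈ W i := by
  rw [mul_eq_inf_of_isCoprime (IsCoprime.prod_right fun i _ => h i),
    prod_eq_iInf_of_pairwise_isCoprime fun i _ j _ e => h' e]
  simp

theorem cop_of {I J : Ideal R} {a b : ℕ} (ha : (a : R) ∈ I) (hb : (b : R) ∈ J) (h : a.Coprime b) :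
    IsCoprime I J := by
  obtain ⟨x, y, e⟩ := h.cast (R := R)
  exact isCoprime_iff_exists.2 ⟨_, I.mul_mem_left x ha, _, J.mul_mem_left y hb, e⟩

variable [IsDedekindDomain R] [Module.Free ℤ R] [Module.Finite ℤ R]

theorem tot_pow {P : Ideal R} [P.IsMaximal] (h0 : P ≠ ⊥) (n : ℕ) :
    Nat.card (R ⧸ P ^ (n + 1))ˣ = (absNorm P - 1) * absNorm P ^ n := by
  have N0 : absNorm P ≠ 0 := absNorm_eq_zero_iff.not.2 h0
  have : Finite (R ⧸ P ^ (n + 1)) := (absNorm_ne_zero_iff _).1 (by rw [map_pow]; positivity)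
  let f : R ⧸ P ^ (n + 1) →+* R ⧸ P := Ideal.Quotient.factor (pow_le_self n.succ_ne_zero)
  have a : Nat.card (R ⧸ P ^ (n + 1)) = absNorm P ^ n * absNorm P := by
    rw [← pow_succ, ← map_pow]; rfl
  have b := f.toAddMonoidHom.ker.card_mul_index
  rw [AddSubgroup.index_ker, AddMonoidHom.range_eq_top.2
    (Ideal.Quotient.factor_surjective (pow_le_self n.succ_ne_zero)),
    AddSubgroup.card_top, a] at b
  have c := Set.ncard_add_ncard_compl (f.toAddMonoidHom.ker : Set (R ⧸ P ^ (n + 1)))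
  have d : Nat.card (R ⧸ P ^ (n + 1))ˣ =
      (f.toAddMonoidHom.ker : Set (R ⧸ P ^ (n + 1)))ᶜ.ncard := by
    rw [← Set.ncard_range_of_injective Units.val_injective]
    congr 1
    ext x
    obtain ⟨x, rfl⟩ := Ideal.Quotient.mk_surjective x
    exact (Ideal.Quotient.isUnit_mk_pow_iff_notMem P n.succ_ne_zero).trans Ideal.Quotient.eq_zero_iff_mem.not.symm
  rw [← Nat.card_coe_set_eq, a, ← d, SetLike.coe_sort_coe, mul_right_cancel₀ N0 b] at c
  rw [tsub_mul, one_mul, mul_comm]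
  omega

theorem tot {ι : Type*} [Fintype ι] {V : Ideal R} {W : ι → Ideal R} [V.IsMaximal]
    [∀ i, (W i).IsMaximal] (h0 : V ≠ ⊥) (h1 : ∀ i, W i ≠ ⊥) (h : ∀ i, IsCoprime V (W i))
    (h' : Pairwise (IsCoprime on W)) : Nat.card (R ⧸ V ^ 5 * ∏ i, W i)ˣ =
      (absNorm V - 1) * absNorm V ^ 4 * ∏ i, (absNorm (W i) - 1) := by
  rw [tot_mul (IsCoprime.prod_right fun i _ => (h i).pow_left), tot_prod h', tot_pow h0 4]
  congr 1
  refine Finset.prod_congr rfl fun i _ => ?_
  have := tot_pow (h1 i) 0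
  rwa [zero_add, pow_one, pow_zero, mul_one] at this

omit [Module.Free ℤ R] [Module.Finite ℤ R] in
/-- square roots of one modulo `V ^ 5` -/
theorem sq_one {V V' : Ideal R} [hV : V.IsPrime] (h0 : V ≠ ⊥) (e : V * V' = span {2})
    (c : V ⊔ V' = ⊤) {x : R} (h : x ^ 2 - 1 ∈ V ^ 5) :
    ∃ (ε : ℤˣ) (a : R), x - (ε : ℤ) - 16 * a ∈ V ^ 5 := by
  have hp := prime_of_isPrime h0 hV
  have k : ∀ y ∈ V ^ 4, ∃ a, y - 16 * a ∈ V ^ 5 := fun y hy => by
    have : V ^ 4 = span {16} ⊔ V ^ 5 := by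
      rw [show (16 : R) = 2 ^ 4 by norm_num, ← span_singleton_pow, ← e, mul_pow, pow_succ V 4,
        ← Ideal.mul_sup, (isCoprime_iff_sup_eq.2 c).symm.pow_left.sup_eq, mul_top]
    obtain ⟨_, ha, z, hz, rfl⟩ := Submodule.mem_sup.1 (this ▸ hy)
    obtain ⟨a, rfl⟩ := mem_span_singleton'.1 ha
    exact ⟨a, by rwa [mul_comm 16, add_sub_cancel_left]⟩
  have t : (2 : R) ∉ V ^ 2 := fun m => by
    rw [← dvd_span_singleton, ← e, sq, mul_dvd_mul_iff_left h0, dvd_iff_le] at m
    exact hV.ne_top ((sup_eq_left.2 m).symm.trans c)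
  rw [show x ^ 2 - 1 = (x - 1) * (x + 1) by ring, ← dvd_span_singleton,
    ← span_singleton_mul_span_singleton] at h
  by_cases m : x - 1 ∈ V ^ 2
  · have m' : ¬V ^ (1 + 1) ∣ span {x + 1} := fun m' =>
      t (by simpa [one_add_one_eq_two] using sub_mem (dvd_span_singleton.1 m') m)
    exact ⟨1, by simpa using k _ (dvd_span_singleton.1 (pow_dvd_of hp m' (by rwa [mul_comm] at h)))⟩
  · exact ⟨-1, by simpa using k _ (dvd_span_singleton.1
      (pow_dvd_of hp (k := 1) (dvd_span_singleton.not.2 m) h))⟩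

theorem sq_idx {ι : Type*} [Fintype ι] {V V' I : Ideal R} {W : ι → Ideal R} [hV : V.IsPrime]
    [hW : ∀ i, (W i).IsPrime] (h0 : V ≠ ⊥) (e : V * V' = span {2}) (c : V ⊔ V' = ⊤)
    (m : ∀ {x}, x ∈ I ↔ x ∈ V ^ 5 ∧ ∀ i, x ∈ W i) [Finite (R ⧸ I)] :
    (powMonoidHom 2 : (R ⧸ I)ˣ →* _).range.index ≤ 2 * absNorm V * 2 ^ Fintype.card ι := by
  classical
  have : Finite (R ⧸ V) := (absNorm_ne_zero_iff _).1 (absNorm_eq_zero_iff.not.2 h0)
  have k : ∀ g : (powMonoidHom 2 : (R ⧸ I)ˣ →* _).ker, ∃ (x : R) (ε : ℤˣ) (a : R)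
      (η : ι → ℤˣ), Ideal.Quotient.mk I x = g.1.1 ∧ x - (ε : ℤ) - 16 * a ∈ V ^ 5 ∧
        ∀ i, x - (η i : ℤ) ∈ W i := fun g => by
    obtain ⟨x, hx⟩ := Ideal.Quotient.mk_surjective g.1.1
    have q : x ^ 2 - 1 ∈ I := Ideal.Quotient.eq.1 (by
      rw [map_pow, hx, map_one, ← Units.val_pow_eq_pow_val]; exact congrArg Units.val g.2)
    obtain ⟨ε, a, ha⟩ := sq_one h0 e c (m.1 q).1
    rw [show x ^ 2 - 1 = (x - 1) * (x + 1) by ring] at q
    have : ∀ i, ∃ η : ℤˣ, x - (η : ℤ) ∈ W i := fun i => ((hW i).mem_or_mem ((m.1 q).2 i)).elim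
      (fun b => ⟨1, by simpa using b⟩) fun b => ⟨-1, by simpa using b⟩
    choose η hη using this
    exact ⟨x, ε, a, η, hx, ha, hη⟩
  choose x ε a η h1 h2 h3 using k
  have inj : Injective fun g => (ε g, Ideal.Quotient.mk V (a g), η g) := fun g g' q => by
    simp only [Prod.mk.injEq] at q
    refine Subtype.ext (Units.ext ?_)
    rw [← h1, ← h1]
    refine Ideal.Quotient.eq.2 (m.2 ⟨?_, fun i => ?_⟩)
    · have t : (2 : R) ∈ V := (mul_le_left (I := V) (J := V')) (by rw [e]; exact mem_span_singleton_self 2)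
      have u : 2 ^ 4 * (a g - a g') ∈ V ^ 5 := by
        rw [pow_succ V 4]
        exact mul_mem_mul (pow_mem_pow t 4) (Ideal.Quotient.eq.1 q.2.1)
      have := add_mem (sub_mem (h2 g) (h2 g')) u
      rw [q.1] at this
      convert this using 1
      ring
    · have := sub_mem (h3 g i) (h3 g' i)
      rwa [q.2.2, sub_sub_sub_cancel_right] at this
  rw [Subgroup.index_range]
  refine (Nat.card_le_card_of_injective _ inj).trans_eq ?_
  rw [Nat.card_prod, Nat.card_prod, Nat.card_fun, Nat.card_eq_fintype_card (α := ℤˣ),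
    Fintype.card_units_int, Nat.card_eq_fintype_card (α := ι), mul_assoc]
  rfl

end ring

/-- the roots of `X ^ q - X` are in the subfield with `q` elements -/
theorem mem_range {k K : Type*} [Field k] [Field K] [Finite k] (f : k →+* K) {z : K}
    (h : z ^ Nat.card k = z) : z ∈ Set.range f := by
  classical
  have := Fintype.ofFinite k
  rw [Nat.card_eq_fintype_card] at h
  have n := FiniteField.X_pow_card_sub_X_ne_zero K (Fintype.one_lt_card (α := k))
  have e : Finset.univ.image f = (Polynomial.X ^ Fintype.card k - Polynomial.X :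
      Polynomial K).roots.toFinset := Finset.eq_of_subset_of_card_le (fun y hy => by
    obtain ⟨a, -, rfl⟩ := Finset.mem_image.1 hy
    simp [n, ← map_pow, FiniteField.pow_card]) (by
    rw [Finset.card_image_of_injective _ f.injective]
    exact (Multiset.toFinset_card_le _).trans ((Polynomial.card_roots' _).trans_eq
      (FiniteField.X_pow_card_sub_X_natDegree_eq K Fintype.one_lt_card)))
  obtain ⟨a, -, ha⟩ := Finset.mem_image.1 (e ▸ (by simp [n, h] : z ∈ (Polynomial.X ^ Fintype.card k -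
    Polynomial.X : Polynomial K).roots.toFinset))
  exact ⟨a, ha⟩

end Vale.Agent.P004R.Lo
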