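import Vale.Agent.P022.H853.L3.Dens

/-!
# P004R: primes in finite Galois extensions inside the algebraic closure
-/

set_option autoImplicit false
set_option linter.all false

open NumberField Module IsDedekindDomain
open scoped Pointwise

noncomputable section

namespace Vale.Agent.P004R.Gl

open Vale.Agent.P022 Vale.Agent.P022.H916

variable {K L : Type} [Field K] [NumberField K] [Field L] [NumberField L]
  {j : K →+* Qb} {jL : L →+* Qb} {P : Ideal (𝓞 Qb)} {l : ℕ}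

theorem ex_hom (h : GK jL ≤ GK j) : ∃ ι : K →+* L, ∀ x, jL (ι x) = j x := by
  choose f hf using fun x : K => fixed jL (x := j x) fun g => h g.2 x
  exact ⟨⟨⟨⟨f, jL.injective (by simp [hf])⟩, fun x y => jL.injective (by simp [hf])⟩,
    jL.injective (by simp [hf]), fun x y => jL.injective (by simp [hf])⟩, hf⟩

theorem ex_dict [Algebra K L] (hc : ∀ x, jL (algebraMap K L x) = j x)
    (hn : ∀ g ∈ GK j, ∀ u ∈ GK jL, g * u * g⁻¹ ∈ GK jL) :
    IsGalois K L ∧ ∃ ρ : GK j →* (L ≃ₐ[K] L), Dict j jL ρ := by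
  obtain ⟨L', _, _, _, _, j', ρ, D, e, -⟩ := exists_fld j (GK jL) (isOpen_GK jL)
    (fun g hg x => by rw [← hc]; exact hg _) hn
  obtain ⟨a, ha⟩ := ex_hom (j := j') (jL := jL) e.ge
  obtain ⟨b, hb⟩ := ex_hom (j := jL) (jL := j') e.le
  let E : L' ≃ₐ[K] L := AlgEquiv.ofRingEquiv (f := RingEquiv.ofBijective a ⟨a.injective, fun y =>
    ⟨b y, jL.injective (by rw [ha, hb])⟩⟩) fun x => jL.injective (by
      rw [hc, ← D.comp]; exact ha _)
  have hE : ∀ x, jL (E x) = j' x := ha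
  refine ⟨IsGalois.of_algEquiv E, (AlgEquiv.autCongr E).toMonoidHom.comp ρ, hc, fun g x => ?_,
    (AlgEquiv.autCongr E).surjective.comp D.surj⟩
  show _ = jL (E (ρ g (E.symm x)))
  rw [hE, ← D.act, ← hE, AlgEquiv.apply_symm_apply]

theorem mem_below (n : ℕ) : (n : 𝓞 K) ∈ below j P ↔ (n : 𝓞 Qb) ∈ P := by
  rw [below, Ideal.mem_comap, map_natCast]

theorem below_pr (j : K →+* Qb) (hP : P.IsPrime) : (below j P).IsPrime := Ideal.IsPrime.comap _

theorem below_ne (j : K →+* Qb) (hl : l ≠ 0) (h : (l : 𝓞 Qb) ∈ P) : below j P ≠ ⊥ := fun e => by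
  have := (mem_below (j := j) l).2 h
  rw [e, Ideal.mem_bot] at this
  exact hl (by exact_mod_cast this)

theorem two_le (j : K →+* Qb) (hP : P.IsPrime) (hl : l ≠ 0) (h : (l : 𝓞 Qb) ∈ P) :
    1 < Ideal.absNorm (below j P) := by
  have a : Ideal.absNorm (below j P) ≠ 0 := mt Ideal.absNorm_eq_zero_iff.1 (below_ne j hl h)
  have b : Ideal.absNorm (below j P) ≠ 1 := mt Ideal.absNorm_eq_one_iff.1 (below_pr j hP).ne_top
  omega

theorem pow_norm (I : Ideal (𝓞 L)) (hI : I.IsPrime) (h0 : I ≠ ⊥) (y : 𝓞 L) :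
    y ^ Ideal.absNorm I - y ∈ I := by
  have := hI.isMaximal h0
  let _ : Field (𝓞 L ⧸ I) := Ideal.Quotient.field _
  have : Finite (𝓞 L ⧸ I) := Ideal.finiteQuotientOfFreeOfNeBot _ h0
  let _ : Fintype (𝓞 L ⧸ I) := Fintype.ofFinite _
  rw [← Ideal.Quotient.eq, map_pow, Ideal.absNorm_apply, Submodule.cardQuot_apply,
    Nat.card_eq_fintype_card]
  exact FiniteField.pow_card _

theorem frob_pow (hP : P.IsPrime) {ψ : GQ} {q : ℕ} (hq : q ≠ 0)
    (h : ∀ x : 𝓞 Qb, ψ • x - x ^ q ∈ P) (i : ℕ) : ∀ x : 𝓞 Qb, (ψ ^ i) • x - x ^ q ^ i ∈ P := by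
  induction i with
  | zero => simp
  | succ i ih =>
    intro x
    have a := (mem_of_frob hP hq h _).2 (ih x)
    have b := h (x ^ q ^ i)
    rw [smul_sub, ← mul_smul, ← pow_succ'] at a
    rw [← pow_mul, ← pow_succ] at b
    simpa using P.add_mem a b

/-- roots of unity of order prime to `P` are distinct modulo `P` -/
theorem root_eq {R : Type} [CommRing R] [IsDomain R] {P : Ideal R} (hP : P.IsPrime) {m : ℕ}
    (hm : (m : R) ∉ P) {x y : R} (hx : x ^ m = 1) (hy : y ^ m = 1) (h : x - y ∈ P) : x = y := by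
  by_contra hne
  have h1 := geom_sum₂_mul x y m
  rw [hx, hy, sub_self, mul_eq_zero, or_iff_left (sub_ne_zero.2 hne)] at h1
  have h2 := congrArg (Ideal.Quotient.mk P) h1
  simp only [map_sum, map_mul, map_pow, Ideal.Quotient.eq.2 h, geom_sum₂_self, map_zero] at h2
  rw [← map_natCast (Ideal.Quotient.mk P), ← map_pow, ← map_mul,
    Ideal.Quotient.eq_zero_iff_mem] at h2
  have m0 : m ≠ 0 := fun e => hm (by rw [e, Nat.cast_zero]; exact zero_mem _)
  have h3 := P.mul_mem_right y ((hP.mem_or_mem h2).resolve_left hm)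
  rw [pow_sub_one_mul m0, hy] at h3
  exact hP.ne_top ((Ideal.eq_top_iff_one P).2 h3)

theorem eq_of_norm {I J : Ideal (𝓞 L)} (h : J ≤ I) (e : Ideal.absNorm J = Ideal.absNorm I)
    (h0 : I ≠ ⊥) : J = I := by
  obtain ⟨C, rfl⟩ := Ideal.dvd_iff_le.2 h
  rw [map_mul, mul_eq_left₀ (mt Ideal.absNorm_eq_zero_iff.1 h0), Ideal.absNorm_eq_one_iff] at e
  rw [e, Ideal.mul_top]

section

variable [Algebra K L] {ρ : GK j →* (L ≃ₐ[K] L)}

theorem lies (D : Dict j jL ρ) (P : Ideal (𝓞 Qb)) : (below jL P).LiesOver (below j P) :=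
  ⟨(D.below_comap P).symm⟩

/-- the order of a Frobenius element is the residue degree -/
theorem ord (D : Dict j jL ρ) (hP : P.IsPrime) (hl : l ≠ 0) (h : (l : 𝓞 Qb) ∈ P)
    (hI : ∀ g ∈ GK j, (∀ x : 𝓞 Qb, g • x - x ∈ P) → g ∈ GK jL) {ψ : GK j}
    (hψ : ∀ x : 𝓞 Qb, (ψ : GQ) • x - x ^ Ideal.absNorm (below j P) ∈ P) :
    orderOf (ρ ψ) = (below jL P).inertiaDeg (𝓞 K) := by
  have := lies D P
  have p := below_pr jL hP
  have q1 := two_le j hP hl h
  have e := Ideal.absNorm_pow_inertiaDeg (below j P) (below jL P)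
  have k : ∀ i (y : 𝓞 L), (ρ ψ ^ i) • y - y ^ Ideal.absNorm (below j P) ^ i ∈ below jL P :=
    fun i y => by
    rw [← map_pow]
    exact D.frob_push (g := ψ ^ i) (frob_pow hP (by omega) hψ i) y
  refine (orderOf_eq_iff (Ideal.inertiaDeg_pos _ _)).2 ⟨?_, fun m hm m0 a => hm.not_ge ?_⟩
  · refine D.inertia_eq_bot hP (fun g hg => (D.ker g).2 (hI g g.2 hg)) fun y => ?_
    have a := k ((below jL P).inertiaDeg (𝓞 K)) y
    rw [e] at a
    simpa using (below jL P).add_mem a (pow_norm _ p (below_ne jL hl h) y)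
  · have b := (H853.card_le_of_pow_eq (R := 𝓞 L ⧸ below jL P) (Nat.one_lt_pow m0.ne' q1) fun x => by
      obtain ⟨y, rfl⟩ := Ideal.Quotient.mk_surjective x
      have c := k m y
      rw [a, one_smul] at c
      rw [← map_pow]
      exact (Ideal.Quotient.eq.2 c).symm).2
    refine (Nat.pow_le_pow_iff_right q1).1 ?_
    rwa [e, Ideal.absNorm_apply, Submodule.cardQuot_apply]

/-- the norm of the prime below -/
theorem nrm (D : Dict j jL ρ) (hP : P.IsPrime) (hl : l ≠ 0) (h : (l : 𝓞 Qb) ∈ P)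
    (hI : ∀ g ∈ GK j, (∀ x : 𝓞 Qb, g • x - x ∈ P) → g ∈ GK jL) {ψ : GQ} (m : ψ ∈ GK j)
    (hψ : ∀ x : 𝓞 Qb, ψ • x - x ^ Ideal.absNorm (below j P) ∈ P) {f : ℕ}
    (hf : ∀ i, ψ ^ i ∈ GK jL ↔ f ∣ i) :
    Ideal.absNorm (below jL P) = Ideal.absNorm (below j P) ^ f := by
  have := lies D P
  have p := below_pr jL hP
  have k : ∀ i, orderOf (ρ ⟨ψ, m⟩) ∣ i ↔ f ∣ i := fun i => by
    rw [orderOf_dvd_iff_pow_eq_one, ← map_pow, D.ker]
    exact hf i
  rw [← Ideal.absNorm_pow_inertiaDeg (below j P) (below jL P), ← ord D hP hl h hI (ψ := ⟨ψ, m⟩) hψ,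
    Nat.dvd_antisymm ((k f).2 dvd_rfl) ((k _).1 dvd_rfl)]

/-- a cyclic group -/
theorem card_eq (D : Dict j jL ρ) {t : GQ} (m : t ∈ GK j) {n : ℕ} (h : ∀ i, t ^ i ∈ GK jL ↔ n ∣ i)
    (g : ∀ g ∈ GK j, ∃ i : ℕ, g⁻¹ * t ^ i ∈ GK jL) :
    (∀ τ, τ ∈ Submonoid.powers (ρ ⟨t, m⟩)) ∧ Nat.card (L ≃ₐ[K] L) = n := by
  have a : ∀ τ, τ ∈ Submonoid.powers (ρ ⟨t, m⟩) := fun τ => by
    obtain ⟨x, rfl⟩ := D.surj τ
    obtain ⟨i, hi⟩ := g x x.2
    have := (D.ker (x⁻¹ * ⟨t, m⟩ ^ i)).2 hi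
    rw [map_mul, map_inv, map_pow, inv_mul_eq_one] at this
    exact ⟨i, this.symm⟩
  have k : ∀ i, orderOf (ρ ⟨t, m⟩) ∣ i ↔ n ∣ i := fun i => by
    rw [orderOf_dvd_iff_pow_eq_one, ← map_pow, D.ker]
    exact h i
  exact ⟨a, by rw [← orderOf_eq_card_of_forall_mem_powers a,
    Nat.dvd_antisymm ((k n).2 dvd_rfl) ((k _).1 dvd_rfl)]⟩

/-- the primes above a prime: number and norm -/
theorem fib [IsGalois K L] (D : Dict j jL ρ) (hP : P.IsPrime) {v : HeightOneSpectrum (𝓞 K)}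
    (hv : below j P = v.asIdeal) : Finite {w : HeightOneSpectrum (𝓞 L) // w.under (𝓞 K) = v} ∧
    Nat.card {w : HeightOneSpectrum (𝓞 L) // w.under (𝓞 K) = v} *
      Nat.card ((below jL P).inertia (L ≃ₐ[K] L)) * (below jL P).inertiaDeg (𝓞 K) =
      Nat.card (L ≃ₐ[K] L) ∧ ∀ w : HeightOneSpectrum (𝓞 L), w.under (𝓞 K) = v →
      Ideal.absNorm w.asIdeal = Ideal.absNorm v.asIdeal ^ (below jL P).inertiaDeg (𝓞 K) := by
  have o := lies D P
  rw [hv] at o
  have p := below_pr jL hP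
  have := v.isPrime
  have := v.isMaximal
  have : Finite (𝓞 K ⧸ v.asIdeal) := Ideal.finiteQuotientOfFreeOfNeBot _ v.ne_bot
  let E : {w : HeightOneSpectrum (𝓞 L) // w.under (𝓞 K) = v} ≃ v.asIdeal.primesOver (𝓞 L) :=
    { toFun := fun w => ⟨w.1.asIdeal, w.1.isPrime, ⟨(congrArg HeightOneSpectrum.asIdeal w.2).symm⟩⟩
      invFun := fun Q => ⟨⟨Q.1, Q.2.1, by
        have := Q.2.2
        exact Ideal.ne_bot_of_liesOver_of_ne_bot v.ne_bot Q.1⟩,
        HeightOneSpectrum.ext Q.2.2.over.symm⟩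
      left_inv := fun _ => rfl
      right_inv := fun _ => rfl }
  refine ⟨Finite.of_equiv _ E.symm, ?_, fun w hw => ?_⟩
  · rw [Nat.card_congr E, Nat.card_coe_set_eq]
    exact Ideal.ncard_primesOver_mul_card_inertia_mul_finrank v.asIdeal (below jL P)
  · have := w.isPrime
    have : w.asIdeal.LiesOver v.asIdeal := ⟨(congrArg HeightOneSpectrum.asIdeal hw).symm⟩
    rw [← Ideal.absNorm_pow_inertiaDeg v.asIdeal w.asIdeal,
      Ideal.inertiaDeg_eq_of_isGaloisGroup v.asIdeal w.asIdeal (below jL P) (L ≃ₐ[K] L)]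

end

/-- the embedding of the rationals -/
abbrev jQ : ℚ →+* Qb := algebraMap ℚ Qb

theorem mem_Q (g : GQ) : g ∈ GK jQ := fun x => g.commutes x

theorem norm_Q (hP : P.IsPrime) (hl : l.Prime) (h : (l : 𝓞 Qb) ∈ P) :
    Ideal.absNorm (below jQ P) = l := by
  have a : Ideal.absNorm (below jQ P) ∣ l := by
    have := Ideal.absNorm_dvd_absNorm_of_le
      ((Ideal.span_singleton_le_iff_mem _).2 ((mem_below (j := jQ) l).2 h))
    rwa [Ideal.absNorm_span_natCast, RingOfIntegers.rank, Module.finrank_self, pow_one] at this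
  exact ((Nat.dvd_prime hl).1 a).resolve_left (two_le jQ hP hl.ne_zero h).ne'

theorem ex_Q (hn : (GK jL).Normal) : IsGalois ℚ L ∧ ∃ ρ : GK jQ →* (L ≃ₐ[ℚ] L), Dict jQ jL ρ :=
  ex_dict (fun x => by simp) fun g _ u hu => hn.conj_mem u hu g

/-- unramified primes do not divide the discriminant -/
theorem ndisc (hn : (GK jL).Normal) (hP : P.IsPrime) (hl : l.Prime) (h : (l : 𝓞 Qb) ∈ P)
    (hI : ∀ g : GQ, (∀ x : 𝓞 Qb, g • x - x ∈ P) → g ∈ GK jL) : ¬ (l : ℤ) ∣ discr L := by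
  obtain ⟨_, ρ, D⟩ := ex_Q hn
  have pl : Prime (l : ℤ) := Nat.prime_iff_prime_int.1 hl
  have pr := below_pr jL hP
  have lo : (below jL P).LiesOver (Ideal.span {(l : ℤ)}) :=
    (Ideal.liesOver_span_iff pr.ne_top pl).2 (by simpa using (mem_below (j := jL) l).2 h)
  have mx : (Ideal.span {(l : ℤ)}).IsMaximal :=
    PrincipalIdealRing.isMaximal_of_irreducible pl.irreducible
  have : Finite (ℤ ⧸ Ideal.span {(l : ℤ)}) :=
    Ideal.finiteQuotientOfFreeOfNeBot _ (by simpa using hl.ne_zero)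
  refine (not_dvd_discr_iff_forall_liesOver L (𝓞 L) pl).2 fun Q hQ o => ?_
  rw [← Ideal.ramificationIdx_eq_one_iff,
    ← Ideal.ramificationIdxIn_eq_ramificationIdx (Ideal.span {(l : ℤ)}) _ (L ≃ₐ[ℚ] L),
    ← Ideal.card_inertia_eq_ramificationIdxIn (G := L ≃ₐ[ℚ] L) _ (below jL P),
    Subgroup.card_eq_one, eq_bot_iff]
  exact fun s hs => D.inertia_eq_bot hP (fun g hg => (D.ker g).2 (hI g hg)) hs

end Vale.Agent.P004R.Gl
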