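import Vale.Agent.P004R.Abs

/-!
# P004R: the rows for the structure which is strict at one prime above two only
-/

set_option autoImplicit false
set_option linter.all false

open NumberField

noncomputable section

namespace Vale.Agent.P004R

open Subgroup

/-- the local indices at `v` -/
def LOC2 : Prop := ∀ (F H : Type) [Field F] [NumberField F] [Field H] [NumberField H] [Algebra F H]
  (σ : H ≃ₐ[ℚ] H) (M : ℕ) (v v' : Ideal (𝓞 F)), Cp F σ M → Ip σ M 2 v v' →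
  (sq (𝓞 H ⧸ up H v ^ 5)ˣ).index ≤ 2 ^ (2 * M + 1) ∧
  ∀ (u : (𝓞 H)ˣ) (r : ℕ), Dp σ v u r → 2 ^ (4 * M) ∣ 2 ^ r *
    (Gp F (up H v ^ 5) ⊔ (CU F σ u).map
      (Units.map (Ideal.Quotient.mk (up H v ^ 5) : 𝓞 H →* 𝓞 H ⧸ up H v ^ 5))).index

/-- **the lower bound for the Selmer group**: strict at `v`, relaxed at `v'`, `w i`, `w' i` -/
def BT2 : Prop := ∀ (F H : Type) [Field F] [NumberField F] [Field H] [NumberField H] [Algebra F H]
  (σ : H ≃ₐ[ℚ] H) (M : ℕ) (ι : Type) [Fintype ι] (p : ι → ℕ) (v v' : Ideal (𝓞 F))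
  (w w' : ι → Ideal (𝓞 F)), Pd σ M p v v' w w' → ∀ (u : (𝓞 H)ˣ) (r : ℕ), Dp σ v u r →
  (CU F σ u).index ≠ 0 → ∀ (Z : Type) [Finite Z] (κ : 𝓞 H → Z),
  (∀ a b, Ad (up H v ^ 5) (md H v' w' * ∏ i, up H (w i)) a →
    Ad (up H v ^ 5) (md H v' w' * ∏ i, up H (w i)) b → κ a = κ b → IsSquare ((a : H) * b)) →
  Nat.card Z < 2 ^ M → ∃ b : ℕ, 2 ^ (b + 2 * Fintype.card ι) ≤ Nat.card Z ∧
    4 * M + padicValNat 2 (classNumber H) ≤
      b + r + padicValNat 2 ((CU F σ u).index * classNumber F)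

open Ab in
/-- the row `ABS` with a gain `a` -/
theorem abs2 {X I G : Type} [CommGroup X] [CommGroup I] [CommGroup G] [Finite G]
    (d : X →* I) (ρ : X →* G) (sX : X →* X) (sI : I →* I) (sG : G →* G) (X' C : Subgroup X)
    (I' S : Subgroup I) (G' : Subgroup G) (m : ℕ) (e1 : ∀ x, d (sX x) = sI (d x))
    (e2 : ∀ x, ρ (sX x) = sG (ρ x)) (s1 : ∀ a ∈ I', sI a ∈ I') (s2 : ∀ g ∈ G', sG g ∈ G')
    (n1 : ∀ a, a * sI^[2 ^ m] a ∈ I') (n2 : ∀ g, g * sG^[2 ^ m] g ∈ G') (l1 : X'.map d ≤ I')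
    (l2 : X'.map ρ ≤ G') (l3 : C ≤ d.ker) (l4 : S ≤ I') (h2 : ∀ a : I, a ^ 2 = 1 → a = 1)
    (h0 : d.range.index ≠ 0) (x y a : ℕ) (hx : (sq d.ker).index = x)
    (hy : (sq I).relIndex (S ⊔ sq I) = y) (x0 : x ≠ 0) (y0 : y ≠ 0) (a1 : a ≠ 0)
    (hg : a * (sq G).index ≤ x * y) (z : ℕ)
    (hz : (sq X).relIndex ((S ⊔ sq I).comap d ⊓ (sq G).comap ρ) = z) :
    z ≠ 0 ∧ (z < 2 ^ 2 ^ m → ∃ b o : ℕ, 2 ^ b * a ≤ z ∧ Odd o ∧
      (G' ⊔ C.map ρ).index * d.range.index ∣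
        2 ^ b * o * (((X' ⊓ d.ker) ⊔ C).relIndex d.ker * (X'.map d).relIndex I')) := by
  set V := (S ⊔ sq I).comap d with hV
  have c1 := cnt d S h2 h0
  rw [hx, hy, ← hV] at c1
  have a0 : (d.range ⊔ (S ⊔ sq I)).index ≠ 0 := fun k => h0 (Nat.eq_zero_of_zero_dvd
    (k ▸ index_dvd_of_le le_sup_left))
  have c2 : z * ((sq G).comap ρ).relIndex V = (sq X).relIndex V := by
    rw [← hz, ← inf_relIndex_left V ((sq G).comap ρ)]
    refine relIndex_mul_relIndex _ _ _ (le_inf ?_ ?_) inf_le_left <;> rintro _ ⟨a, rfl⟩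
    · exact mem_sup_right ⟨d a, (map_pow d a 2).symm⟩
    · exact ⟨ρ a, (map_pow ρ a 2).symm⟩
  have c3 : ((sq G).comap ρ).relIndex V * (sq G ⊔ V.map ρ).index = (sq G).index := by
    rw [relIndex_comap, ← relIndex_sup_left, relIndex_mul_index le_sup_left]
  have z0 : z ≠ 0 := fun k => mul_ne_zero (mul_ne_zero x0 y0) a0 (by rw [← c1, ← c2, k, zero_mul])
  refine ⟨z0, fun hlt => ?_⟩
  have c4 := idx2 d ρ (S ⊔ sq I) (sq G)
  rw [← hV] at c4
  have g0 : (sq G).index ≠ 0 := index_ne_zero_of_finite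
  have c5 : ((d.prod ρ).range ⊔ (S ⊔ sq I).prod (sq G)).index * a ≤ z := by
    refine Nat.le_of_mul_le_mul_right (c := (sq G).index) ?_ (by positivity)
    calc _ ≤ ((d.prod ρ).range ⊔ (S ⊔ sq I).prod (sq G)).index * (x * y) := by
          rw [mul_assoc]; exact Nat.mul_le_mul_left _ hg
      _ = z * (sq G).index := by
          rw [c4, ← c3, ← mul_assoc z, c2, c1]; ring
  set N := (d.prod ρ).range ⊔ I'.prod G' with hN
  have N0 : N.index ≠ 0 := by
    rw [hN, idx2]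
    exact mul_ne_zero (fun k => h0 (Nat.eq_zero_of_zero_dvd (k ▸ index_dvd_of_le le_sup_left)))
      index_ne_zero_of_finite
  have : Finite ((I × G) ⧸ N) := Nat.finite_of_card_ne_zero N0
  have st : N ≤ N.comap (sI.prodMap sG) := by
    refine sup_le ?_ ?_
    · rintro _ ⟨a, rfl⟩
      exact mem_sup_left ⟨sX a, Prod.ext (e1 a) (e2 a)⟩
    · exact fun a ha => mem_sup_right ⟨s1 _ ha.1, s2 _ ha.2⟩
  have c6 : (sq ((I × G) ⧸ N)).index * a ≤ z := by
    refine le_trans (Nat.mul_le_mul_right _ (Nat.le_of_dvd (Nat.pos_of_ne_zero ?_) ?_)) c5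
    · rw [c4]
      exact mul_ne_zero a0 index_ne_zero_of_finite
    · rw [← index_comap_of_surjective _ (QuotientGroup.mk'_surjective N)]
      refine index_dvd_of_le (sup_le (fun a ha => ?_) fun a ha => ?_)
      · rw [mem_comap, QuotientGroup.mk'_apply, (QuotientGroup.eq_one_iff a).2 (mem_sup_left ha)]
        exact one_mem _
      · obtain ⟨u, hu, _, ⟨w, rfl⟩, k⟩ := mem_sup.1 ha.1
        obtain ⟨g, hg'⟩ := ha.2
        have : a = (u, 1) * (w, g) ^ 2 := Prod.ext k.symm (by simpa using hg'.symm)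
        rw [mem_comap, this, map_mul, map_pow, QuotientGroup.mk'_apply,
          (QuotientGroup.eq_one_iff (u, (1 : G))).2
            (mem_sup_right (mem_prod.2 ⟨l4 hu, one_mem _⟩)), one_mul]
        exact ⟨_, rfl⟩
  obtain ⟨b, o, ho, k1, k2⟩ := olem' (QuotientGroup.map N N (sI.prodMap sG) st) m (fun q => by
    obtain ⟨a, rfl⟩ := QuotientGroup.mk_surjective q
    have : ∀ i, (QuotientGroup.map N N (sI.prodMap sG) st)^[i] (a : (I × G) ⧸ N) =
        ((sI^[i] a.1, sG^[i] a.2) : I × G) := fun i => by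
      induction i with
      | zero => rfl
      | succ i ih => simp only [Function.iterate_succ_apply', ih]; rfl
    rw [this, ← QuotientGroup.mk_mul, QuotientGroup.eq_one_iff]
    exact mem_sup_right ⟨n1 _, n2 _⟩)
    (((Nat.le_mul_of_pos_right _ (Nat.pos_of_ne_zero a1)).trans c6).trans_lt hlt)
  refine ⟨b, o, k1 ▸ c6, ho, ?_⟩
  rw [← k2]
  exact dvd1 d ρ X' C I' G' l1 l2 l3

end Vale.Agent.P004R
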