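import Vale.Agent.P004R.St
import Vale.Agent.P004R.St1
import Vale.Agent.P004F.Qx.St

/-!
# P004R: the rows which connect the index formula with the two sides of the anchor
-/

set_option autoImplicit false

open UpperHalfPlane NumberField CongruenceSubgroup
open scoped Pointwise PowerSeries

noncomputable section

namespace Vale.Agent.P004R

open Vale.Agent.P022 P027H P027M.M P004K Vale.Agent.P022.H218.L3 Vale.Agent.P022.H236.L3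
open Vale.Agent.P022D.W (dec)
open Vale.Agent.P022E.GW (Ov Fb)
open Vale.Agent.P022K.G2 (Tv)
open Vale.Agent.P004S (nu)
open P004Z.EF (Val)
open P004F.Pr (Zs)
open P004F.Qx (Zq Cq dp Ch IM)

/-! ### words -/

/-- `T ^ l` divides `∑ (1 + T) ^ (e g) h g` modulo `P` -/
def Vn (P : Ideal (𝓞 Qb)) (R : Finset GQ) {n : ℕ} (e : GQ → ZMod n) (h : GQ → Qb) (l : ℕ) : Prop :=
  ∀ i < l, Zp P (∑ g ∈ R, ((e g).val.choose i : Qb) * h g)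

/-- `1 / j` at the conjugates -/
def ij {K : Type} [Field K] (j : K →+* Qb) (c : ℕ) (g : GQ) : Qb := (g (jc j c))⁻¹

/-- depletion modulo two -/
def dpl (h : GQ → Qb) : List GQ → GQ → Qb
  | [] => h
  | ψ :: L => fun g => dpl h L g + dpl h L (g * ψ ^ 2)

/-- `R = 𝔽₂[T] / T ^ J` -/
structure Tq {R : Type} [CommRing R] (ρ : (ZMod 2)⟦X⟧ →+* R) (J : ℕ) : Prop where
  sur : Function.Surjective ρ
  ker : ∀ x, ρ x = 0 ↔ PowerSeries.X ^ J ∣ x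

/-- the character `(1 + T) ^ e` -/
def ch {R : Type} [CommRing R] (ρ : (ZMod 2)⟦X⟧ →+* R) {n : ℕ} (e : GQ → ZMod n) (g : GQ) : R :=
  (1 + ρ PowerSeries.X) ^ (e g).val

/-- the cocycles which are unramified outside `T` and vanish on the decomposition group of `P` -/
abbrev Z0 {R n : Type} [CommRing R] [Fintype n] (Γ : Subgroup GQ) (T : Finset ℕ)
    (a : GQ → Matrix n n R) (P : Ideal (𝓞 Qb)) :=
  Zs R Γ T a (fun _ : Unit => P) fun _ _ => (0 : Matrix n Empty R)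

/-- rank one -/
def r1 {R : Type} [CommRing R] (χ : GQ → R) (g : GQ) : Matrix (Fin 1) (Fin 1) R := χ g • 1

/-- rank two -/
def r2 {R : Type} [CommRing R] (ρ : (ZMod 2)⟦X⟧ →+* R) (χ : GQ → R)
    (b : GQ → Matrix (Fin 2) (Fin 2) (ZMod 2)) (g : GQ) : Matrix (Fin 2) (Fin 2) R :=
  χ g • (b g).map (ρ.comp PowerSeries.C)

/-! ### the analytic side -/

open Classical in
/-- **the depth of the elliptic unit** -/
def DPT : Prop := ∀ (K : Type) [Field K] [NumberField K] (j : K →+* Qb) (c M : ℕ)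
  (e : GQ → ZMod (2 * M)), Ly j c M e → ∀ (F H : Type) [Field F] [NumberField F] [Field H]
  [NumberField H] [Algebra F H] (jH : H →+* Qb) (φ : GQ) (σ : H ≃ₐ[ℚ] H), Fl j M e F jH φ σ →
  Cp F σ M → ∀ P, Ov 2 P → Fb 2 P φ → ∀ v', Ip σ M 2 (below (jH.comp (algebraMap F H)) P) v' →
  up H (below (jH.comp (algebraMap F H)) P) = below jH P → ∀ s, Us j c P φ s →
  ∀ R, Tv (GK j) (Hc j c) R → jc j c ≠ 0 ∧ (∀ g ∈ GK j, P004K.Ip P (ij j c g)) ∧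
  ∃ u : (𝓞 H)ˣ,
    jH (u : 𝓞 H) * ∏ g ∈ R with e g = 0, g (s : Qb) = φ (∏ g ∈ R with e g = 0, g (s : Qb)) ∧
    ∀ l, l + 1 ≤ M → Vn P R e (ij j c) l →
      Dp σ (below (jH.comp (algebraMap F H)) P) u (M - l - 1)

/-- **the depleted form is a sum of values of `1 / j` modulo two** -/
def QF : Prop := ∀ (N : ℕ) (a : ℕ → ℤ) (S : List ℕ), 0 < N → S.Nodup → (∀ p ∈ S, p.Prime) → 2 ∈ S →
  (∀ n : ℕ, n.Coprime S.prod → (Odd (a n) ↔ IsSquare n)) →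
  ∀ u ∈ MF (Gamma0 (N * S.prod ^ 2)), ∀ s, ExM 1 s u → Zq 2 s → Cq 2 (dp S.prod a) s →
  ∀ P : ℕ → Ideal (𝓞 Qb), (∀ p ∈ S, (P p).IsPrime ∧ (p : 𝓞 Qb) ∈ P p) →
  ∃ T : ℕ, ∀ δ, T ≤ δ → Squarefree δ →
  ∀ (K : Type) [Field K] [NumberField K] (j : K →+* Qb), Iq K → ∀ θ : 𝓞 K,
  θ ^ 2 = -(δ : 𝓞 K) → ∀ I I' Q φ, Ch j N I I' S P Q φ →
  ∀ c : ℕ, 0 < c → c.Coprime (N * S.prod) → jc j c ≠ 0 → ∀ g ∈ GK j, ∀ σ τ τ', Ex σ g →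
    Hp (JJ j) (N * S.prod ^ 2) (IM j I S P) c τ → Cj0 σ (N * S.prod ^ 2) τ τ' →
    ∀ y : Qb, Val τ' u (io y) → Zp (P 2) (y - dpl (ij j c) ((S.erase 2).map φ) g)

/-- every depletion costs `T ^ 2` -/
def SHF : Prop := ∀ (Γ U : Subgroup GQ) (R : Finset GQ) (m : ℕ) (e : GQ → ZMod (2 * 2 ^ m))
  (P : Ideal (𝓞 Qb)) (h : GQ → Qb) (L : List GQ) (l : ℕ), Tv Γ U R → U ≤ Γ →
  (∀ g ∈ Γ, ∀ g' ∈ Γ, g * g' * g⁻¹ * g'⁻¹ ∈ U) → (∀ g ∈ Γ, ∀ g' ∈ Γ, e (g * g') = e g + e g') →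
  (∀ g ∈ U, e g = 0) → Ov 2 P → (∀ g ∈ Γ, P004K.Ip P (h g) ∧ ∀ u ∈ U, h (g * u) = h g) →
  (∀ ψ ∈ L, ψ ∈ Γ ∧ IsUnit (e ψ)) → l + 2 * L.length ≤ 2 * 2 ^ m →
  Vn P R e (dpl h L) (l + 2 * L.length) → Vn P R e h l

/-! ### the algebraic side -/

/-- **Kummer theory and the lemma of Shapiro** -/
def SHP : Prop := ∀ (K : Type) [Field K] [NumberField K] (j : K →+* Qb) (c M : ℕ)
  (e : GQ → ZMod (2 * M)), Ly j c M e → ∀ (F H : Type) [Field F] [NumberField F] [Field H]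
  [NumberField H] [Algebra F H] (jH : H →+* Qb) (φ : GQ) (σ : H ≃ₐ[ℚ] H), Fl j M e F jH φ σ →
  Cp F σ M → ∀ P, Ov 2 P → Fb 2 P φ → dec P ≤ GK j → ∀ v v' : Ideal (𝓞 F), Ip σ M 2 v v' →
  up H v = below jH P → ∀ T : Finset ℕ, 2 ∈ T → (∀ q : ℕ, q.Prime → q ∣ c → q ∈ T) →
  ∀ A : Ideal (𝓞 H), (∀ Q : Ideal (𝓞 H), Q.IsPrime → A ≤ Q → ∃ l ∈ T, l.Prime ∧ (l : 𝓞 H) ∈ Q) →
  ∀ (R : Type) [CommRing R] (ρ : (ZMod 2)⟦X⟧ →+* R), Tq ρ (2 * M) →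
  ∃ κ : 𝓞 H → Z0 (GK j) T (r1 (ch ρ e)) P, ∀ a b, Ad (up H v ^ 5) A a → Ad (up H v ^ 5) A b →
    κ a = κ b → IsSquare ((a : H) * b)

/-- the rank one groups are bounded and do not depend on the length -/
def LEX : Prop := ∀ (K : Type) [Field K] [NumberField K] (j : K →+* Qb) (d₁ d₂ k : ℕ)
  (S : Finset ℕ), Kd j (d₁ * d₂) → ∃ C : ℕ, ∀ (c M : ℕ) (e : GQ → ZMod (2 * M)), Ly j c M e →
  Sh S d₁ d₂ c → (∀ g ∈ GK j, ((e g).val : ZMod 2) = nu (d₁ * c : ℕ) g) →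
  c.primeFactors.card ≤ k → ∀ P, Ov 2 P → ∀ (R : Type) [CommRing R] (ρ : (ZMod 2)⟦X⟧ →+* R) J,
  Tq ρ J → J ≤ 2 * M → P004F.Pr.Gd (GK j) (S ∪ c.primeFactors) (r1 (ch ρ e)) ∧
    Finite (Z0 (GK j) (S ∪ c.primeFactors) (r1 (ch ρ e)) P) ∧
    Nat.card (Z0 (GK j) (S ∪ c.primeFactors) (r1 (ch ρ e)) P) ≤ C ∧
    ∀ (R' : Type) [CommRing R'] (ρ' : (ZMod 2)⟦X⟧ →+* R') J', Tq ρ' J' → 2 ≤ J' → J' ≤ 2 * M →
      Nat.card (Z0 (GK j) (S ∪ c.primeFactors) (r1 (ch ρ e)) P) ≤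
        Nat.card (Z0 (GK j) (S ∪ c.primeFactors) (r1 (ch ρ' e)) P)

/-- **the group of a unipotent representation is the square of the rank one group** -/
def DBL : Prop := ∀ (R : Type) [CommRing R] (ρ : (ZMod 2)⟦X⟧ →+* R) (J : ℕ), Tq ρ J → 0 < J →
  ∀ (Γ : Subgroup GQ) (T : Finset ℕ) (χ : GQ → R) (b : GQ → Matrix (Fin 2) (Fin 2) (ZMod 2)) P,
  P004F.Pr.Gd Γ T (r1 χ) → P004F.Pr.Gd Γ T b → (∀ g ∈ Γ, (b g).trace = 0) → Ov 2 P → dec P ≤ Γ →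
  (∃ l ∈ T, l ≠ 2 ∧ ∃ Q, Ov l Q ∧ dec Q ≤ Γ) → Finite (Z0 Γ T (r2 ρ χ b) P) ∧
    Nat.card (Z0 Γ T (r2 ρ χ b) P) ≤ Nat.card (Z0 Γ T (r1 χ) P) ^ 2 ∧
    ∀ l, 2 * l ≤ J → 2 ^ l ≤ Nat.card (Z0 Γ T (r1 χ) P) →
      2 ^ (2 * l) ≤ Nat.card (Z0 Γ T (r2 ρ χ b) P)

end Vale.Agent.P004R
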