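import Vale.Agent.P004R.Qf1
import Vale.Agent.P004R.St2
import Vale.Agent.P004K.Lt

/-! # P004R, row QF: the depleted form is a sum of values of `1 / j` modulo two -/

set_option autoImplicit false
set_option linter.all false

open UpperHalfPlane NumberField CongruenceSubgroup
open scoped MatrixGroups Classical

noncomputable section

namespace Vale.Agent.P004R

open Vale.Agent.P022 Vale.Agent.P022.H218.L3 Vale.Agent.P022.H231.L3 Vale.Agent.P022.H236.L3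
  Vale.Agent.P022.H542.L3 P027H Vale.Agent.P027M.M P004K P004F.Qx
open P004Z.EF (Val jN)

namespace Qf

section ideals

variable {O : Type} [CommRing O] {m n c : ℕ} {I I' J J' : Ideal O}

theorem sup_top (hm : (m : O) ∈ I) (hn : (n : O) ∈ J) (h : m.Coprime n) : I ⊔ J = ⊤ := by
  obtain ⟨a, b, e⟩ : IsCoprime (m : O) (n : O) := h.cast
  rw [Ideal.eq_top_iff_one, ← e]
  exact add_mem (Ideal.mem_sup_left (I.mul_mem_left a hm)) (Ideal.mem_sup_right (J.mul_mem_left b hn))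

theorem mul_top (h : I ⊔ J = ⊤) (h' : I' ⊔ J = ⊤) : I * I' ⊔ J = ⊤ :=
  Ideal.isCoprime_iff_sup_eq.1 ((Ideal.isCoprime_iff_sup_eq.2 h).mul_left
    (Ideal.isCoprime_iff_sup_eq.2 h'))

theorem sp_mem (h : Sp m I I') : (m : O) ∈ I ∧ (m : O) ∈ I' :=
  have e : (m : O) ∈ I * I' := h.mul ▸ Ideal.mem_span_singleton_self _
  ⟨Ideal.mul_le_left e, Ideal.mul_le_right e⟩

theorem sp_one : Sp 1 (⊤ : Ideal O) ⊤ := ⟨⟨by simp, by simp⟩, by simp, by simp⟩

variable [IsDomain O] [CharZero O]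

theorem sp_mul (hm : 0 < m) (h : Sp m I I') (h' : Sp n J J') (k : I' ⊔ J = ⊤) (k' : I ⊔ J' = ⊤) :
    Sp (m * n) (I * J) (I' * J') := by
  have m0 : (m : O) ≠ 0 := Nat.cast_ne_zero.2 hm.ne'
  obtain ⟨i, hi, l, hl, e⟩ := Submodule.mem_sup.1 ((Ideal.eq_top_iff_one _).1 k)
  refine ⟨⟨fun a => ⟨fun ha => ?_, ?_⟩, fun a => ?_⟩, ?_, ?_⟩
  · obtain ⟨b, rfl⟩ := (h.cn.1 a).1 (Ideal.mul_le_left ha)
    have h1 := Ideal.mul_mem_mul hi ha
    rw [← mul_assoc, mul_comm I', h.mul, Ideal.mem_span_singleton_mul] at h1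
    obtain ⟨y, hy, e1⟩ := h1
    have e2 : y = i * b := mul_left_cancel₀ m0 (by push_cast at e1; linear_combination e1)
    have h2 : (b : O) ∈ J := by
      rw [show (b : O) = y + b * l by linear_combination -e2 - b * e]
      exact add_mem hy (J.mul_mem_left _ hl)
    rw [Nat.cast_mul]
    exact mul_dvd_mul_left _ ((h'.cn.1 b).1 h2)
  · rintro ⟨b, rfl⟩
    push_cast
    exact Ideal.mul_mem_right _ _ (Ideal.mul_mem_mul (sp_mem h).1 (sp_mem h').1)
  · obtain ⟨k1, h1⟩ := h.cn.2 a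
    have h2 := Ideal.mul_mem_mul h1 hi
    rw [h.mul, Ideal.mem_span_singleton'] at h2
    obtain ⟨b, e1⟩ := h2
    obtain ⟨k2, h3⟩ := h'.cn.2 b
    refine ⟨k1 + m * k2, ?_⟩
    rw [show a - ((k1 + m * k2 : ℤ) : O) = (a - k1) * l + m * (b - k2) by
      push_cast; linear_combination -e1 - (a - k1) * e]
    exact add_mem (Ideal.mul_mem_mul h1 hl) (Ideal.mul_mem_mul (sp_mem h).1 h3)
  · refine mul_top ?_ ?_ <;> rw [sup_comm] <;> refine mul_top ?_ ?_ <;> rw [sup_comm]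
    exacts [h.cop, k', sup_comm I' J ▸ k, h'.cop]
  · rw [mul_mul_mul_comm, h.mul, h'.mul, Ideal.span_singleton_mul_span_singleton, Nat.cast_mul]

theorem cop_mul (h : Cop c I) (h' : Cop c J) : Cop c (I * J) :=
  ⟨mul_ne_zero h.1 h'.1, mul_top h.2 h'.2⟩

theorem cop_mem (hm : (m : O) ∈ I) (h0 : 0 < m) (h : m.Coprime c) : Cop c I :=
  ⟨fun e => h0.ne' (Nat.cast_eq_zero.1 (Ideal.mem_bot.1 (e ▸ hm))),
    sup_top hm (Ideal.mem_span_singleton_self _) h⟩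

variable {S : List ℕ} {A B : ℕ → Ideal O}

theorem sp_list (hp : ∀ p ∈ S, p.Prime) (hs : ∀ p ∈ S, Sp p (A p) (B p)) (L : List ℕ)
    (hL : ∀ p ∈ L, p ∈ S) : ∀ (m : ℕ) (I I' : Ideal O), 0 < m → Sp m I I' →
    (∀ p ∈ S, I' ⊔ A p = ⊤ ∧ I ⊔ B p = ⊤) →
    Sp (m * L.prod) (I * (L.map A).prod) (I' * (L.map B).prod) := by
  have cp : ∀ p ∈ S, ∀ q ∈ S, A p ⊔ B q = ⊤ := fun p h q h' => by
    rcases eq_or_ne p q with rfl | e
    · exact (hs p h).cop
    · exact sup_top (sp_mem (hs p h)).1 (sp_mem (hs q h')).2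
        ((Nat.coprime_primes (hp p h) (hp q h')).2 e)
  induction L with
  | nil => intro m I I' _ h _; simpa using h
  | cons p L ih =>
    intro m I I' hm h k
    have h1 := hL p List.mem_cons_self
    simp only [List.map_cons, List.prod_cons, ← mul_assoc]
    exact ih (fun q hq => hL q (List.mem_cons_of_mem _ hq)) _ _ _ (Nat.mul_pos hm (hp p h1).pos)
      (sp_mul hm h (hs p h1) (k p h1).1 (k p h1).2) fun q hq =>
      ⟨mul_top (k q hq).1 (sup_comm (A q) (B p) ▸ cp q hq p h1), mul_top (k q hq).2 (cp p h1 q hq)⟩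

theorem sp_sq (hp : ∀ p ∈ S, p.Prime) (hs : ∀ p ∈ S, Sp p (A p) (B p)) {L : List ℕ}
    (hL : ∀ p ∈ L, p ∈ S) (hm : 0 < m) (h : Sp m I I') (k : ∀ p ∈ S, I' ⊔ A p = ⊤ ∧ I ⊔ B p = ⊤) :
    Sp (m * L.prod ^ 2) (I * (L.map A).prod ^ 2) (I' * (L.map B).prod ^ 2) := by
  have := sp_list hp hs (L ++ L) (fun p e => (List.mem_append.1 e).elim (hL p) (hL p)) m I I' hm h k
  simpa only [List.map_append, List.prod_append, pow_two] using this

end ideals

theorem cn_nm {K : Type} [Field K] [NumberField K] {n : ℕ} {I : Ideal (𝓞 K)} (h : Cn n I) :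
    Ideal.absNorm I = n := by
  let f : ℤ →+* 𝓞 K ⧸ I := Int.castRingHom _
  have hf : ∀ k, f k = Ideal.Quotient.mk I k := fun k => (map_intCast _ k).symm
  have hs : Function.Surjective f := fun x => by
    obtain ⟨a, rfl⟩ := Ideal.Quotient.mk_surjective x
    obtain ⟨k, hk⟩ := h.2 a
    exact ⟨k, (hf k).trans (Ideal.Quotient.eq.2 hk).symm⟩
  have hk : RingHom.ker f = Ideal.span {(n : ℤ)} := by
    ext k
    rw [RingHom.mem_ker, Ideal.mem_span_singleton, ← h.1, hf, Ideal.Quotient.eq_zero_iff_mem]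
  rw [Ideal.absNorm_apply, Submodule.cardQuot_apply,
    ← Nat.card_congr (RingHom.quotientKerEquivOfSurjective hs).toEquiv, hk,
    Nat.card_congr (Int.quotientSpanNatEquivZMod n).toEquiv, Nat.card_zmod]

theorem dpl_sum (h : GQ → Qb) (φ : ℕ → GQ) (F : ℕ → ℂ) (L : List ℕ) (hL : L.Nodup)
    (hp : ∀ p ∈ L, p.Prime) : ∀ (k : ℕ) (g : GQ), (∀ L' : List ℕ, L'.Sublist L →
      F (k * L'.prod) = io (h (g * (L'.map fun p => φ p ^ 2).prod))) →
    ∑ d ∈ L.prod.divisors, F (k * d) = io (dpl h (L.map φ) g) := by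
  induction L with
  | nil => intro k g e; simpa [dpl] using e [] (List.Sublist.refl _)
  | cons p L ih =>
    intro k g e
    have h1 := hp p List.mem_cons_self
    have h2 : ∀ q ∈ L, q.Prime := fun q hq => hp q (List.mem_cons_of_mem _ hq)
    have h3 : p.Coprime L.prod := Nat.coprime_list_prod_right_iff.2 fun q hq =>
      (Nat.coprime_primes h1 (h2 q hq)).2 fun e => (List.nodup_cons.1 hL).1 (e ▸ hq)
    replace ih := ih (List.nodup_cons.1 hL).2 h2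
    rw [List.prod_cons, Nat.divisors_mul, Finset.mul_def, Finset.sum_image h3.mul_injOn_divisors,
      Finset.sum_product, h1.sum_divisors, List.map_cons, dpl, map_add,
      ← ih k g fun L' s => e L' (s.cons p), ← ih (k * p) (g * φ p ^ 2) fun L' s => by
        simpa only [List.prod_cons, List.map_cons, ← mul_assoc] using e _ (s.cons_cons p)]
    simp only [one_mul, mul_assoc, add_comm]

section arith

variable {K : Type} [Field K] [NumberField K] {j : K →+* Qb} {N c : ℕ} {S : List ℕ}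
  {P : ℕ → Ideal (𝓞 Qb)} {I I' : Ideal (𝓞 K)} {Q : ℕ → Ideal (𝓞 K)} {φ : ℕ → GQ}

theorem not_mem {p : ℕ} {P : Ideal (𝓞 Qb)} (hP : P.IsPrime) (h : (p : 𝓞 Qb) ∈ P)
    (k : p.Coprime c) : P ≠ ⊥ → (c : 𝓞 Qb) ∉ P := fun _ e =>
  hP.ne_top (by simpa using sup_top h e k)

theorem ar_list (rc2 : P004K.RC2) (hK : Iq K) (hp : ∀ p ∈ S, p.Prime) (h2 : 2 ∈ S)
    (hP : ∀ p ∈ S, (P p).IsPrime ∧ (p : 𝓞 Qb) ∈ P p) (ch : Ch j N I I' S P Q φ) (hc : 0 < c)
    (cp : c.Coprime S.prod) (L : List ℕ) (hL : ∀ p ∈ L, p ∈ S) :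
    Cop c ((L.map fun p => below j (P p)).prod ^ 2) ∧
      Ar j c ((L.map fun p => below j (P p)).prod ^ 2) (L.map fun p => φ p ^ 2).prod := by
  obtain ⟨-, -, r3, -, -, -, r7⟩ := rc2 K j hK c hc
  have c1 : ∀ p ∈ S, p.Coprime c := fun p h => (cp.coprime_dvd_right (List.dvd_prod h)).symm
  have n0 : ∀ p ∈ S, P p ≠ ⊥ := fun p h e =>
    (hp p h).ne_zero (Nat.cast_eq_zero.1 (Ideal.mem_bot.1 (e ▸ (hP p h).2)))
  have n1 : ∀ p ∈ S, (c : 𝓞 Qb) ∉ P p := fun p h =>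
    not_mem (hP p h).1 (hP p h).2 (c1 p h) (n0 p h)
  induction L with
  | nil =>
    have := r7 (P 2) (hP 2 h2).1 (n0 2 h2) (n1 2 h2) 1 (one_mem _) 0 (by simp)
    rw [pow_zero] at this
    simp only [List.map_nil, List.prod_nil, one_pow]
    exact ⟨cop_mem (m := 1) (by simp) one_pos (Nat.coprime_one_left c), this⟩
  | cons p L ih =>
    have h1 := hL p List.mem_cons_self
    obtain ⟨i1, i2⟩ := ih fun q hq => hL q (List.mem_cons_of_mem _ hq)
    have a1 := cop_mem (sp_mem (ch.spl p h1)).1 (hp p h1).pos (c1 p h1)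
    have a2 := r7 (P p) (hP p h1).1 (n0 p h1) (n1 p h1) (φ p) (ch.mem p h1) 1 (by
      rw [pow_one, cn_nm (ch.spl p h1).cn]
      exact ch.frb p h1)
    rw [pow_one] at a2
    simp only [List.map_cons, List.prod_cons, mul_pow, pow_two (below j (P p)), pow_two (φ p)]
    exact ⟨cop_mul (cop_mul a1 a1) i1, r3 _ _ _ _ (cop_mul a1 a1) i1 (r3 _ _ _ _ a1 a1 a2 a2) i2⟩

/-- `j (k² τ)` is a conjugate of the singular modulus -/
theorem j_sub (hg1 : HG1) (rc1 : P004K.RC1) (rc2 : P004K.RC2) (hK : Iq K) (hN : 0 < N)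
    (hp : ∀ p ∈ S, p.Prime) (h2 : 2 ∈ S) (hP : ∀ p ∈ S, (P p).IsPrime ∧ (p : 𝓞 Qb) ∈ P p)
    (ch : Ch j N I I' S P Q φ) (hc : 0 < c) (cp : c.Coprime (N * S.prod)) {L : List ℕ}
    (hL : L.Sublist S) {τ τ0 : ℍ} (hτ : Hp (JJ j) (N * S.prod ^ 2) (IM j I S P) c τ)
    (h0 : (τ0 : ℂ) = (L.prod ^ 2 : ℕ) * τ) :
    jf τ0 = io ((L.map fun p => φ p ^ 2).prod (jc j c)) := by
  obtain ⟨L', pm⟩ := hL.exists_perm_append
  have m1 : ∀ p ∈ L, p ∈ S := fun p h => hL.subset h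
  have m2 : ∀ p ∈ L', p ∈ S := fun p h => pm.mem_iff.2 (List.mem_append_right _ h)
  have e1 : N * S.prod ^ 2 = N * L'.prod ^ 2 * L.prod ^ 2 := by
    rw [pm.prod_eq, List.prod_append]
    ring
  have e2 : IM j I S P = I * (L'.map fun p => below j (P p)).prod ^ 2 *
      (L.map fun p => below j (P p)).prod ^ 2 := by
    rw [IM, (pm.map _).prod_eq, List.map_append, List.prod_append]
    ring
  have ps : ∀ A : List ℕ, (∀ p ∈ A, p ∈ S) → 0 < A.prod := fun A h =>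
    List.prod_pos fun p k => (hp p (h p k)).pos
  have s0 := (sp_sq hp ch.spl (fun _ => id) hN ch.lev ch.cop).cn
  have s1 := (sp_sq hp ch.spl m2 hN ch.lev ch.cop).cn
  have s2 := (sp_sq hp ch.spl m1 one_pos sp_one (by simp)).cn
  rw [one_mul, Ideal.top_mul] at s2
  have cM : c.Coprime (N * S.prod ^ 2) := cp.coprime_mul_right_right.mul_right
    (cp.coprime_mul_left_right.pow_right 2)
  have j0 : jf τ = io (jc j c) := by
    rw [(rc1 K j hK c hc).1, ← jL_lat, jL_hom hτ.choose_spec.1 (isLat τ)]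
  rw [← IM, e1, e2] at s0
  rw [e1] at cM
  rw [e1, e2] at hτ
  obtain ⟨σ, hσ⟩ := ex_ex (L.map fun p => φ p ^ 2).prod
  have := ((hg1 K j hK _ c _ (Nat.mul_pos hN (pow_pos (ps L' m2) 2)) hc cM.coprime_mul_right_right
    s1).2.2.2.2 _ _ τ (pow_pos (ps L m1) 2) cM.coprime_mul_left_right s0 s2 hτ).2 _ σ τ0
    (ar_list rc2 hK hp h2 hP ch hc cp.coprime_mul_left_right L m1).2 hσ h0
  rw [this.jf, j0, hσ]

end arith

theorem ex_mul (k : ℕ) (τ : ℍ) : ∃ t : ℍ, 0 < k → (t : ℂ) = k * τ := by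
  rcases Nat.eq_zero_or_pos k with rfl | h
  exacts [⟨τ, fun h => absurd h (lt_irrefl 0)⟩, ⟨_, fun _ => dg_coe h τ⟩]

theorem j_cj (tr0 : TR0) {σ : ℂ ≃+* ℂ} {M k : ℕ} (hM : 0 < M) (hk : k ∣ M) {τ τ' t t' : ℍ}
    (h : Cj0 σ M τ τ') (e : (t : ℂ) = k * τ) (e' : (t' : ℂ) = k * τ') : jf t' = σ (jf t) := by
  have k0 := Nat.pos_of_dvd_of_pos hk hM
  obtain ⟨s, hs, hi⟩ := P004Z.EF.Gn.ex_js k0
  refine val_uniq (val_jN k0 e') (tr0 σ M τ τ' hM h _ (jN_le k0 hk) (s 1) (hs 1) (fun n => ?_) _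
    (val_jN k0 e))
  obtain ⟨z, hz⟩ := Subring.mem_bot.1 (hi 1 n)
  exact ⟨z, by rw [← hz]; simp⟩

end Qf

open Qf in
theorem qf (mpc : MPC) (vex : VEX) (hg1 : HG1) (rc1 : P004K.RC1) (rc2 : P004K.RC2) (tr0 : TR0) : QF := by
  intro N a S hN nd hp h2 ha u hu s hs hz hc P hP
  have e0 : S.prod = 2 * (S.erase 2).prod := (List.prod_erase h2).symm
  have sl : (S.erase 2).Sublist S := List.erase_sublist
  have nd' := nd.sublist sl
  have hp' : ∀ p ∈ S.erase 2, p.Prime := fun p h => hp p (sl.subset h)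
  have sf : Squarefree (S.erase 2).prod := by
    have pm := Nat.primeFactorsList_unique rfl hp'
    exact (Nat.squarefree_iff_nodup_primeFactorsList
      (List.prod_ne_zero fun h => (hp' 0 h).ne_zero rfl)).2 (pm.nodup_iff.1 nd')
  have od : Odd (S.erase 2).prod := Nat.coprime_two_right.1 (Nat.coprime_list_prod_left_iff.2
    fun p h => (Nat.coprime_primes (hp' p h) Nat.prime_two).2 ((nd.mem_erase_iff.1 h).1))
  have P2 : (2 : 𝓞 Qb) ∈ P 2 := by simpa using (hP 2 h2).2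
  have P0 : P 2 ≠ ⊥ := fun h => by
    rw [h, Ideal.mem_bot] at P2
    exact two_ne_zero P2
  have hM : 0 < N * S.prod ^ 2 := Nat.mul_pos hN (pow_pos (List.prod_pos fun p h => (hp p h).pos) 2)
  have dv : (S.erase 2).prod ^ 2 ∣ N * S.prod ^ 2 :=
    (pow_dvd_pow_of_dvd (e0 ▸ dvd_mul_left _ _) 2).mul_left N
  obtain ⟨V, hV⟩ := vex (P 2) (hP 2 h2).1 P0
  obtain ⟨T, hT⟩ := cmp mpc (hP 2 h2).1 P2 hV hM sf od dv (e0 ▸ ha) hu hs hz (e0 ▸ hc)
  refine ⟨T, fun δ d1 d2 K _ _ j hK θ hθ I I' Q φ ch c c0 cp _ g hg σ τ τ' hσ hτ cj y hy => ?_⟩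
  have le : IM j I S P ≤ below j (P 2) := Ideal.mul_le_right.trans ((Ideal.pow_le_self
    two_ne_zero).trans (Ideal.le_of_dvd (List.dvd_prod (List.mem_map_of_mem h2))))
  have c2 : (c : 𝓞 Qb) ∉ P 2 := not_mem (hP 2 h2).1 (hP 2 h2).2
    (cp.coprime_mul_left_right.coprime_dvd_right (List.dvd_prod h2)).symm P0
  choose t ht using fun k : ℕ => ex_mul (k ^ 2) τ'
  have k1 := (hT δ d1 d2 K j hK c θ _ _ hθ (sp_sq hp ch.spl (fun _ => id) hN ch.lev ch.cop) le c2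
    g hg σ τ τ' hσ hτ cj _ hy t fun k hk => by
      rw [ht k (pow_pos (Nat.pos_of_mem_divisors hk) 2), Nat.cast_pow]).2
  have k2 := dpl_sum (ij j c) φ (fun k => (jf (t k))⁻¹) _ nd' hp' 1 g fun L sb => by
    have d : L.prod ^ 2 ∣ N * S.prod ^ 2 := (pow_dvd_pow_of_dvd sb.prod_dvd_prod 2).trans dv
    have p0 := Nat.pos_of_dvd_of_pos d hM
    obtain ⟨t0, h0⟩ := ex_mul (L.prod ^ 2) τ
    rw [one_mul, j_cj tr0 hM d cj (h0 p0) (ht _ p0),
      j_sub hg1 rc1 rc2 hK hN hp h2 hP ch c0 cp (sb.trans sl) hτ (h0 p0), hσ, ij, map_inv₀,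
      AlgEquiv.mul_apply]
  simp only [one_mul] at k2
  rw [(hV.2 _).2, map_sub, ← k2]
  exact k1.trans_lt (v_two hV (hP 2 h2).1 P2)

end Vale.Agent.P004R
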