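import Vale.Agent.P004S.Lt
import Vale.Agent.P004S.Bas3

/-!
# P004R, row MU: quadratic characters and Heisenberg triples (helper7)
-/

set_option linter.all false

noncomputable section

namespace Vale.Agent.P004R.Mu

open NumberField
open scoped NumberTheorySymbols Pointwise
open Vale.Agent.P022 (Qb GQ GK below IsConj)
open Vale.Agent.P027M.S (Inert Pr)
open Vale.Agent.P027M.S.Loc (jQ mem_GK belowQ ordvQ)
open Vale.Agent.P022D.W (dec conj_inP phi_mem exists_phi)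
open Vale.Agent.P022E.GW (Ov Fb Gn)
open Vale.Agent.P022E.GW.Kc (kq rt rt_sq kq_zero z2_ext)
open Vale.Agent.P004S

variable {l : ℕ} {P : Ideal (𝓞 Qb)} {k : GQ}

theorem ex_k : ∃ c : GQ, IsConj c := by
  have := P022.H443.galQb
  let φ : Qb →+* ℂ := (IsAlgClosed.lift (R := ℚ) (S := Qb) (M := ℂ)).toRingHom
  obtain ⟨g, hg⟩ := ComplexEmbedding.exists_comp_symm_eq_of_comp_eq (k := ℚ) φ
    (ComplexEmbedding.conjugate φ) (Subsingleton.elim _ _)
  exact ⟨g.symm, φ, fun x => RingHom.congr_fun hg x⟩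

theorem kk (h : IsConj k) : k * k = 1 := by
  obtain ⟨φ, e⟩ := h
  ext x
  exact φ.injective (by rw [AlgEquiv.mul_apply, e, e, Complex.conj_conj, AlgEquiv.one_apply])

theorem nu_kq (d : ℤ) (g : GQ) : nu d g = kq (d : Qb) g :=
  z2_ext ((nu_eq_zero (rt_sq _)).trans (kq_zero (rt_sq _) g).symm)

theorem ex_pl (hl : l.Prime) : ∃ P, Ov l P :=
  let ⟨P, h⟩ := P022.H916.exists_prime hl
  ⟨P, hl, h⟩

theorem ov_sm (h : Ov l P) (t : GQ) : Ov l (t • P) :=
  ⟨h.1, haveI := h.2.1; inferInstance, by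
    rw [Ideal.mem_pointwise_smul_iff_inv_smul_mem]
    have : t⁻¹ • (l : 𝓞 Qb) = l := map_natCast (MulSemiringAction.toRingHom GQ (𝓞 Qb) t⁻¹) l
    rw [this]; exact h.2.2⟩

theorem in_sm {g : GQ} (hg : Inert P g) (t : GQ) : Inert (t • P) (t * g * t⁻¹) := by
  simpa using P022E.GW.Tg.inert_conj (P := t • P) (t := t⁻¹) (g := g) (by rwa [inv_smul_smul])

/-- a real quadratic character -/
theorem ex_nu {x : GQ → ZMod 2} (ad : ∀ g h, x (g * h) = x g + x h) {U : Subgroup GQ}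
    (hU : IsOpen (U : Set GQ)) (h0 : ∀ u ∈ U, x u = 0) (hk : IsConj k) (xk : x k = 0) :
    ∃ n : ℕ, Squarefree n ∧ x = nu n := by
  obtain ⟨y, y0, hy⟩ := P022E.GW.Kc.kq_surjL jQ x (fun g _ h _ => ad g h) ⟨U, hU, fun u a _ => h0 u a⟩
  have m0 : y.num * y.den ≠ 0 := mul_ne_zero (Rat.num_ne_zero.2 y0) (by exact_mod_cast y.den_nz)
  have h1 : ∀ g, x g = nu (y.num * y.den) g := fun g => by
    rw [hy g (mem_GK g), nu_kq, ← P022E.GW.Kc.kq_sqL jQ y (z := y.den) (by exact_mod_cast y.den_nz)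
      (mem_GK g), sq, ← mul_assoc, Rat.mul_den_eq_num]
    simp
  obtain ⟨a, b, e, ha⟩ := Nat.sq_mul_squarefree (y.num * y.den).natAbs
  have h2 : 0 < y.num * y.den := lt_of_le_of_ne (not_lt.1 fun c => by
    rw [h1, nu_neg_conj c hk] at xk; exact one_ne_zero xk) m0.symm
  have e2 : y.num * y.den = a * b ^ 2 := by
    rw [← Int.natAbs_of_nonneg h2.le, ← e]; push_cast; ring
  refine ⟨a, ha, funext fun g => ?_⟩
  rw [e2] at m0
  rw [h1, e2, nu_mul_sq (left_ne_zero_of_mul m0) (pow_ne_zero_iff two_ne_zero |>.1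
    (right_ne_zero_of_mul m0))]

/-- Euler's criterion -/
theorem nu_fb (o : Ov l P) (h2 : l ≠ 2) {φ : GQ} (hφ : Fb l P φ) {d : ℤ} (hd : ¬ (l : ℤ) ∣ d) :
    J(d | l) = if nu d φ = 0 then 1 else -1 := by
  haveI := Fact.mk o.1
  have := sg_frob o h2 hd hφ
  rw [jacobiSym.legendreSym.to_jacobiSym, sg] at this
  split_ifs at this ⊢ <;> exact_mod_cast this.symm

theorem nd_of {d : ℤ} (hl : l.Prime) (h : J(d | l) = -1 ∨ J(d | l) = 1) : ¬ (l : ℤ) ∣ d := fun c => by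
  haveI := Fact.mk hl
  rw [← jacobiSym.legendreSym.to_jacobiSym, (legendreSym.eq_zero_iff l d).2
    ((ZMod.intCast_zmod_eq_zero_iff_dvd _ _).2 c)] at h
  omega

/-! ### the prime two -/

/-- the integer `y = (β - 1) / 2`, `y ^ 2 + y = m` -/
theorem ex_y {m : ℤ} : ∃ y : 𝓞 Qb, y ^ 2 + y = m ∧ ∀ g : GQ,
    g • y = if nu (4 * m + 1) g = 0 then y else -(y + 1) := by
  obtain ⟨β, hβ⟩ := ex_sqrt (4 * m + 1)
  have e1 : ((β - 1) / 2) ^ 2 + (β - 1) / 2 = m := by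
    push_cast at hβ
    linear_combination hβ / 4
  obtain ⟨y, hy⟩ : ∃ y : 𝓞 Qb, (y : Qb) = (β - 1) / 2 := ⟨⟨(β - 1) / 2,
    Polynomial.X ^ 2 + (Polynomial.X - Polynomial.C m), Polynomial.monic_X_pow_add (by
      rw [Polynomial.degree_X_sub_C]; exact_mod_cast one_lt_two), by
      rw [Polynomial.eval₂_add, Polynomial.eval₂_sub, Polynomial.eval₂_X_pow, Polynomial.eval₂_X,
        Polynomial.eval₂_C, eq_intCast, ← e1]
      ring⟩, rfl⟩
  rw [← hy] at e1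
  refine ⟨y, RingOfIntegers.ext (e1.trans (map_intCast (algebraMap (𝓞 Qb) Qb) m).symm), fun g => ?_⟩
  have := gal_sqrt hβ g
  split_ifs at this ⊢ <;> refine RingOfIntegers.ext ?_
  · show g (y : Qb) = y
    rw [hy, map_div₀, map_sub, this, map_one, map_ofNat]
  · show g (y : Qb) = -(y + 1)
    rw [hy, map_div₀, map_sub, this, map_one, map_ofNat]; ring

theorem one_nm (o : Ov l P) : (1 : 𝓞 Qb) ∉ P := fun h => o.2.1.ne_top ((Ideal.eq_top_iff_one _).2 h)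

theorem in_two (o : Ov 2 P) {d : ℤ} (hd : d % 4 = 1) {g : GQ} (hg : Inert P g) : nu d g = 0 := by
  obtain ⟨y, -, e⟩ := ex_y (m := d / 4)
  rw [show 4 * (d / 4) + 1 = d by omega] at e
  by_contra c
  have := hg y
  rw [e, if_neg c] at this
  refine one_nm o ?_
  convert P.neg_mem (P.add_mem this (P.mul_mem_right y o.2.2)) using 1
  push_cast; ring

theorem fb_two (o : Ov 2 P) {d : ℤ} (hd : d % 4 = 1) {φ : GQ} (hφ : Fb 2 P φ) :
    nu d φ = 0 ↔ d % 8 = 1 := by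
  obtain ⟨y, e0, e⟩ := ex_y (m := d / 4)
  rw [show 4 * (d / 4) + 1 = d by omega] at e
  have := hφ y
  have h2 := P.mul_mem_right y o.2.2
  rw [e] at this
  split_ifs at this with c
  · have : ((2 : ℕ) : ℤ) ∣ d / 4 := ov_dvd o (by
      convert P.sub_mem h2 this using 1
      rw [← e0]; push_cast; ring)
    exact ⟨fun _ => by omega, fun _ => c⟩
  · have : ((2 : ℕ) : ℤ) ∣ d / 4 + 1 := ov_dvd o (by
      convert P.neg_mem this using 1
      push_cast; rw [← e0]; ring)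
    exact ⟨fun a => absurd a c, fun _ => by omega⟩

theorem dec_two (o : Ov 2 P) {d : ℤ} (hd : d % 8 = 1) : dec P ≤ kn d := by
  obtain ⟨φ, hφ⟩ := exists_phi o.1 o.2.1 o.2.2
  exact lt.dec_le o hφ (kn_open d) ((fb_two o (by omega) hφ).2 hd) fun i hi => in_two o (by omega) hi

/-- the prime of `ℚ` below `P` -/
def vq (o : Ov l P) : Pr ℚ := ⟨below jQ P, haveI := o.2.1; Ideal.IsPrime.comap _, by
  rw [belowQ o.2.1 o.1 o.2.2, Ne, Ideal.span_singleton_eq_bot]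
  exact_mod_cast o.1.ne_zero⟩

theorem ram_i (o : Ov 2 P) : ∃ g, Inert P g ∧ nu (-1) g ≠ 0 := by
  by_contra h
  push Not at h
  obtain ⟨i, hi⟩ := ex_sqrt (-1)
  obtain ⟨M, _, _, _, _, jM, ρ, D, hM, hker⟩ := P022.H916.exists_fld jQ (kn (-1)) (kn_open _)
    (fun g _ => mem_GK g) fun g _ u hu => (nu_conj _ g u).trans hu
  obtain ⟨b, hb⟩ : ∃ b, jM b = 1 + i := P022.H916.fixed jM fun g => by
    have : (g : GQ) ∈ kn (-1) := hM ▸ g.2
    rw [map_add, map_one, (nu_eq_zero hi).1 this]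
  have hP := o.2.1
  have hne : below jM P ≠ ⊥ := fun h0 => (vq o).ne_bot (by
    show below jQ P = ⊥
    rw [← D.below_comap P, h0]
    exact Ideal.comap_bot_of_injective _ (FaithfulSMul.algebraMap_injective _ _))
  let v' : Pr M := ⟨below jM P, Ideal.IsPrime.comap _, hne⟩
  have key := P022.H269.UNRV ℚ M (vq o) v' (D.below_comap P)
    (fun g hg => D.inertia_eq_bot hP (fun g hg => (hker g).2 (h g hg)) hg) ((-4 : ℤ) : ℚ)
  have e : algebraMap ℚ M ((-4 : ℤ) : ℚ) = b ^ 4 := jM.injective (by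
    rw [map_pow, hb, map_intCast, map_intCast]
    push_cast at hi ⊢
    linear_combination (-i ^ 2 - 4 * i - 5) * hi)
  have b0 : b ≠ 0 := by
    rintro rfl
    simp at e
  rw [e, P027M.S.Cls.ordv_pow v' b0, ordvQ (vq o) o.1 (belowQ hP o.1 o.2.2) (by decide),
    show padicValInt 2 (-4) = 2 from padicValNat.prime_pow (p := 2) 2] at key
  omega

theorem mod_four (o : Ov 2 P) {n : ℕ} (hn : Squarefree n) (h : ∀ g, Inert P g → nu n g = 0) :
    n % 4 = 1 := by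
  have n0 : (n : ℤ) ≠ 0 := Int.natCast_ne_zero.2 hn.ne_zero
  have ev := P022E.GW.Kc.even_of jQ (y := ((n : ℤ) : ℚ)) (by exact_mod_cast n0) (vq o) o.2.1 rfl
    fun g _ hg => by rw [map_intCast, ← nu_kq, h g hg]
  rw [ordvQ (vq o) o.1 (belowQ o.2.1 o.1 o.2.2) n0, padicValInt.of_nat, Int.even_coe_nat] at ev
  have od : ¬ 2 ∣ n := fun c => by
    have h1 := one_le_padicValNat_of_dvd hn.ne_zero c
    have h2 : 2 ^ 2 ∣ n := (padicValNat_dvd_iff_le hn.ne_zero).2 (by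
      obtain ⟨r, e⟩ := ev; omega)
    exact absurd (Nat.isUnit_iff.1 (hn 2 h2)) (by decide)
  by_contra c
  obtain ⟨g, hg, e⟩ := ram_i o
  have := in_two o (d := -1 * n) (by omega) hg
  rw [nu_mul_left (by decide) n0, h g hg, add_zero] at this
  exact e this

/-! ### Heisenberg triples -/

/-- `g ↦ (θ g, x g, y g)` is a continuous homomorphism to the Heisenberg group -/
structure Hs (D : Subgroup GQ) (θ x y : GQ → ZMod 2) : Prop where
  opn : ∃ U : Subgroup GQ, IsOpen (U : Set GQ) ∧ ∀ u ∈ U, θ u = 0 ∧ x u = 0 ∧ y u = 0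
  a1 : ∀ g ∈ D, ∀ h ∈ D, θ (g * h) = θ g + θ h
  a2 : ∀ g ∈ D, ∀ h ∈ D, x (g * h) = x g + x h
  a3 : ∀ g ∈ D, ∀ h ∈ D, y (g * h) = y g + y h + θ g * x h

variable {θ x y w : GQ → ZMod 2} {D : Subgroup GQ}

theorem Hs.mono (h : Hs D θ x y) {D' : Subgroup GQ} (le : D' ≤ D) : Hs D' θ x y :=
  ⟨h.opn, fun g a j b => h.a1 g (le a) j (le b), fun g a j b => h.a2 g (le a) j (le b),
    fun g a j b => h.a3 g (le a) j (le b)⟩

theorem Hs.add {x' : GQ → ZMod 2} (h : Hs D θ x y) (h' : Hs D θ x' w) : Hs D θ (x + x') (y + w) := by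
  obtain ⟨U, a, b⟩ := h.opn
  obtain ⟨V, c, d⟩ := h'.opn
  refine ⟨⟨U ⊓ V, a.inter c, fun u m => ?_⟩, h.a1, fun g m j n => ?_, fun g m j n => ?_⟩
  · simp [b u m.1, d u m.2]
  · simp only [Pi.add_apply, h.a2 g m j n, h'.a2 g m j n]; ring
  · simp only [Pi.add_apply, h.a3 g m j n, h'.a3 g m j n]; ring

/-- **LEMMA H** -/
theorem Hs.lem (h : Hs (dec P) θ x y) (o : Ov l P) (h2 : l ≠ 2) {τ σ : GQ} (hτ : Gn l P τ)
    (hσ : σ ∈ dec P) (hz : θ τ * x τ = 0) : θ σ * x τ = θ τ * x σ := by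
  obtain ⟨U, hU, h0⟩ := h.opn
  have key : ∀ i, Inert P i → ∃ j : ZMod 2, ∀ f : GQ → ZMod 2, (∀ u ∈ U ⊓ kn l, f u = 0) →
      (∀ g j, Inert P g → Inert P j → f (g * j) = f g + f j) → f i = j * f τ := fun i hi => by
    obtain ⟨j, hj⟩ := (lt l P o).1 τ 1 i h2 hτ hi (U ⊓ kn l) (hU.inter (kn_open l))
    exact ⟨j, fun f a b => by
      rw [← nsmul_eq_mul]
      exact hj _ f (by decide) (fun g _ m => a g m) b⟩
  have z : ∀ g j, Inert P g → Inert P j → θ g * x j = 0 := fun g j hg hj => by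
    obtain ⟨a, ha⟩ := key g hg
    obtain ⟨b, hb⟩ := key j hj
    rw [ha θ (fun u m => (h0 u m.1).1) fun g j a b => h.a1 g (inert_dec a) j (inert_dec b),
      hb x (fun u m => (h0 u m.1).2.1) fun g j a b => h.a2 g (inert_dec a) j (inert_dec b)]
    linear_combination (a * b) * hz
  have hi : Inert P (σ * τ * σ⁻¹) := conj_inP hσ hτ.1
  obtain ⟨j, hj⟩ := key _ hi
  have j1 := hj (nu l) (fun u m => m.2) fun g j _ _ => nu_mul l g j
  rw [nu_conj, nu_gn o hτ, mul_one] at j1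
  have e1 := hj y (fun u m => (h0 u m.1).2.2) fun g j a b => by
    rw [h.a3 g (inert_dec a) j (inert_dec b), z g j a b, add_zero]
  have e2 := hj θ (fun u m => (h0 u m.1).1) fun g j a b => h.a1 g (inert_dec a) j (inert_dec b)
  have e3 := h.a3 _ (inert_dec hi) σ hσ
  rw [inv_mul_cancel_right, h.a3 σ hσ τ (inert_dec hτ.1), e1, e2, ← j1] at e3
  linear_combination e3

variable {d : ℤ} {n : ℕ}

theorem ex_st (o : Ov l P) : ∃ τ σ, Gn l P τ ∧ Fb l P σ ∧ σ ∈ dec P :=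
  let ⟨τ, a⟩ := P022E.GW.Tg.ex_gn' o
  let ⟨σ, b⟩ := exists_phi o.1 o.2.1 o.2.2
  ⟨τ, σ, a, b, phi_mem o.1 o.2.1 b⟩

theorem Hs.spl (h : Hs ⊤ (nu d) (nu n) y) (hd : Squarefree d) (hl : l.Prime) (h2 : l ≠ 2)
    (ld : (l : ℤ) ∣ d) (ln : ¬ l ∣ n) : J(n | l) = 1 := by
  obtain ⟨P, o⟩ := ex_pl hl
  obtain ⟨τ, σ, a, b, c⟩ := ex_st o
  have ln' := mt Int.natCast_dvd_natCast.1 ln
  have e := nu_inert o h2 ln' a.1
  have := (h.mono le_top).lem o h2 a c (by rw [e, mul_zero])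
  rw [e, mul_zero, nu_tau o h2 hd ld a, one_mul] at this
  rw [nu_fb o h2 b ln', if_pos this.symm]

theorem Hs.unr (h : Hs ⊤ (nu d) (nu n) y) (hd : Squarefree d) (hn : Squarefree n) (hl : l.Prime)
    (h2 : l ≠ 2) (ld : (l : ℤ) ∣ d) (hy : ∀ P τ, Ov l P → Inert P τ → y (τ * τ) = 0) :
    ¬ l ∣ n := fun ln => by
  obtain ⟨P, o⟩ := ex_pl hl
  obtain ⟨τ, σ, a, -⟩ := ex_st o
  have := h.a3 τ trivial τ trivial
  rw [hy P τ o a.1, nu_tau o h2 hd ld a, nu_tau o h2 (Int.squarefree_natCast.2 hn)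
    (Int.natCast_dvd_natCast.2 ln) a, CharTwo.add_self_eq_zero] at this
  exact absurd this (by decide)

theorem Hs.ine (h : Hs ⊤ (nu d) (nu n) y) (hn : Squarefree n) (hl : l.Prime)
    (h2 : l ≠ 2) (ld : J(d | l) = -1) : ¬ l ∣ n := fun ln => by
  obtain ⟨P, o⟩ := ex_pl hl
  obtain ⟨τ, σ, a, b, c⟩ := ex_st o
  have nd := nd_of hl (.inl ld)
  have e := nu_inert o h2 nd a.1
  have := (h.mono le_top).lem o h2 a c (by rw [e, zero_mul])
  rw [e, zero_mul, nu_tau o h2 (Int.squarefree_natCast.2 hn) (Int.natCast_dvd_natCast.2 ln) a,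
    mul_one] at this
  rw [nu_fb o h2 b nd, if_pos this] at ld
  omega

theorem Hs.ram (h : Hs ⊤ (nu d) (nu n) y) (hd : Squarefree d) (hn : Squarefree n) (o : Ov l P)
    (h2 : l ≠ 2) (ld : (l : ℤ) ∣ d) (ln : l ∣ n) (h' : Hs (dec P) (nu d) (nu d) w) :
    J((n / l : ℕ) * (d / l) | l) = 1 := by
  obtain ⟨τ, σ, a, b, c⟩ := ex_st o
  have e1 := nu_tau o h2 hd ld a
  have e2 := nu_tau o h2 (Int.squarefree_natCast.2 hn) (Int.natCast_dvd_natCast.2 ln) a
  have := ((h.mono le_top).add h').lem o h2 a c (by rw [Pi.add_apply, e1, e2]; rfl)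
  rw [Pi.add_apply, Pi.add_apply, e1, e2, CharTwo.add_self_eq_zero, mul_zero, one_mul] at this
  obtain ⟨m, rfl⟩ := ln
  obtain ⟨d, rfl⟩ := ld
  have l0 : (l : ℤ) ≠ 0 := Int.natCast_ne_zero.2 o.1.ne_zero
  have pr := Nat.prime_iff_prime_int.1 o.1
  have n1 : ¬ (l : ℤ) ∣ m := fun c =>
    o.1.prime.not_unit (hn l (mul_dvd_mul_left l (Int.natCast_dvd_natCast.1 c)))
  have n2 : ¬ (l : ℤ) ∣ d := fun c => pr.not_unit (hd l (mul_dvd_mul_left _ c))
  have m0 : (m : ℤ) ≠ 0 := fun c => n1 (c ▸ dvd_zero _)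
  have d0 : d ≠ 0 := fun c => n2 (c ▸ dvd_zero _)
  rw [Nat.mul_div_cancel_left _ o.1.pos, Int.mul_ediv_cancel_left _ l0,
    nu_fb o h2 b fun c => (pr.dvd_or_dvd c).elim n1 n2, if_pos]
  rw [Nat.cast_mul, nu_mul_left l0 m0, nu_mul_left l0 d0] at this
  rw [nu_mul_left m0 d0]
  revert this
  generalize nu l σ = p; generalize nu m σ = q; generalize nu d σ = r
  revert p q r; decide

theorem sq_dvd (hn : Squarefree n) {m : ℕ} (h : ∀ l : ℕ, l.Prime → l ∣ n → l ∣ m) : n ∣ m := by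
  rw [← Nat.prod_primeFactors_of_squarefree hn]
  exact Finset.prod_primes_dvd m (fun a ha => (Nat.prime_of_mem_primeFactors ha).prime)
    fun a ha => h a (Nat.prime_of_mem_primeFactors ha) (Nat.dvd_of_mem_primeFactors ha)

end Vale.Agent.P004R.Mu
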