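import Vale.Agent.P004R.Chb

/-!
# P004R: local lemmas for the tower
-/

set_option autoImplicit false

open NumberField IsDedekindDomain
open scoped NumberTheorySymbols Pointwise

noncomputable section

namespace Vale.Agent.P004R.Wr

open Vale.Agent.P022 (Qb GQ GK below IsConj IsFrob)
open P004K
open Vale.Agent.P027M.S (Inert)
open Vale.Agent.P022D.W (dec)
open Vale.Agent.P022E.GW (Ov Fb)
open Vale.Agent.P004S Cb

variable {l : ℕ} {P : Ideal (𝓞 Qb)}

/-- `u` is a unit at `P` -/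
def Ut (P : Ideal (𝓞 Qb)) (u : Qb) : Prop := ∃ s t : 𝓞 Qb, s ∉ P ∧ t ∉ P ∧ (s : Qb) * u = t

theorem Ut.root (hP : P.IsPrime) {y : Qb} {N : ℕ} (h : Ut P (y ^ (N + 1))) : Ut P y := by
  obtain ⟨s, t, hs, ht, e⟩ := h
  have e1 : ((s : Qb) * y) ^ (N + 1) = ((s ^ N * t : 𝓞 Qb) : Qb) := by
    show _ = (s : Qb) ^ N * (t : Qb)
    rw [← e]; ring
  have hi : IsIntegral ℤ ((s : Qb) * y) := IsIntegral.of_pow N.succ_pos (e1 ▸ (s ^ N * t).2)
  obtain ⟨z, hz⟩ : ∃ z : 𝓞 Qb, (s : Qb) * y = z := ⟨⟨_, hi⟩, rfl⟩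
  refine ⟨s, z, hs, fun k => ?_, hz⟩
  have e2 : z ^ (N + 1) = s ^ N * t := RingOfIntegers.ext (by rw [← e1, hz]; rfl)
  have := P.pow_mem_of_mem k (N + 1) N.succ_pos
  rw [e2] at this
  exact (hP.mem_or_mem this).elim (fun a => hs (hP.mem_of_pow_mem _ a)) ht

/-- inertia at an odd prime fixes the two-power roots of units -/
theorem ut_fix (h : Ov l P) (h2 : l ≠ 2) {g : GQ} (hg : Inert P g) (n : ℕ) :
    ∀ y : Qb, Ut P (y ^ 2 ^ n) → g (y ^ 2 ^ n) = y ^ 2 ^ n → g y = y := by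
  induction n with
  | zero => intro y _ e; simpa using e
  | succ n ih =>
    intro y u e
    rw [pow_succ', pow_mul] at u e
    have h1 := ih _ u e
    rw [map_pow] at h1
    refine (sq_eq_sq_iff_eq_or_eq_neg.1 h1).resolve_right fun a => ?_
    obtain ⟨N, hN⟩ : ∃ N, 2 * 2 ^ n = N + 1 := ⟨2 * 2 ^ n - 1, by
      have : 0 < 2 ^ n := by positivity
      omega⟩
    rw [← pow_mul, hN] at u
    obtain ⟨s, t, hs, ht, k⟩ := u.root h.2.1
    have k2 : s * g • t + g • s * t = 0 := RingOfIntegers.ext (by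
      show (s : Qb) * g (t : Qb) + g (s : Qb) * (t : Qb) = 0
      rw [← k, map_mul, a]; ring)
    have k3 := P.add_mem (P.mul_mem_left s (hg t)) (P.mul_mem_right t (hg s))
    rw [show s * (g • t - t) + (g • s - s) * t = (s * g • t + g • s * t) - 2 * (s * t) by ring,
      k2, zero_sub, neg_mem_iff] at k3
    rcases h.2.1.mem_or_mem k3 with b | b
    · exact two_not h h2 b
    · exact (h.2.1.mem_or_mem b).elim hs ht

theorem inert_mu (h : Ov l P) (h2 : l ≠ 2) {g : GQ} (hg : Inert P g) (n : ℕ) :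
    Fx {1} (2 ^ n) g := fun y hy => by
  have e : y ^ 2 ^ n = 1 := hy
  have o : (1 : 𝓞 Qb) ∉ P := (Ideal.ne_top_iff_one P).1 h.2.1.ne_top
  exact ut_fix h h2 hg n y (e ▸ ⟨1, 1, o, o, by simp⟩) (by rw [e, map_one])

theorem ov_ne (h : Ov l P) : P ≠ ⊥ := fun e => by
  have := h.2.2
  rw [e, Ideal.mem_bot] at this
  exact h.1.ne_zero (by exact_mod_cast this)

theorem ov_nat (h : Ov l P) {c : ℕ} (hc : ¬ l ∣ c) : (c : 𝓞 Qb) ∉ P := fun k =>
  hc (by exact_mod_cast ov_dvd h (a := c) (by exact_mod_cast k))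

variable {K : Type} [Field K] [NumberField K] {j : K →+* Qb}

theorem ut_val (j : K →+* Qb) (h : Ov l P) {B : Finset ℕ} (hl : ∀ b ∈ B, ¬ l ∣ b) {a : K}
    (ha : ∀ v : HeightOneSpectrum (𝓞 K), (∀ b ∈ B, (b : 𝓞 K) ∉ v.asIdeal) →
      v.valuation K a = 1) : Ut P (j a) := by
  have := h.2.1
  let v : HeightOneSpectrum (𝓞 K) := ⟨below j P, Ideal.IsPrime.comap _, fun e => by
    have : (l : 𝓞 K) ∈ below j P := by simpa [below] using h.2.2
    rw [e, Ideal.mem_bot] at this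
    exact h.1.ne_zero (by exact_mod_cast this)⟩
  have e := ha v fun b hb k => ov_nat h (hl b hb) (by simpa [v, below] using k)
  obtain ⟨n, d, k⟩ := v.exists_primeCompl_mul_eq_of_integer a e.le
  refine ⟨RingOfIntegers.mapRingHom j d, RingOfIntegers.mapRingHom j n, d.2, ?_, ?_⟩
  · have := congrArg (v.valuation K) k
    rw [map_mul, e, one_mul, v.valuation_of_algebraMap, v.valuation_of_algebraMap,
      (v.intValuation_eq_one_iff_mem_primeCompl d).2 d.2] at this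
    exact (v.intValuation_eq_one_iff_mem_primeCompl n).1 this.symm
  · have := congrArg j k
    rw [map_mul, mul_comm] at this
    exact this

theorem uns_core {T : Finset ℕ} {H : Subgroup GQ} (h : UnS T H) : UnS T H.normalCore :=
  fun l P o hl g hg b => by
    have := P022E.GW.Tg.inert_conj (P := b • P) (t := b⁻¹) (g := g) (by rwa [inv_smul_smul])
    rw [inv_inv] at this
    exact h l _ (P022K.GW.ov_smul o b) hl _ this

theorem core_open {H : Subgroup GQ} (h : IsOpen (H : Set GQ)) :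
    IsOpen (H.normalCore : Set GQ) := by
  obtain ⟨W, hW, le⟩ := P022K.G2.ex_lv' h
  have := hW.nrm
  exact Subgroup.isOpen_mono (Subgroup.normal_le_normalCore.2 le) hW.opn

theorem fb_cj (h : Ov l P) {φ ψ : GQ} (hφ : Fb l P φ) (hψ : IsFrob l ψ) :
    ∃ x s, Inert P s ∧ ψ = x * (s * φ) * x⁻¹ := by
  obtain ⟨Q, hQ, h3, h4⟩ := hψ
  obtain ⟨g, rfl⟩ := P022E.GW.Tg.trans (⟨h.1, hQ, h3⟩ : Ov l Q) h
  refine ⟨g⁻¹, g * ψ * g⁻¹ * φ⁻¹, fun x => ?_, by group⟩
  have h6 := Ideal.smul_mem_pointwise_smul g _ Q (h4 (g⁻¹ • φ⁻¹ • x))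
  have h7 := hφ (φ⁻¹ • x)
  rw [smul_sub, smul_pow', smul_inv_smul] at h6
  rw [smul_inv_smul] at h7
  have h8 := Ideal.sub_mem _ h6 h7
  rw [sub_sub_sub_cancel_right] at h8
  rw [mul_smul, mul_smul, mul_smul]
  exact h8

/-- ring class fields are unramified outside the conductor -/
theorem inert_hc (r2 : RC2) (hK : Iq K) (h : Ov l P) {c : ℕ} (hc : ¬ l ∣ c) {t : GQ}
    (ht : t ∈ GK j) (hi : Inert P t) : t ∈ Hc j c := by
  obtain ⟨-, -, -, -, a, -, b⟩ := r2 K j hK c (Nat.pos_of_ne_zero fun e => hc (e ▸ dvd_zero l))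
  have := b P h.2.1 (ov_ne h) (ov_nat h hc) t ht 0 (fun x => by simpa using hi x)
  rw [pow_zero, Ideal.one_eq_top] at this
  exact (a ⊤ t ⟨top_ne_bot, top_sup_eq _⟩ this).2 ⟨1, 0, by simp⟩

/-- the quadratic character as a homomorphism -/
def sh (d : ℤ) : GQ →* ℤ where
  toFun g := sz (nu d g)
  map_one' := by rw [nu_one]; rfl
  map_mul' g h := by rw [nu_mul, sz_add]

theorem sh_list (d : ℤ) {k : ℕ} (t : Fin k → GQ) :
    sh d (List.ofFn t).prod = ∏ i, sh d (t i) := by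
  rw [map_list_prod, List.map_ofFn, List.prod_ofFn]; rfl

theorem sh_kn {d : ℤ} {g : GQ} (h : g ∈ kn d) : sh d g = 1 := if_pos (mem_kn.1 h)

theorem prod_eq (R : Set Qb) {k : ℕ} (a b : Fin k → GQ) (hR : ∀ i, ∀ y ∈ R, a i y ∈ R)
    (h : ∀ i, ∀ y ∈ R, b i y = a i y) :
    ∀ y ∈ R, (List.ofFn b).prod y = (List.ofFn a).prod y ∧ (List.ofFn a).prod y ∈ R := by
  induction k with
  | zero => intro y hy; simpa using hy
  | succ k ih =>
    intro y hy
    obtain ⟨e, m⟩ := ih (fun i => a i.succ) (fun i => b i.succ) (fun i => hR _) (fun i => h _) y hy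
    simp only [List.ofFn_succ, List.prod_cons, AlgEquiv.mul_apply]
    exact ⟨by rw [e, h 0 _ m], hR 0 _ m⟩

theorem ex_tau (hl : l.Prime) (h2 : l ≠ 2) : ∃ τ : GQ, (∀ n, Fx {1} (2 ^ n) τ) ∧
    (∀ d : ℤ, Squarefree d → (l : ℤ) ∣ d → nu d τ = 1) ∧
    ∀ x : ℕ, x.Prime → sh x τ = if l = x then -1 else 1 := by
  obtain ⟨Q, hQ⟩ := ex_ov hl
  obtain ⟨τ, hτ⟩ := P022E.GW.Tg.ex_gn' hQ
  refine ⟨τ, inert_mu hQ h2 hτ.1, fun d a b => nu_tau hQ h2 a b hτ, fun x hx => ?_⟩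
  split_ifs with k
  · subst k; exact sz_neg.2 (nu_gn hQ hτ)
  · exact sh_kn (nu_inert hQ h2 (fun d => k ((Nat.prime_dvd_prime_iff_eq hl hx).1
      (by exact_mod_cast d))) hτ.1)

theorem jac_left {ι : Type} (T : Finset ι) (f : ι → ℕ) (p : ℕ) :
    J((∏ i ∈ T, f i : ℕ) | p) = ∏ i ∈ T, J(f i | p) := by
  classical
  induction T using Finset.induction_on with
  | empty => simp
  | insert i T hi ih =>
    rw [Finset.prod_insert hi, Finset.prod_insert hi, Nat.cast_mul, jacobiSym.mul_left, ih]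

theorem jac_right {ι : Type} (T : Finset ι) (f : ι → ℕ) (hf : ∀ i, f i ≠ 0) (a : ℤ) :
    J(a | ∏ i ∈ T, f i) = ∏ i ∈ T, J(a | f i) := by
  classical
  induction T using Finset.induction_on with
  | empty => simp
  | insert i T hi ih =>
    rw [Finset.prod_insert hi, Finset.prod_insert hi,
      jacobiSym.mul_right' _ (hf i) (Finset.prod_ne_zero_iff.2 fun i _ => hf i), ih]

theorem jac_nat (N b : ℕ) : b ≠ 0 → (∀ x : ℕ, x.Prime → x ∣ b → J(x | N) = 1) → J(b | N) = 1 := by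
  induction b using Nat.recOnMul with
  | zero => exact fun h => absurd rfl h
  | one => simp
  | prime p hp => exact fun _ h => h p hp dvd_rfl
  | mul a b ha hb =>
    intro h0 h
    rw [Nat.cast_mul, jacobiSym.mul_left,
      ha (left_ne_zero_of_mul h0) fun x hx d => h x hx (d.mul_right _),
      hb (right_ne_zero_of_mul h0) fun x hx d => h x hx (d.mul_left _), one_mul]

theorem jac_sq {d x : ℕ} (hx : x.Prime) (h : ¬ x ∣ d) : J(d | x) * J(d | x) = 1 := by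
  rw [← pow_two]
  exact jacobiSym.sq_one (by simpa using ((Nat.Prime.coprime_iff_not_dvd hx).2 h).symm)

theorem gk_eq {δ : ℕ} (hK : Kd j δ) : GK j = kn (-(δ : ℤ)) := Subgroup.ext hK.gk

/-- the group which fixes `K` and the roots -/
def Fg (j : K →+* Qb) (A : Finset K) (n : ℕ) : Subgroup GQ :=
  GK j ⊓ fxg {1} (2 ^ (n + 3)) ⊓ fxg (j '' A) (2 ^ (n + 2))

theorem fg_open {δ : ℕ} (hK : Kd j δ) (A : Finset K) (n : ℕ) : IsOpen (Fg j A n : Set GQ) :=
  ((gk_eq hK ▸ kn_open _ : IsOpen (GK j : Set GQ)).inter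
    (fxg_open (Set.finite_singleton _) (by positivity))).inter
    (fxg_open (A.finite_toSet.image _) (by positivity))

theorem inert_gk {δ : ℕ} (hK : Kd j δ) (h : Ov l P) (h2 : l ≠ 2) (hd : ¬ l ∣ δ) {g : GQ}
    (hg : Inert P g) : g ∈ GK j :=
  (hK.gk g).2 (nu_inert h h2 (fun d => hd (by exact_mod_cast dvd_neg.1 d)) hg)

theorem inert_fg {δ : ℕ} (hK : Kd j δ) {A : Finset K} {B : Finset ℕ}
    (hA : ∀ a ∈ A, ∀ v : HeightOneSpectrum (𝓞 K), (∀ b ∈ B, (b : 𝓞 K) ∉ v.asIdeal) →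
      v.valuation K a = 1) (n : ℕ) (h : Ov l P) (h2 : l ≠ 2) (hd : ¬ l ∣ δ)
    (hl : ∀ b ∈ B, ¬ l ∣ b) {g : GQ} (hg : Inert P g) : g ∈ Fg j A n := by
  have k := inert_gk hK h h2 hd hg
  refine ⟨⟨k, inert_mu h h2 hg _⟩, fun y ⟨a, ha, e⟩ => ut_fix h h2 hg (n + 2) y ?_ ?_⟩
  · exact e ▸ ut_val j h hl (hA a ha)
  · rw [← e]; exact k a

theorem dec_gk {δ : ℕ} (hK : Kd j δ) (h : Ov l P) (h2 : l ≠ 2) (hd : ¬ l ∣ δ) {φ : GQ}
    (hφ : Fb l P φ) (hg : φ ∈ GK j) {Q : Ideal (𝓞 Qb)} (hQ : Ov l Q) : dec Q ≤ GK j := by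
  intro g k
  obtain ⟨t, -, e⟩ := ex_conj h hQ
  have := (hK.gk _).1 (lt.dec_le h hφ (gk_eq hK ▸ kn_open _ : IsOpen (GK j : Set GQ)) hg
    (fun i hi => inert_gk hK h h2 hd hi) (e g k))
  rw [← nu_conj _ t] at this
  exact (hK.gk g).2 (by simpa [mul_assoc] using this)

theorem fx_four {n : ℕ} {g : GQ} (h : Fx {1} (2 ^ (n + 3)) g) : Fx {1} 4 g := fun y hy =>
  h y (by
    have e : y ^ 4 = 1 := hy
    show _ = 1
    rw [show 2 ^ (n + 3) = 4 * 2 ^ (n + 1) by ring, pow_mul, e, one_pow])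

end Vale.Agent.P004R.Wr
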