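import Vale.Agent.P004R.St
import Vale.Agent.P004S.Bas
import Vale.Agent.P004K.Rc.Q

/-!
# P004R, row EXT: Kummer symbols, Frobenius elements, quadratic orders
-/

set_option autoImplicit false
set_option linter.all false

open NumberField IsDedekindDomain
open scoped NumberTheorySymbols nonZeroDivisors

noncomputable section

namespace Vale.Agent.P004R.Xt

open Vale.Agent.P022 (Qb GQ GK below)
open P004K P004K.Rc
open Vale.Agent.P022E.GW (Ov Fb)
open Vale.Agent.P004S (nu ov_dvd)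

/-! ### Kummer symbols -/

section kummer

variable {N : ℕ} [NeZero N] {ζ u u' y : Qb} {g : GQ} {k k' : ZMod N}

/-- `g` multiplies the roots of order `N` of `u` by `ζ ^ k` -/
def Km (ζ : Qb) (g : GQ) (u : Qb) (k : ZMod N) : Prop := ∀ y, y ^ N = u → g y = ζ ^ k.val * y

theorem rt (N : ℕ) [NeZero N] (u : Qb) : ∃ y, y ^ N = u :=
  IsAlgClosed.exists_pow_nat_eq u (NeZero.pos N)

theorem rt_ne (h : y ^ N = u) (h0 : u ≠ 0) : y ≠ 0 := fun e =>
  h0 (by rw [← h, e, zero_pow (NeZero.ne N)])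

theorem km_of (hg : Fx {1} N g) (h0 : u ≠ 0) (h : y ^ N = u) (e : g y = ζ ^ k.val * y) :
    Km ζ g u k := fun z hz => by
  have y0 := rt_ne h h0
  have e1 := hg (z / y) (by rw [div_pow, hz, h, div_self h0]; rfl)
  rw [← div_mul_cancel₀ z y0, map_mul, e1, e, mul_left_comm]

theorem km_ex (hζ : IsPrimitiveRoot ζ N) (hg : Fx {1} N g) (h0 : u ≠ 0) (hu : g u = u) :
    ∃ k : ZMod N, Km ζ g u k := by
  obtain ⟨y, h⟩ := rt N u
  have y0 := rt_ne h h0
  obtain ⟨i, hi, e⟩ := hζ.eq_pow_of_pow_eq_one (ξ := g y / y)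
    (by rw [div_pow, ← map_pow, h, hu, div_self h0])
  exact ⟨i, km_of hg h0 h (by rw [ZMod.val_cast_of_lt hi, e, div_mul_cancel₀ _ y0])⟩

theorem km_uq (hζ : IsPrimitiveRoot ζ N) (h0 : u ≠ 0) (a : Km ζ g u k) (b : Km ζ g u k') :
    k = k' := by
  obtain ⟨y, h⟩ := rt N u
  exact ZMod.val_injective N (hζ.pow_inj (ZMod.val_lt _) (ZMod.val_lt _)
    (mul_right_cancel₀ (rt_ne h h0) ((a y h).symm.trans (b y h))))

theorem km_mul (hζ : IsPrimitiveRoot ζ N) (hg : Fx {1} N g) (h0 : u ≠ 0) (h1 : u' ≠ 0)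
    (a : Km ζ g u k) (b : Km ζ g u' k') : Km ζ g (u * u') (k + k') := by
  obtain ⟨y, h⟩ := rt N u
  obtain ⟨z, h'⟩ := rt N u'
  refine km_of hg (mul_ne_zero h0 h1) (y := y * z) (by rw [mul_pow, h, h']) ?_
  rw [map_mul, a y h, b z h', ZMod.val_add, ← pow_eq_pow_mod _ hζ.pow_eq_one, pow_add]
  ring

theorem km_zero (h : ∀ y, y ^ N = u → g y = y) : Km ζ g u (0 : ZMod N) := fun y e => by
  rw [h y e, ZMod.val_zero, pow_zero, one_mul]

/-- the parity of the symbol -/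
theorem km_par {M : ℕ} [NeZero M] {k : ZMod (2 * M)} (hζ : IsPrimitiveRoot ζ (2 * M)) {n : ℤ} {w : Qb}
    (hn : n ≠ 0) (hw : g w = w) (e : u * w ^ 2 = n) (a : Km ζ g u k) : (k.val : ZMod 2) = nu n g := by
  obtain ⟨y, h⟩ := rt (2 * M) u
  have e1 : (y ^ M * w) ^ 2 = n := by rw [mul_pow, ← pow_mul, mul_comm M, h, e]
  have e2 : ζ ^ M = -1 := (hζ.pow (NeZero.pos _) (mul_comm 2 M)).eq_neg_one_of_two_right
  have e3 : g (y ^ M * w) = (-1) ^ k.val * (y ^ M * w) := by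
    rw [map_mul, map_pow, a y h, hw, mul_pow, ← pow_mul, mul_comm k.val, pow_mul, e2, mul_assoc]
  rcases Nat.even_or_odd k.val with o | o
  · rw [o.neg_one_pow, one_mul] at e3
    rw [(P004S.nu_eq_zero e1).2 e3, (ZMod.natCast_eq_zero_iff_even).2 o]
  · rw [o.neg_one_pow, neg_one_mul] at e3
    rw [(P004S.nu_eq_one hn e1).2 e3, (ZMod.natCast_eq_one_iff_odd).2 o]

end kummer

/-! ### Frobenius elements -/

section frob

variable {l N : ℕ} {P : Ideal (𝓞 Qb)} {φ : GQ}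

theorem unit_one (o : Ov l P) (hN : ¬ l ∣ N) {η : 𝓞 Qb} (h : η ^ N = 1) (e : η - 1 ∈ P) : η = 1 := by
  by_contra k
  have h1 := mul_geom_sum η N
  rw [h, sub_self, mul_eq_zero, sub_eq_zero, or_iff_right k] at h1
  have h2 := congrArg (Ideal.Quotient.mk P) h1
  rw [map_sum, map_zero] at h2
  simp only [map_pow, Ideal.Quotient.eq.2 e, map_one, one_pow, Finset.sum_const, Finset.card_range,
    nsmul_eq_mul, mul_one] at h2
  rw [← map_natCast (Ideal.Quotient.mk P), Ideal.Quotient.eq_zero_iff_mem, ← Int.cast_natCast] at h2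
  exact hN (Int.natCast_dvd_natCast.1 (ov_dvd o h2))

theorem smul_coe (g : GQ) (x : 𝓞 Qb) : ((g • x : 𝓞 Qb) : Qb) = g x := rfl

theorem ex_int {y : Qb} (hN : N ≠ 0) {w : 𝓞 Qb} (h : y ^ N = w) : ∃ z : 𝓞 Qb, (z : Qb) = y ∧ z ^ N = w :=
  ⟨⟨y, IsIntegral.of_pow (Nat.pos_of_ne_zero hN) (h ▸ w.isIntegral_coe)⟩, rfl,
    RingOfIntegers.ext ((map_pow (algebraMap (𝓞 Qb) Qb) _ N).trans h)⟩

/-- a root which is rational modulo `P` is fixed -/
theorem fix (o : Ov l P) (f : Fb l P φ) (hN : ¬ l ∣ N) {y : 𝓞 Qb} (hy : y ∉ P)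
    (h : φ ((y : Qb) ^ N) = y ^ N) (e : y ^ l - y ∈ P) : φ y = y := by
  have N0 : N ≠ 0 := fun k => hN (k ▸ dvd_zero l)
  have y0 : (y : Qb) ≠ 0 := fun k => hy (by rw [show y = 0 from RingOfIntegers.ext k]; exact P.zero_mem)
  have e1 : (φ y / y) ^ N = 1 := by rw [div_pow, ← map_pow, h, div_self (pow_ne_zero _ y0)]
  obtain ⟨η, hη, e0⟩ := ex_int N0 (w := 1) e1
  have e2 : φ • y = η * y := RingOfIntegers.ext (by
    rw [smul_coe, RingOfIntegers.coe_eq_algebraMap (η * y), map_mul]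
    exact (div_mul_cancel₀ _ y0).symm.trans (congrArg (· * (y : Qb)) hη.symm))
  have e3 := P.add_mem (f y) e
  rw [sub_add_sub_cancel, e2, ← sub_one_mul] at e3
  have e4 := unit_one o hN e0 ((o.2.1.mem_or_mem e3).resolve_right hy)
  rw [← smul_coe, e2, e4, one_mul]

theorem not_dvd (o : Ov l P) (h : l % N = 1) : ¬ l ∣ N := fun k =>
  o.1.one_lt.ne' (Nat.dvd_one.1 (h ▸ (Nat.dvd_mod_iff k).2 dvd_rfl))

theorem fx_one (o : Ov l P) (f : Fb l P φ) (h : l % N = 1) : Fx {1} N φ := fun y hy => by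
  have hN := not_dvd o h
  have N0 : N ≠ 0 := fun k => hN (k ▸ dvd_zero l)
  obtain ⟨z, rfl, e⟩ := ex_int N0 (w := 1) (Set.mem_singleton_iff.1 hy)
  refine fix o f hN (fun k => o.2.1.ne_top ((Ideal.eq_top_iff_one _).2
    (e ▸ P.pow_mem_of_mem k N (Nat.pos_of_ne_zero N0)))) ?_ ?_
  · rw [Set.mem_singleton_iff.1 hy, map_one]
  · rw [pow_eq_pow_mod l e, h, pow_one, sub_self]
    exact P.zero_mem

/-- roots of a quotient of two congruent elements -/
theorem fix_quo (o : Ov l P) (f : Fb l P φ) (h : l % N = 1) {a b : 𝓞 Qb} (ha : φ a = a) (hb : φ b = b)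
    (b0 : b ∉ P) (e : a - b ∈ P) {y : Qb} (hy : y ^ N = a / b) : φ y = y := by
  have hN := not_dvd o h
  obtain ⟨M, rfl⟩ := Nat.exists_eq_succ_of_ne_zero (fun k => hN (k ▸ dvd_zero l) : N ≠ 0)
  have b1 : (b : Qb) ≠ 0 := fun k => b0 (by rw [show b = 0 from RingOfIntegers.ext k]; exact P.zero_mem)
  have e1 : (y * b) ^ (M + 1) = (a * b ^ M : 𝓞 Qb) := by
    rw [mul_pow, hy, RingOfIntegers.coe_eq_algebraMap (_ * _), map_mul, map_pow, pow_succ']
    exact (mul_assoc _ _ _).symm.trans (by rw [div_mul_cancel₀ _ b1])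
  obtain ⟨z, hz, e2⟩ := ex_int M.succ_ne_zero e1
  have := o.2.1
  have e3 : Ideal.Quotient.mk P z ^ (M + 1) = Ideal.Quotient.mk P b ^ (M + 1) := by
    rw [← map_pow, e2, map_mul, map_pow, Ideal.Quotient.eq.2 e, pow_succ']
  have b2 : Ideal.Quotient.mk P b ≠ 0 := mt Ideal.Quotient.eq_zero_iff_mem.1 b0
  have e4 : Ideal.Quotient.mk P b ^ l = Ideal.Quotient.mk P b := by
    rw [← map_pow, eq_comm, Ideal.Quotient.eq]
    have := f b
    rwa [show φ • b = b from RingOfIntegers.ext hb] at this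
  have e5 := fix o f hN (y := z) (fun k => b2 (pow_eq_zero_iff M.succ_ne_zero |>.1 (by
    rw [← e3, Ideal.Quotient.eq_zero_iff_mem.2 k, zero_pow M.succ_ne_zero]))) (by
      rw [hz, e1, RingOfIntegers.coe_eq_algebraMap (_ * _), map_mul, map_pow, map_mul, map_pow]
      exact congrArg₂ (fun s t => s * t ^ M) ha hb) (by
      rw [← Ideal.Quotient.eq, map_pow]
      rw [← Nat.div_add_mod l (M + 1), h, pow_succ, pow_mul] at e4 ⊢
      rw [e3, mul_right_cancel₀ b2 (e4.trans (one_mul _).symm), one_mul])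
  rw [hz, map_mul, hb] at e5
  exact mul_right_cancel₀ b1 e5

/-- the sign -/
def sn (a : ZMod 2) : ℤ := if a = 0 then 1 else -1

theorem sn_add (a b : ZMod 2) : sn (a + b) = sn a * sn b := by revert a b; decide

theorem sn_inj {a b : ZMod 2} (h : sn a = sn b) : a = b := by revert a b; decide

theorem sn_ne (a : ZMod 2) : sn a ≠ 0 := by revert a; decide

/-- the quadratic character of the Galois group -/
def ch (m : ℤ) : GQ →* ℤ :=
  ⟨⟨fun g => sn (nu m g), by rw [P004S.nu_one]; rfl⟩, fun g h => by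
    simp only [P004S.nu_mul, sn_add]⟩

/-- its value at a Frobenius element -/
theorem ch_fb (o : Ov l P) (f : Fb l P φ) (l2 : l ≠ 2) {m : ℤ} (hm : ¬ (l : ℤ) ∣ m) :
    ch m φ = J(m | l) := by
  have := Fact.mk o.1
  obtain ⟨w, hw⟩ := P004S.ex_sqrt m
  obtain ⟨z, rfl, e⟩ := ex_int two_ne_zero (w := m) (hw.trans (map_intCast (algebraMap (𝓞 Qb) Qb) m).symm)
  have z0 : z ∉ P := fun c => hm (ov_dvd o (e ▸ P.pow_mem_of_mem c 2 two_pos))
  have e1 : φ • z = ch m φ * z := RingOfIntegers.ext (by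
    rw [smul_coe, P004S.gal_sqrt hw, RingOfIntegers.coe_eq_algebraMap (_ * _), map_mul, map_intCast]
    show _ = ((sn (nu m φ) : ℤ) : Qb) * _
    unfold sn
    split_ifs <;> simp)
  have h1 := f z
  rw [e1, show z ^ l = ((m ^ (l / 2) : ℤ) : 𝓞 Qb) * z by
    conv_lhs => rw [← Nat.two_mul_div_two_add_one_of_odd (o.1.odd_of_ne_two l2)]
    rw [pow_succ, pow_mul, e, Int.cast_pow], ← sub_mul, ← Int.cast_sub] at h1
  have h2 := (ZMod.intCast_zmod_eq_zero_iff_dvd _ l).2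
    (ov_dvd o ((o.2.1.mem_or_mem h1).resolve_right z0))
  rw [Int.cast_sub, Int.cast_pow, ← legendreSym.eq_pow, sub_eq_zero] at h2
  have h3 : ((1 : ℤ) : ZMod l) ≠ (-1 : ℤ) := by
    simpa using (Ring.neg_one_ne_one_of_char_ne_two (R := ZMod l)
      (by rwa [ZMod.ringChar_zmod_n])).symm
  rw [← jacobiSym.legendreSym.to_jacobiSym]
  have h4 : ch m φ = 1 ∨ ch m φ = -1 := by
    show sn _ = 1 ∨ sn _ = -1
    unfold sn
    split_ifs <;> simp
  rcases legendreSym.eq_one_or_neg_one l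
    (mt (ZMod.intCast_zmod_eq_zero_iff_dvd m l).1 hm) with e1 | e1 <;> rcases h4 with e2 | e2 <;>
      rw [e1, e2] at h2 ⊢
  · exact absurd h2.symm h3
  · exact absurd h2 h3

variable {K : Type} [Field K] [NumberField K] {j : K →+* Qb}

/-- the embedding of the integers -/
abbrev iz (j : K →+* Qb) : 𝓞 K →+* 𝓞 Qb := RingOfIntegers.mapRingHom j

theorem iz_coe (a : 𝓞 K) : (iz j a : Qb) = j a := rfl

theorem mem_below {a : 𝓞 K} : a ∈ below j P ↔ iz j a ∈ P := Iff.rfl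

/-- primes of degree one -/
theorem norm_below (hK : Iq K) (o : Ov l P) (f : Fb l P φ) (h : φ ∈ GK j) :
    Ideal.absNorm (below j P) = l := by
  have := o.2.1
  have pr : (below j P).IsPrime := Ideal.IsPrime.comap _
  have hl : (l : 𝓞 K) ∈ below j P := by rw [mem_below, map_natCast]; exact o.2.2
  have n0 : below j P ≠ ⊥ := fun k => o.1.ne_zero (by simpa [k] using hl)
  have mx := pr.isMaximal n0
  have d := Ideal.absNorm_dvd_absNorm_of_le ((Ideal.span_singleton_le_iff_mem _).2 hl)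
  rw [Ideal.absNorm_span_natCast, RingOfIntegers.rank, hK.two, Nat.dvd_prime_pow o.1] at d
  obtain ⟨i, hi, e⟩ := d
  letI := Ideal.Quotient.field (below j P)
  have := Ideal.finiteQuotientOfFreeOfNeBot _ n0
  letI := Fintype.ofFinite (𝓞 K ⧸ below j P)
  have c : Fintype.card (𝓞 K ⧸ below j P) = l ^ i := by
    rw [← e, Ideal.absNorm_apply, Submodule.cardQuot_apply, Nat.card_eq_fintype_card]
  have d := (FiniteField.forall_pow_eq_one_iff (K := 𝓞 K ⧸ below j P) (l - 1)).1 fun x => by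
    obtain ⟨a, ha⟩ := Ideal.Quotient.mk_surjective (x : 𝓞 K ⧸ below j P)
    have e1 : (x : 𝓞 K ⧸ below j P) = x ^ l := by
      rw [← ha, ← map_pow, Ideal.Quotient.eq, mem_below, map_sub, map_pow]
      have := f (iz j a)
      rwa [show φ • iz j a = iz j a from RingOfIntegers.ext (h a)] at this
    refine mul_right_cancel (b := x) (Units.ext ?_)
    rw [← pow_succ, Nat.sub_add_cancel o.1.pos, one_mul, Units.val_pow_eq_pow_val, ← e1]
  have l1 := o.1.one_lt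
  have d1 := Nat.le_of_dvd (by omega) d
  have d2 : 1 < Fintype.card (𝓞 K ⧸ below j P) := Fintype.one_lt_card
  rw [c] at d1 d2
  rw [e]
  interval_cases i
  · simp at d2
  · simp
  · have : l * 2 ≤ l ^ 2 := by rw [pow_two]; exact Nat.mul_le_mul_left _ l1
    omega

end frob

/-! ### quadratic orders -/

section quad

variable {K : Type} [Field K] [NumberField K] {J : 𝓞 K →+* ℂ} {ω θ : 𝓞 K} {s : 𝓞 K →+* 𝓞 K} {δ : ℕ}

theorem nm_s (q : Qd J ω s) (a : 𝓞 K) : Algebra.norm ℤ (s a) = Algebra.norm ℤ a :=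
  Algebra.norm_eq_of_algEquiv (RingEquiv.ofBijective s
    (Function.Involutive.bijective q.ss)).toIntAlgEquiv a

theorem nm_eq (hK : Iq K) (q : Qd J ω s) {a : 𝓞 K} {n : ℤ} (e : a * s a = n) :
    Ideal.absNorm (Ideal.span {a}) = n.natAbs := by
  have h := congrArg (Algebra.norm ℤ) e
  rw [map_mul, nm_s q, ← eq_intCast (algebraMap ℤ (𝓞 K)), Algebra.norm_algebraMap,
    RingOfIntegers.rank, hK.two, pow_two] at h
  rw [Ideal.absNorm_span_singleton, Int.natAbs_eq_iff_mul_self_eq.2 h]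

theorem s_th (q : Qd J ω s) (h0 : 0 < δ) (h : θ ^ 2 = -(δ : 𝓞 K)) : s θ = -θ := by
  refine (sq_eq_sq_iff_eq_or_eq_neg.1 (show s θ ^ 2 = θ ^ 2 by
    rw [← map_pow, h, map_neg, map_natCast])).resolve_left fun e => ?_
  obtain ⟨k, hk⟩ := q.int_of e
  have := q.cast_inj (k := k ^ 2) (l := -δ) (by push_cast; rw [← hk, h])
  nlinarith [sq_nonneg k]

theorem nm_form (q : Qd J ω s) (hδ : Squarefree δ) (h : θ ^ 2 = -(δ : 𝓞 K)) {a : 𝓞 K} {n : ℤ}
    (e : a * s a = n) : ∃ x r : ℤ, 4 * n = x ^ 2 + δ * r ^ 2 := by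
  have h0 := Nat.pos_of_ne_zero hδ.ne_zero
  obtain ⟨x, hx⟩ := q.tr a
  obtain ⟨r, hr⟩ := q.int_of (a := (a - s a) * θ) (by rw [map_mul, map_sub, q.ss, s_th q h0 h]; ring)
  have e1 : r ^ 2 = δ * (4 * n - x ^ 2) := q.cast_inj (by
    push_cast
    rw [← hr, ← hx, ← e, mul_pow, h]
    ring)
  obtain ⟨t, rfl⟩ := ((Int.squarefree_natCast.2 hδ).dvd_pow_iff_dvd two_ne_zero).1 ⟨_, e1⟩
  refine ⟨x, t, mul_left_cancel₀ (Int.natCast_ne_zero.2 hδ.ne_zero) ?_⟩
  linear_combination -e1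

theorem typ (q : Qd J ω s) (h0 : 0 < δ) (h : θ ^ 2 = -(δ : 𝓞 K)) {l : ℕ} (hl : l.Prime) {t : ℤ}
    (h1 : (l : ℤ) ∣ t ^ 2 + δ) (h2 : ¬ (l : ℤ) ∣ 2 * t) : Typ K l (l - 1) := by
  obtain ⟨u, v, e⟩ := ((Nat.prime_iff_prime_int.1 hl).irreducible.coprime_iff_not_dvd).2 h2
  obtain ⟨k, hk⟩ := h1
  have e' : (u : 𝓞 K) * l + v * (2 * t) = 1 := by exact_mod_cast congrArg (Int.cast : ℤ → 𝓞 K) e
  have hk' : (t : 𝓞 K) ^ 2 + δ = l * k := by exact_mod_cast congrArg (Int.cast : ℤ → 𝓞 K) hk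
  have m1 (x : 𝓞 K) : (l : 𝓞 K) ∈ Ideal.span {(l : 𝓞 K), x} := Ideal.subset_span (by simp)
  have m2 (x : 𝓞 K) : x ∈ Ideal.span {(l : 𝓞 K), x} := Ideal.subset_span (by simp)
  have pr : Ideal.span {(l : 𝓞 K), t - θ} * Ideal.span {(l : 𝓞 K), t + θ} = Ideal.span {(l : 𝓞 K)} := by
    refine le_antisymm ?_ ((Ideal.span_singleton_le_iff_mem _).2 ?_)
    · rw [Ideal.span_pair_mul_span_pair, Ideal.span_le]
      simp only [Set.insert_subset_iff, Set.singleton_subset_iff, SetLike.mem_coe,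
        Ideal.mem_span_singleton]
      exact ⟨dvd_mul_right _ _, dvd_mul_right _ _, dvd_mul_left _ _,
        k, by linear_combination hk' - h⟩
    · have := Ideal.add_mem _ (Ideal.mul_mem_left _ (u : 𝓞 K)
        (Ideal.mul_mem_mul (m1 (t - θ)) (m1 (t + θ)))) (Ideal.mul_mem_left _ (v : 𝓞 K)
          (Ideal.add_mem _ (Ideal.mul_mem_mul (m1 (t - θ)) (m2 (t + θ)))
            (Ideal.mul_mem_mul (m2 (t - θ)) (m1 (t + θ)))))
      convert this using 1
      linear_combination -(l : 𝓞 K) * e'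
  have nd : ∀ x : 𝓞 K, x + s x = 2 * t → Ideal.span {(l : 𝓞 K), x} ≠ Ideal.span {(l : 𝓞 K)} :=
    fun x a b => by
      obtain ⟨y, hy⟩ := Ideal.mem_span_singleton.1 (b ▸ m2 x)
      refine h2 (q.dvd_int ⟨y + s y, ?_⟩)
      push_cast
      rw [← a, mul_add, ← hy, hy, map_mul, map_natCast]
  refine ⟨hl, .inr ⟨⟨_, _, (Ideal.eq_top_iff_one _).2 ?_, fun a => ?_, fun a => ?_, pr⟩,
    Nat.sub_add_cancel hl.pos⟩⟩
  · have := Submodule.add_mem_sup (Ideal.add_mem _ (Ideal.mul_mem_left _ (u : 𝓞 K) (m1 (t - θ)))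
      (Ideal.mul_mem_left _ (v : 𝓞 K) (m2 (t - θ)))) (Ideal.mul_mem_left _ (v : 𝓞 K) (m2 (t + θ)))
    convert this using 1
    linear_combination -e'
  · rw [a, Ideal.top_mul] at pr
    exact nd _ (by rw [map_add, map_intCast, s_th q h0 h]; ring) pr
  · rw [a, Ideal.mul_top] at pr
    exact nd _ (by rw [map_sub, map_intCast, s_th q h0 h]; ring) pr

/-- representatives of the classes -/
theorem ex_rep (K : Type) [Field K] [NumberField K] {m : ℕ} (hm : 0 < m) :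
    ∃ b : ClassGroup (𝓞 K) → (Ideal (𝓞 K))⁰, b 1 = 1 ∧ ∀ x, ClassGroup.mk0 (b x) = x⁻¹ ∧
      (Ideal.absNorm (b x : Ideal (𝓞 K))).Coprime m := by
  have k : ∀ x : ClassGroup (𝓞 K), ∃ b : (Ideal (𝓞 K))⁰, (x = 1 → b = 1) ∧ ClassGroup.mk0 b = x⁻¹ ∧
      (Ideal.absNorm (b : Ideal (𝓞 K))).Coprime m := fun x => by
    by_cases h : x = 1
    · exact ⟨1, fun _ => rfl, by simp [h], by simp⟩
    obtain ⟨I, rfl⟩ := ClassGroup.mk0_surjective x
    have I0 := nonZeroDivisors.coe_ne_zero I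
    have m0 : Ideal.span {(m : 𝓞 K)} ≠ 0 := by simpa using hm.ne'
    obtain ⟨a, ha⟩ := IsDedekindDomain.exists_sup_span_eq (I := (I : Ideal (𝓞 K)) * Ideal.span {(m : 𝓞 K)})
      (J := I) Ideal.mul_le_left (mul_ne_zero I0 m0)
    obtain ⟨B, hB⟩ := Ideal.dvd_iff_le.2 (le_sup_right.trans ha.le)
    rw [hB, ← Ideal.mul_sup] at ha
    have e : Ideal.span {(m : 𝓞 K)} ⊔ B = ⊤ := mul_left_cancel₀ I0 (ha.trans (Ideal.mul_top _).symm)
    have k (B : (Ideal (𝓞 K))⁰) (e : Ideal.span {(m : 𝓞 K)} ⊔ B = ⊤) :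
        (Ideal.absNorm (B : Ideal (𝓞 K))).Coprime m := Nat.coprime_of_dvd fun p hp h1 h2 => by
      obtain ⟨Q, q1, q2, q3⟩ := Ideal.exists_isMaximal_dvd_of_dvd_absNorm' hp _ h1
      refine q1.ne_top (top_le_iff.1 (e ▸ sup_le ((Ideal.span_singleton_le_iff_mem _).2 ?_)
        (Ideal.dvd_iff_le.1 q3)))
      have : (m : ℤ) ∈ Q.under ℤ := q2 ▸ Ideal.mem_span_singleton.2 (Int.natCast_dvd_natCast.2 h2)
      simpa [Ideal.under, Ideal.mem_comap] using this
    by_cases B0 : B = 0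
    · obtain ⟨B', h'⟩ := ClassGroup.mk0_surjective (ClassGroup.mk0 I)⁻¹
      exact ⟨B', fun a => absurd a h, h', k _ (by
        rw [B0, Ideal.zero_eq_bot, sup_bot_eq] at e; rw [e, top_sup_eq])⟩
    refine ⟨⟨B, mem_nonZeroDivisors_of_ne_zero B0⟩, fun a => absurd a h, ?_, k _ e⟩
    rw [eq_inv_iff_mul_eq_one, mul_comm, ← map_mul]
    exact (ClassGroup.mk0_eq_one_iff _).2 ⟨a, hB.symm⟩
  choose b h1 h2 using k
  exact ⟨b, h1 1 rfl, h2⟩

/-- extension of an additive function on the kernel -/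
theorem ex_add {M G Z : Type} [CommMonoid M] [CommGroup G] [AddCommGroup Z] (c : M →* G) (b : G → M)
    (b1 : b 1 = 1) (hb : ∀ x, c (b x) = x⁻¹) (L : M → Z)
    (h1 : ∀ I I', c I = 1 → c I' = 1 → L (I * I') = L I + L I')
    (h2 : ∀ x y z, x * y * z = 1 → L (b x * b y * b z) = 0) (I I' : M) :
    L (I * I' * b (c (I * I'))) = L (I * b (c I)) + L (I' * b (c I')) := by
  have k (I : M) : c (I * b (c I)) = 1 := by rw [map_mul, hb, mul_inv_cancel]
  have k3 (x y z : G) (e : x * y * z = 1) : c (b x * b y * b z) = 1 := by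
    rw [map_mul, map_mul, hb, hb, hb, ← mul_inv, ← mul_inv, e, inv_one]
  have e1 : c I * c I' * (c (I * I'))⁻¹ = 1 := by rw [map_mul, mul_inv_cancel]
  have e2 : c (I * I') * (c (I * I'))⁻¹ * 1 = 1 := by rw [mul_inv_cancel, mul_one]
  have a := h1 _ _ (k (I * I')) (k3 _ _ _ e1)
  have d := h1 (I * b (c I) * (I' * b (c I'))) _ (by rw [map_mul, k I, k I', mul_one]) (k3 _ _ _ e2)
  rw [h2 _ _ _ e1, add_zero] at a
  rw [h2 _ _ _ e2, add_zero, h1 _ _ (k I) (k I'), b1] at d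
  rw [← a, ← d]
  congr 1
  simp only [mul_one]
  ac_rfl

end quad

end Vale.Agent.P004R.Xt
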