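import Vale.Agent.P004R.St2

/-!
# P004R: the rank one groups are bounded and do not depend on the length (helper27)
-/

set_option autoImplicit false
set_option linter.all false

open NumberField PowerSeries
open scoped Pointwise

noncomputable section

namespace Vale.Agent.P004R

open Vale.Agent.P022 P004K
open Vale.Agent.P022E.GW (Ov)
open Vale.Agent.P022K.G2 (In St ip st_ip)
open Vale.Agent.P004S (nu)
open P004F.Pr (Zs ac BND)

namespace Lx

variable {R R' : Type} [CommRing R] [CommRing R'] {ρ : (ZMod 2)⟦X⟧ →+* R}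
  {ρ' : (ZMod 2)⟦X⟧ →+* R'} {J J' i N : ℕ} {Γ : Subgroup GQ} {T : Finset ℕ} {e : GQ → ZMod N}
  {P : Ideal (𝓞 Qb)}

theorem ac_r1 (χ : GQ → R) (g : GQ) (x : Fin 1 → R) : ac (r1 χ g) x = fun _ => χ g * x 0 :=
  funext fun i => by simp [ac, r1, Subsingleton.elim i 0]

theorem mem_Z0 {χ : GQ → R} {x : (GQ → Fin 1 → R) × (Empty → R)} :
    x ∈ Z0 Γ T (r1 χ) P ↔ (∀ g ∈ Γ, ∀ h ∈ Γ, x.1 (g * h) 0 = x.1 g 0 + χ g * x.1 h 0) ∧
      (∀ g ∉ Γ, x.1 g 0 = 0) ∧ (∃ W : Subgroup GQ, IsOpen (W : Set GQ) ∧ ∀ w ∈ W, x.1 w 0 = 0) ∧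
      (∀ g ∈ In T, x.1 g 0 = 0) ∧ ∀ g ∈ Γ ⊓ P022D.W.dec P, x.1 g 0 = 0 := by
  have a : ∀ {y z : Fin 1 → R}, y = z ↔ y 0 = z 0 := ⟨fun h => h ▸ rfl, fun h => funext fun i =>
    Subsingleton.elim 0 i ▸ h⟩
  change (_ ∧ _ ∧ _ ∧ _ ∧ _) ↔ _
  simp only [a, ac_r1, Pi.add_apply, Pi.zero_apply, ac, Finset.univ_eq_empty, Finset.sum_empty,
    forall_const, Fin.sum_univ_one, r1, Matrix.smul_apply, Matrix.one_apply_eq, smul_eq_mul, mul_one]

theorem ker (h : Tq ρ J) (l : i ≤ J) (q : (ZMod 2)⟦X⟧) : ρ (X ^ (J - i) * q) = 0 ↔ X ^ i ∣ q := by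
  rw [h.ker]
  conv_lhs => rw [← Nat.sub_add_cancel l, pow_add, Nat.add_sub_cancel]
  exact mul_dvd_mul_iff_left (pow_ne_zero _ X_ne_zero)

/-- the part which is killed by `T ^ i` does not depend on the length -/
theorem tr (h : Tq ρ J) (h' : Tq ρ' J') (l : i ≤ J') : ∃ f : {z : Z0 Γ T (r1 (ch ρ e)) P //
    ρ X ^ i • z = 0} → Z0 Γ T (r1 (ch ρ' e)) P, Function.Injective f := by
  have k : ∀ q, ρ (X ^ (J - min J i) * q) = 0 ↔ ρ' (X ^ (J' - min J i) * q) = 0 := fun q =>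
    (ker h (min_le_left _ _) q).trans (ker h' ((min_le_right _ _).trans l) q).symm
  have k2 : ∀ q q', ρ (X ^ (J - min J i) * q) = ρ (X ^ (J - min J i) * q') ↔
      ρ' (X ^ (J' - min J i) * q) = ρ' (X ^ (J' - min J i) * q') := fun q q' => by
    rw [← sub_eq_zero, ← map_sub, ← mul_sub, k, mul_sub, map_sub, sub_eq_zero]
  have : ∀ (z : {z : Z0 Γ T (r1 (ch ρ e)) P // ρ X ^ i • z = 0}) g, ∃ q,
      z.1.1.1 g 0 = ρ (X ^ (J - min J i) * q) := fun z g => by
    obtain ⟨p, hp⟩ := h.sur (z.1.1.1 g 0)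
    have a : ρ (X ^ i * p) = 0 := by
      rw [map_mul, map_pow, hp]
      exact congrFun (congrFun (congrArg (fun y => y.1.1) z.2) g) 0
    have b : X ^ (J - min J i) ∣ p := by
      rcases le_total J i with c | c
      · rw [min_eq_left c, Nat.sub_self, pow_zero]; exact one_dvd _
      · rw [h.ker] at a
        rw [min_eq_right c, ← mul_dvd_mul_iff_left (pow_ne_zero i X_ne_zero), ← pow_add,
          Nat.add_sub_cancel' c]
        exact a
    exact b.imp fun q m => by rw [← hp, m]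
  choose q hq using this
  refine ⟨fun z => ⟨(fun g _ => ρ' (X ^ (J' - min J i) * q z g), 0), ?_⟩, fun z w m => ?_⟩
  · obtain ⟨a1, a2, ⟨W, o, a3⟩, a4, a5⟩ := mem_Z0.1 z.1.2
    simp only [hq, k] at a2 a3 a4 a5
    refine mem_Z0.2 ⟨fun g hg j hj => ?_, a2, ⟨W, o, a3⟩, a4, a5⟩
    have c : ∀ {A : Type} [CommRing A] (π : (ZMod 2)⟦X⟧ →+* A) (n : ℕ),
        π (X ^ n * q z g) + ch π e g * π (X ^ n * q z j) =
          π (X ^ n * (q z g + (1 + X) ^ (e g).val * q z j)) := fun π n => by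
      simp only [ch, map_mul, map_add, map_pow, map_one]; ring
    have := a1 g hg j hj
    rw [hq, hq, hq, c, k2, ← c] at this
    exact this
  · refine Subtype.ext (Subtype.ext (Prod.ext (funext fun g => funext fun j => ?_)
      (Subsingleton.elim _ _)))
    rw [Subsingleton.elim j 0, hq, hq, k2]
    exact congrFun (congrFun (congrArg (fun y => y.1.1) m) g) 0

theorem tq1 : Tq (constantCoeff (R := ZMod 2)) 1 :=
  ⟨constantCoeff_surj, fun x => by rw [pow_one, X_dvd_iff]⟩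

variable {K : Type} [Field K] [NumberField K] {j : K →+* Qb}

theorem gd {δ : ℕ} (h : Kd j δ) (two : 2 ∈ T) (pr : ∀ l ∈ T, l.Prime) {χ : GQ → R} (one : χ 1 = 1)
    (mul : ∀ g ∈ GK j, ∀ g' ∈ GK j, χ (g * g') = χ g * χ g')
    (lc : ∃ W : Subgroup GQ, IsOpen (W : Set GQ) ∧ ∀ w ∈ W, χ w = 1)
    (unr : ∀ g ∈ GK j, g ∈ In T → χ g = 1) : P004F.Pr.Gd (GK j) T (r1 χ) := by
  refine ⟨H916.isOpen_GK j, ?_, fun w => eq_bot_iff.2 fun g hg => ?_, two, pr, by simp [r1, one],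
    fun g a g' b => by simp [r1, mul g a g' b, smul_smul, mul_comm],
    lc.imp fun W k => ⟨k.1, fun w _ m => by simp [r1, k.2 w m]⟩, fun g a b => by simp [r1, unr g a b]⟩
  · obtain ⟨c, hc⟩ := H916.exists_not_mem j h.iq.two
    refine Subgroup.index_eq_two_iff.2 ⟨c, fun b => ?_⟩
    rw [h.gk] at hc
    rw [h.gk, h.gk, P004S.nu_mul]
    revert hc
    generalize nu _ b = x
    generalize nu _ c = y
    revert x y
    decide
  · have a := (Subgroup.mem_inf.1 hg).2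
    rw [st_ip, ← w.mk_embedding, InfinitePlace.mem_stabilizer_mk_iff] at a
    refine a.resolve_right fun k => ?_
    have := P004S.nu_neg_conj (d := -(δ : ℤ)) (by have := h.m8; omega) ⟨_, k.eq⟩
    rw [(h.gk g).1 hg.1] at this
    exact zero_ne_one this

end Lx

open Lx

theorem lex (h1 : RC1) (h2 : RC2) (hM : MU) (hB : BND) : LEX := by
  intro K _ _ j d₁ d₂ k S hK
  obtain ⟨C, hC⟩ := hB (Fin 1) (GK j) {2} (r1 fun _ => 1) (gd hK (by simp) (by simpa using Nat.prime_two)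
    rfl (fun _ _ _ _ => (mul_one _).symm) ⟨⊤, isOpen_univ, fun _ _ => rfl⟩ fun _ _ _ => rfl)
  refine ⟨(2 ^ (C + 2 * (S.card + k))) ^ 2, fun c M e hL hS hp hk P hP => ?_⟩
  obtain ⟨m, hm⟩ := hL.pow
  have c0 : 0 < c := hL.sq.ne_zero.bot_lt
  have : NeZero (2 * M) := ⟨by rw [hm]; positivity⟩
  have pr : ∀ l ∈ S ∪ c.primeFactors, l.Prime := fun l a => (Finset.mem_union.1 a).elim
    (fun a => (hS.inS l a).1) Nat.prime_of_mem_primeFactors
  have un : ∀ l Q, Ov l Q → ¬l ∣ c → ∀ g ∈ GK j, P027M.S.Inert Q g → e g = 0 := by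
    intro l Q o n g a b
    obtain ⟨-, -, -, -, r5, -, r7⟩ := h2 K j hK.iq c c0
    refine hL.ker g ((r5 _ g ⟨by simp, by simp⟩ (r7 Q o.2.1 ?_ (fun i => n ?_) g a 0
      (fun x => by simpa using b x))).2 ⟨1, 0, by simp⟩)
    · rintro rfl
      exact o.1.ne_zero (Nat.cast_eq_zero.1 (Ideal.mem_bot.1 o.2.2))
    · exact_mod_cast P004S.ov_dvd o (a := c) (by exact_mod_cast i)
  obtain ⟨f1, f2⟩ := hC Empty Unit (S ∪ c.primeFactors) (fun _ => P) (fun _ _ => 0) pr
  have e1 : r1 (ch (constantCoeff (R := ZMod 2)) e) = r1 fun _ => 1 :=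
    congrArg r1 (funext fun g => by simp [ch])
  rw [Finset.union_eq_right.2 (by simp [hS.two]), ← e1] at f1 f2
  have mn : ∀ (R : Type) [CommRing R] (ρ : (ZMod 2)⟦X⟧ →+* R) J, Tq ρ J → J ≤ 2 * M →
      (∀ z : Z0 (GK j) (S ∪ c.primeFactors) (r1 (ch ρ e)) P, ρ X ^ 2 • z = 0) ∧
      Finite (Z0 (GK j) (S ∪ c.primeFactors) (r1 (ch ρ e)) P) ∧
      Nat.card (Z0 (GK j) (S ∪ c.primeFactors) (r1 (ch ρ e)) P) ≤
        (2 ^ (C + 2 * (S.card + k))) ^ 2 := by
    intro R _ ρ J hT hJ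
    have t2 : ∀ z : Z0 (GK j) (S ∪ c.primeFactors) (r1 (ch ρ e)) P, ρ X ^ 2 • z = 0 := by
      intro z
      obtain ⟨a1, a2, ⟨W, o, a3⟩, a4, a5⟩ := mem_Z0.1 z.2
      have kk : ∀ p : Polynomial (ZMod 2), Polynomial.X ^ J ∣ p ↔ ρ p = 0 := fun p => by
        simp only [hT.ker, Polynomial.X_pow_dvd_iff, X_pow_dvd_iff, Polynomial.coeff_coe]
      have : ∀ g, ∃ p : Polynomial (ZMod 2), z.1.1 g 0 = ρ p := fun g => by
        obtain ⟨p, a⟩ := hT.sur (z.1.1 g 0)
        refine ⟨trunc J p, a.symm.trans (sub_eq_zero.1 ((map_sub ρ _ _).symm.trans ((hT.ker _).2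
          (X_pow_dvd_iff.2 fun n b => ?_))))⟩
        simp [coeff_trunc, b]
      choose p hp' using this
      simp only [hp', ← kk] at a1 a2 a3 a4 a5
      have := hM K j d₁ d₂ c M S e hK hL hS hp P hP J p hJ (fun g a g' b => (kk _).2 (by
        simp only [Polynomial.coe_sub, Polynomial.coe_mul, Polynomial.coe_pow, Polynomial.coe_add,
          Polynomial.coe_one, Polynomial.coe_X, map_sub, map_mul, map_pow, map_add, map_one,
          a1 g a g' b, ch]
        ring)) ⟨W, o, a3⟩ (fun l Q o n n' g _ b => a4 g ⟨l, fun i => (Finset.mem_union.1 i).elim n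
          fun i => n' (Nat.dvd_of_mem_primeFactors i), Q, o, b⟩)
        fun g a => (em (g ∈ GK j)).elim (fun b => a5 g ⟨b, a⟩) (a2 g)
      refine Subtype.ext (Prod.ext (funext fun g => funext fun i => ?_) (Subsingleton.elim _ _))
      rw [Subsingleton.elim i 0]
      change ρ X ^ 2 * z.1.1 g 0 = 0
      by_cases a : g ∈ GK j
      · simpa only [hp', Polynomial.coe_mul, Polynomial.coe_pow, Polynomial.coe_X, map_mul, map_pow]
          using (kk _).1 (this g a)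
      · rw [hp', (kk _).1 (a2 g a), mul_zero]
    obtain ⟨f, hf⟩ := tr (Γ := GK j) (T := S ∪ c.primeFactors) (e := e) (P := P) hT tq1 le_rfl
    let L := LinearMap.lsmul R (Z0 (GK j) (S ∪ c.primeFactors) (r1 (ch ρ e)) P) (ρ X ^ 1)
    have k1 : Finite (LinearMap.ker L) := Finite.of_injective f hf
    have k2 : Nat.card (LinearMap.ker L) ≤ 2 ^ (C + 2 * (S.card + k)) :=
      (Nat.card_le_card_of_injective f hf).trans (f2.trans (Nat.pow_le_pow_right two_pos (by
        have := Finset.card_union_le S c.primeFactors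
        simp only [Fintype.card_empty, Fintype.card_fin]
        omega)))
    have k3 : LinearMap.range L ≤ LinearMap.ker L := by
      rintro _ ⟨z, rfl⟩
      change ρ X ^ 1 • ρ X ^ 1 • z = 0
      rw [smul_smul, ← pow_add, t2]
    have k4 : Finite (LinearMap.range L) := Finite.of_injective _ (Submodule.inclusion_injective k3)
    have k5 := Finite.of_equiv _ L.quotKerEquivRange.toEquiv.symm
    refine ⟨t2, @Finite.of_addSubgroup_quotient _ _ (LinearMap.ker L).toAddSubgroup k1 k5, ?_⟩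
    rw [Submodule.card_eq_card_quotient_mul_card (LinearMap.ker L), pow_two,
      Nat.card_congr L.quotKerEquivRange.toEquiv]
    exact Nat.mul_le_mul k2 ((Nat.card_le_card_of_injective _
      (Submodule.inclusion_injective k3)).trans k2)
  intro R _ ρ J hT hJ
  have z1 : ∀ {g}, e g = 0 → ch ρ e g = 1 := fun a => by rw [ch, a, ZMod.val_zero, pow_zero]
  obtain ⟨t2, m2, m3⟩ := mn R ρ J hT hJ
  refine ⟨gd hK (Finset.mem_union_left _ hS.two) pr (z1 (hL.ker 1 (one_mem _))) (fun g a g' b => ?_)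
    ⟨_, (h1 K j hK.iq c c0).2.1, fun w a => z1 (hL.ker w a)⟩ fun g a ⟨l, n, Q, o, b⟩ =>
      z1 (un l Q o (fun i => n (Finset.mem_union_right _ (Nat.mem_primeFactors.2 ⟨o.1, i, c0.ne'⟩)))
        g a b), m2, m3, fun R' _ ρ' J' h' l l' => ?_⟩
  · have : CharP (ZMod 2)⟦X⟧ 2 := charP_of_injective_ringHom (C_injective (R := ZMod 2)) 2
    have : (1 + ρ X) ^ (2 * M) = 1 := by
      rw [← map_one ρ, ← map_add, ← map_pow, hm, ← pow_succ', add_pow_char_pow, one_pow, map_add,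
        (hT.ker (X ^ _)).2 (pow_dvd_pow _ (by rw [pow_succ', ← hm]; exact hJ)), add_zero]
    rw [ch, ch, ch, hL.add g a g' b, ZMod.val_add, ← pow_eq_pow_mod _ this, pow_add]
  · obtain ⟨f, hf⟩ := tr (Γ := GK j) (T := S ∪ c.primeFactors) (e := e) (P := P) hT h' l
    have := (mn R' ρ' J' h' l').2.1
    exact Nat.card_le_card_of_injective (fun z => f ⟨z, t2 z⟩) fun z w a =>
      congrArg Subtype.val (hf a)

end Vale.Agent.P004R
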