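import Vale.Agent.P004R.Lev
import Vale.Agent.P004R.Lex
import Vale.Agent.P004R.Qf
import Vale.Agent.P004R.Ext0
import Vale.Agent.P004K.Rc.Cyc
import Vale.Agent.P004F.Defs
import Vale.Agent.P004F.En.Lh

/-!
# P004R: the anchor for the curves with a rational point of order two
-/

set_option autoImplicit false
set_option linter.all false

open NumberField Filter Matrix
open scoped Pointwise PowerSeries NumberTheorySymbols Classical

noncomputable section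

namespace Vale.Agent.P004R

open Vale.Agent.P022 P027H P027M.M P004K
open Vale.Agent.P027M.S (Inert)
open Vale.Agent.P022D.W (dec)
open Vale.Agent.P022E.GW (Ov Fb)
open Vale.Agent.P022K.G2 (Tv In)
open Vale.Agent.P004S (nu Rep mt ep)
open P004F (Crv Fld Rb ANCHOR)
open P004F.En (Gq)

namespace Tp

variable (e : Crv)

theorem pr {p : ℕ} (h : p ∈ e.S) : p.Prime := (e.ov p h).1

theorem rep : Rep e.rp e.S.toFinset :=
  P004F.En.rep_ok _ (List.mem_toFinset.2 e.two) fun l hl h k => by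
    rw [List.mem_toFinset] at h
    rcases (Nat.prime_iff_prime_int.1 hl).dvd_or_dvd k with k | k
    · exact h ((Nat.prime_dvd_prime_iff_eq hl Nat.prime_two).1 (by exact_mod_cast k) ▸ e.two)
    · exact (e.bad l hl h).2.1 k

/-- the residual representation -/
def rb (g : GQ) : Matrix (Fin 2) (Fin 2) (ZMod 2) := (e.r g).map PadicInt.toZMod

theorem rb_mul (g h : GQ) : rb e (g * h) = rb e g * rb e h := by
  rw [rb, map_mul, Matrix.map_mul]; rfl

theorem rb_one : rb e 1 = 1 := by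
  rw [rb, map_one, Matrix.map_one _ (map_zero _) (map_one _)]

theorem rb_kn {g : GQ} (h : g ∈ (rep e).Kn 1) : rb e g = 1 := by
  ext i j
  have a : ‖(e.r g - 1) i j‖ < 1 := by
    refine lt_of_le_of_lt (le_of_eq_of_le (congrArg (fun x : ℚ_[2] => ‖x‖) ?_) (h i j)) (by norm_num)
    rw [Matrix.sub_apply, Matrix.sub_apply, PadicInt.coe_sub, one_apply, one_apply]
    split_ifs <;> rfl
  rw [← PadicInt.mem_nonunits, ← IsLocalRing.mem_maximalIdeal, ← PadicInt.ker_toZMod,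
    RingHom.mem_ker, Matrix.sub_apply, map_sub, sub_eq_zero] at a
  refine a.trans ?_
  rw [one_apply, one_apply, apply_ite PadicInt.toZMod, map_one, map_zero]

theorem tr_frob {l : ℕ} (hl : l.Prime) (h : l ∉ e.S) {g : GQ} (f : IsFrob l g) :
    (rb e g).trace = e.a l := by
  rw [rb, ← AddMonoidHom.map_trace, show (e.r g).trace = e.a l from (e.bad l hl h).2.2 g f,
    map_intCast]

variable {e}

theorem tr_zero (h : ¬ P004T.Irr e.a) (g : GQ) : (rb e g).trace = 0 := by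
  obtain ⟨l, φ, hl, h1, h2, h3⟩ := P022K.Cheb.exists_fr (O := (g⁻¹ * ·) ⁻¹' ((rep e).Kn 1))
    (((rep e).Kn_open 1).preimage (continuous_const.mul continuous_id)) (g := g)
    (by simpa using one_mem _) (e.S.toFinset ∪ (Set.not_infinite.1 h).toFinset)
  simp only [Finset.mem_union, List.mem_toFinset, Set.Finite.mem_toFinset, Set.mem_setOf_eq,
    not_or, not_and, Int.not_odd_iff_even] at h1
  rw [← mul_one (rb e g), ← rb_kn e h3, ← rb_mul, mul_inv_cancel_left, tr_frob e hl h1.1 h2]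
  exact (ZMod.intCast_zmod_eq_zero_iff_dvd _ 2).2 (h1.2 hl).two_dvd

theorem even (h : ¬ P004T.Irr e.a) {l : ℕ} (hl : l.Prime) (k : l ∉ e.S) : Even (e.a l) := by
  obtain ⟨P, o⟩ := Mu.ex_pl hl
  obtain ⟨-, φ, -, f, -⟩ := Mu.ex_st o
  have := tr_zero h φ
  rw [tr_frob e hl k ⟨P, o.2.1, o.2.2, f⟩] at this
  exact even_iff_two_dvd.2 ((ZMod.intCast_zmod_eq_zero_iff_dvd _ 2).1 this)

theorem nd_prod {l : ℕ} (hl : l.Prime) : l ∣ e.S.prod ↔ l ∈ e.S :=
  ⟨fun k => by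
    obtain ⟨p, hp, d⟩ := (Prime.dvd_prod_iff hl.prime).1 k
    rwa [(Nat.prime_dvd_prime_iff_eq hl (pr e hp)).1 d], List.dvd_prod⟩

theorem par (h : ¬ P004T.Irr e.a) (n : ℕ) (hn : n.Coprime e.S.prod) : Odd (e.a n) ↔ IsSquare n :=
  Qf.par_a e.rn.one e.rn.te (List.dvd_prod e.two) (fun p hp k =>
    have := mt (nd_prod hp).2 k
    ⟨fun d => (e.bad p hp this).1 (d.mul_right _), even h hp this⟩) n hn

variable (b : Fld e)

theorem th' : b.j b.θ ^ 2 = ((-(b.δ' : ℤ) : ℤ) : Qb) := by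
  have := congrArg (fun x : 𝓞 b.K => b.j x) b.th
  simpa using this

theorem kd : Kd b.j b.δ' := by
  refine ⟨b.iq, b.upm, b.adm.sq, b.adm.m8, ⟨b.θ, by
    simpa using congrArg (fun x : 𝓞 b.K => (x : b.K)) b.th⟩, fun g => ?_⟩
  rw [P004S.nu_eq_zero (th' b)]
  refine ⟨fun k => k _, fun k x => ?_⟩
  obtain ⟨ω, s, q⟩ := Rc.qd b.j b.iq
  obtain ⟨u, v, h⟩ := q.sp b.θ
  have v0 : (v : Qb) ≠ 0 := fun z => by
    have := b.im
    rw [h, show v = 0 by exact_mod_cast z] at this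
    simp at this
  have f : ∀ (a : 𝓞 b.K) (u v : ℤ), a = u + v * ω → b.j a = u + v * b.j ω := fun a u v h => by
    rw [h]; simp
  have w : g (b.j ω) = b.j ω := by
    rw [f _ _ _ h, map_add, map_mul, map_intCast, map_intCast] at k
    exact mul_left_cancel₀ v0 (add_left_cancel k)
  have i : ∀ a : 𝓞 b.K, g (b.j a) = b.j a := fun a => by
    obtain ⟨u, v, h⟩ := q.sp a
    rw [f _ _ _ h, map_add, map_mul, map_intCast, map_intCast, w]
  obtain ⟨y, z, -, rfl⟩ := IsFractionRing.div_surjective (𝓞 b.K) x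
  rw [map_div₀, map_div₀]
  exact congrArg₂ _ (i y) (i z)

theorem out {l : ℕ} (hl : l.Prime) (h : l ∣ b.δ') : l ≠ 2 ∧ l ∉ e.S := by
  have l2 : l ≠ 2 := fun k => by have := b.adm.m8; subst k; omega
  exact ⟨l2, fun k => Mu.nd_of hl (.inr (b.adm.spl l k l2)) (dvd_neg.2 (Int.natCast_dvd_natCast.2 h))⟩

theorem irr (w : P004S.V) (hw : w ≠ 0) : ∃ x ∈ GK b.j, ∀ a : ℚ_[2], mt e.rp x *ᵥ w ≠ a • w := by
  obtain ⟨g, hg⟩ := (rep e).irr w hw
  by_cases k : g ∈ GK b.j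
  · exact ⟨g, k, hg⟩
  obtain ⟨l, hl, d⟩ := Nat.exists_prime_and_dvd (show b.δ' ≠ 1 by have := b.adm.m8; omega)
  obtain ⟨P, o⟩ := Mu.ex_pl hl
  obtain ⟨τ, -, t, -⟩ := Mu.ex_st o
  have t1 := P004S.nu_tau o (out b hl d).1 (d := -(b.δ' : ℤ))
    (Int.squarefree_natAbs.1 (by simpa using b.adm.sq)) (dvd_neg.2 (Int.natCast_dvd_natCast.2 d)) t
  refine ⟨g * τ, ((kd b).gk _).2 ?_, fun a => ?_⟩
  · rw [P004S.nu_mul, t1, (P004S.z2 _).resolve_left (mt ((kd b).gk g).2 k)]; rfl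
  · rw [P004S.mt, map_mul, (rep e).unr l hl (mt List.mem_toFinset.1 (out b hl d).2) P o.2.1 o.2.2 τ t.1,
      mul_one]
    exact hg a

theorem nq : Nq b.j e.S.toFinset (fun m => (rep e).Kn (m + 1)) (Gq e.rp) := by
  have h := rep e
  have cy := P004S.cyc_ep _ _ h
  refine ⟨fun m => ⟨h.Kn_open _, h.Kn_normal _, h.Kn_uns _⟩, fun m g u hu a => a.mul h hu,
    fun m g x a => a.conj x, fun A hA => ?_⟩
  obtain ⟨k, hk⟩ := P004F.En.big (P004F.hq e.par.disc)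
  obtain ⟨u, hu, bu, fx⟩ := hk.kum h cy (H916.isOpen_GK b.j) (irr b) (b.j '' A) (by
    rintro _ ⟨a, ha, rfl⟩
    exact ⟨(map_ne_zero b.j).2 fun z => hA (z ▸ ha), fun g hg => hg a⟩)
  refine ⟨u, hu, fun n y hy => fx n y hy, ?_⟩
  obtain ⟨m, hm⟩ := bu.gq h one_ne_zero
  refine ⟨m, fun g hg => by_cases (p := ‖ep e.rp g - 1‖ ≤ 1 / 4)
    (fun c => (hm g c).imp fun i k => ⟨k.1, one_mul i ▸ k.2⟩) fun c => ?_⟩
  obtain ⟨x, hx⟩ : ∃ x : ℤ_[2], (x : ℚ_[2]) = ep e.rp g := ⟨⟨_, (h.norm_ep g).le⟩, rfl⟩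
  obtain ⟨ζ, hζ⟩ := HasEnoughRootsOfUnity.exists_primitiveRoot Qb (2 ^ 2)
  have a : ‖ep e.rp g - x.appr 2‖ ≤ (1 / 2) ^ 2 := by
    have := (PadicInt.norm_le_pow_iff_mem_span_pow _ 2).2 (x.appr_spec 2)
    rw [← hx]
    refine le_of_eq_of_le ?_ (this.trans_eq (by norm_num))
    rw [PadicInt.norm_def]; rfl
  have e1 := cy g 2 _ ζ hζ.pow_eq_one a
  rw [hg ζ hζ.pow_eq_one] at e1
  rw [hζ.pow_inj (x.appr_lt 2) (by norm_num) (e1.symm.trans (pow_one ζ).symm)] at a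
  exact absurd (by simpa using a.trans_eq (by norm_num)) c

theorem gp {m q : ℕ} (hq : q.Prime) (h : q ∉ e.S) (g : ∀ φ, IsFrob q φ → Gq e.rp m φ) :
    ¬ (2 : ℤ) ^ (2 * m + 1) ∣ ((q : ℤ) + 1) ^ 2 - e.a q ^ 2 := fun d => by
  obtain ⟨P, o⟩ := Mu.ex_pl hq
  obtain ⟨-, φ, -, f, -⟩ := Mu.ex_st o
  have f' : IsFrob q φ := ⟨P, o.2.1, o.2.2, f⟩
  obtain ⟨g1, g2⟩ := g φ f'
  have t : (mt e.rp φ).trace = e.a q := by
    rw [P004S.mt, Crv.rp, P004M.TE.rep_val, RingHom.mapMatrix_apply, ← AddMonoidHom.map_trace,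
      (e.bad q hq h).2.2 φ f', map_intCast]
  rw [t, ((rep e).frob q hq (mt List.mem_toFinset.1 h) φ f').1] at g1 g2
  have a := (Padic.norm_int_le_pow_iff_dvd (p := 2) (((q : ℤ) + 1) ^ 2 - e.a q ^ 2) (2 * m + 1)).2 d
  have c := mul_le_mul g1 g2 (by positivity) (norm_nonneg _)
  rw [← norm_mul, show (1 - (e.a q : ℚ_[2]) + q) * (1 + e.a q + q) =
    ((((q : ℤ) + 1) ^ 2 - e.a q ^ 2 : ℤ) : ℚ_[2]) by push_cast; ring] at c
  have := c.trans a
  rw [← pow_add, _root_.zpow_neg, _root_.zpow_natCast, Nat.cast_ofNat, ← inv_pow, one_div,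
    pow_le_pow_iff_right_of_lt_one₀ (by norm_num) (by norm_num)] at this
  omega

theorem typ {q : ℕ} {P : Ideal (𝓞 Qb)} (o : Ov q P) (h2 : q ≠ 2) (h : ¬ q ∣ b.δ')
    (d : dec P ≤ GK b.j) : Typ b.K q (q - 1) := by
  have := Fact.mk o.1
  obtain ⟨-, φ, -, f, m⟩ := Mu.ex_st o
  have nd : ¬ (q : ℤ) ∣ -(b.δ' : ℤ) := fun k => h (Int.natCast_dvd_natCast.1 (dvd_neg.1 k))
  have a := Mu.nu_fb o h2 f nd
  rw [if_pos (((kd b).gk φ).1 (d m))] at a
  obtain ⟨t, ht⟩ := ZMod.isSquare_of_jacobiSym_eq_one a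
  obtain ⟨t, rfl⟩ := ZMod.intCast_surjective t
  have c : (q : ℤ) ∣ t ^ 2 + b.δ' := (ZMod.intCast_zmod_eq_zero_iff_dvd _ q).1 (by
    push_cast at ht ⊢
    linear_combination -ht)
  obtain ⟨ω, s, qd⟩ := Rc.qd b.j b.iq
  refine Xt.typ qd (Nat.pos_of_ne_zero b.adm.sq.ne_zero) b.th o.1 c fun k => ?_
  rcases (Nat.prime_iff_prime_int.1 o.1).dvd_or_dvd k with k | k
  · exact h2 ((Nat.prime_dvd_prime_iff_eq o.1 Nat.prime_two).1 (by exact_mod_cast k))
  · exact nd (dvd_neg.2 ((dvd_add_right (dvd_pow k two_ne_zero)).1 c))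

theorem gd (c : ℕ) : P004F.Pr.Gd (GK b.j) (e.S.toFinset ∪ c.primeFactors) (rb e) := by
  have two := Finset.mem_union_left c.primeFactors (List.mem_toFinset.2 e.two)
  have p : ∀ l ∈ e.S.toFinset ∪ c.primeFactors, l.Prime := fun l hl => (Finset.mem_union.1 hl).elim
    (fun k => pr e (List.mem_toFinset.1 k)) Nat.prime_of_mem_primeFactors
  have g := Lx.gd (R := ZMod 2) (kd b) two p (χ := fun _ => 1) rfl (fun _ _ _ _ => (mul_one _).symm)
    ⟨⊤, isOpen_univ, fun _ _ => rfl⟩ fun _ _ _ => rfl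
  refine ⟨g.opn, g.idx, g.cx, two, p, rb_one e, fun g _ h _ => rb_mul e g h,
    ⟨_, (rep e).Kn_open 1, fun w _ m => rb_kn e m⟩, ?_⟩
  rintro g - ⟨l, hl, P, o, i⟩
  exact rb_kn e ((rep e).Kn_uns 1 l P o (fun k => hl (Finset.mem_union_left _ k)) g i)

theorem card (J c : ℕ) {n : ℕ} (x : GQ → ZMod n) : Nat.card (b.Z0 J c fun g => (x g).val) =
    Nat.card (Z0 (GK b.j) (e.S.toFinset ∪ c.primeFactors)
      (r2 (Ideal.Quotient.mk _ : _ →+* Rb J) (ch (Ideal.Quotient.mk _) x) (rb e)) (e.P 2)) := by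
  have a : b.ab J (fun g => (x g).val) =
      r2 (Ideal.Quotient.mk _ : _ →+* Rb J) (ch (Ideal.Quotient.mk _) x) (rb e) := funext fun g => by
    rw [Fld.ab, r2, ch, rb, map_add, map_one, Matrix.map_map]; rfl
  rw [← a]
  refine Nat.card_congr ⟨fun z => ⟨(z.1, 0), z.2.1.coc, z.2.1.out, z.2.1.lc, z.2.1.unr,
    fun _ g hg => (z.2.2 g hg.2).trans (P004F.Pr.ac_zero _).symm⟩,
    fun z => ⟨z.1.1, ⟨z.2.1, z.2.2.1, z.2.2.2.1, z.2.2.2.2.1⟩, fun g hg => ?_⟩, fun _ => rfl,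
    fun z => Subtype.ext (Prod.ext rfl (Subsingleton.elim _ _))⟩
  rw [z.2.2.2.2.2 () g ⟨b.le 2 e.two hg, hg⟩, Subsingleton.elim z.1.2 0, P004F.Pr.ac_zero]

theorem tv {c : ℕ} {T : Finset GQ} (h : b.Tv c T) : Tv (GK b.j) (Hc b.j c) T :=
  ⟨h.1, fun g hg => (h.2 g hg).exists.imp fun r k => ⟨k.1, by simpa using inv_mem k.2⟩,
    fun r hr r' hr' k => (h.2 r (h.1 r hr)).unique ⟨hr, by simpa using one_mem _⟩ ⟨hr', k⟩⟩

end Tp

open Tp

/-- **the anchor in the residually reducible case** -/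
theorem anchor (r1' : P004K.RC1) (hg1 : HG1) (cj0 : P004K.CJ0) (qexp : P004F.Qx.QEXP) (fld : FLD)
    (uni : UNI) (cnf : CNF) (bt : BT2) (dpt : DPT) (shp : SHP) (shf : SHF) (lex : LEX) (dbl : DBL)
    (qf : QF) (twr : TWR) (part : PART) : ANCHOR fun a => ¬ P004T.Irr a := by
  refine fun A B => ⟨∅, by simp, fun e _ _ _ hI => ?_⟩
  have hP : ∀ p ∈ e.S, (e.P p).IsPrime ∧ (p : 𝓞 Qb) ∈ e.P p := fun p hp => (e.ov p hp).2
  obtain ⟨u, hu, s, us, cq, qx⟩ := qexp _ _ _ _ _ _ _ _ _ _ e.rn e.par e.S e.nd fun p => pr e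
  obtain ⟨T₁, qx⟩ := qx e.P hP
  obtain ⟨T₂, qy⟩ := qf e.N e.a e.S e.rn.pos e.nd (fun p => pr e) e.two (par hI) u hu s us
    (cq 2 e.two).1 (cq 2 e.two).2 e.P hP
  refine ⟨_, part e.S.toFinset (T₁ + T₂) fun p hp => pr e (List.mem_toFinset.1 hp), ?_⟩
  rintro δ ⟨sq, big, spl, d₁, d₂, rfl, m1, m2, om⟩
  refine ⟨⟨sq, by rw [Nat.mul_mod, m1, m2], fun p hp => spl p (List.mem_toFinset.2 hp)⟩,
    fun b hb => ?_⟩
  have k0 : Kd b.j (d₁ * d₂) := hb ▸ kd b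
  obtain ⟨k, m, tw⟩ := twr b.K b.j d₁ d₂ _ _ _ k0 m1 om (List.mem_toFinset.2 e.two)
    (fun p hp => ⟨pr e (List.mem_toFinset.1 hp), fun h => by exact_mod_cast spl p hp h⟩) (nq b)
  choose c₁ q₀ e₁ e₂ t ck gq using tw
  obtain ⟨C, lv⟩ := lev r1' fld uni cnf bt dpt shp shf lex dbl k0 e.S.toFinset (k + 1)
  have hQ : ∀ p ∈ e.S.toFinset, Ov p (e.P p) ∧ dec (e.P p) ≤ GK b.j ∧ Fb p (e.P p) (b.φ p) ∧
      b.φ p ∈ GK b.j := fun p hp =>
    have h := List.mem_toFinset.1 hp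
    ⟨e.ov p h, b.le p h, b.ch.frb p h, b.ch.mem p h⟩
  have cd : ∀ n, (c₁ n * q₀ n).primeFactors.card ≤ k + 1 := fun n => by
    have := (t n).ly.sq.ne_zero
    rw [Nat.primeFactors_mul (left_ne_zero_of_mul this) (right_ne_zero_of_mul this),
      (t n).pr.primeFactors]
    exact (Finset.card_union_le _ _).trans (Nat.add_le_add_right (ck n) 1)
  have ou : ∀ n q, q ∣ c₁ n * q₀ n → q ∉ e.S := fun n q d h =>
    have h' := List.mem_toFinset.2 h
    (frob_unit (t n).ly (t n).sh (t n).par h' (hQ q h').1 (hQ q h').2.2.1 (hQ q h').2.2.2).2 d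
  have lt : ∀ {J n : ℕ}, J ≤ n → J < 2 ^ (n + 1) := fun h =>
    (Nat.lt_succ_of_le h).trans Nat.lt_two_pow_self
  have lv' := fun n (h : C ≤ n) => lv _ _ _ (t n).ly (t n).sh (t n).par (cd n) (lt h) e.P b.φ hQ
  have er : (e.S.erase 2).toFinset = e.S.toFinset.erase 2 := by
    ext p
    simp only [List.mem_toFinset, e.nd.mem_erase_iff, Finset.mem_erase]
  refine ⟨2 * m + 1 + k, 2 * C, fun n => c₁ n * q₀ n, fun n g => ((e₁ n + e₂ n) g).val,
    Eventually.of_forall fun n => ?_, fun J => ?_, 2 * C + 2, ?_⟩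
  · have y := (t n).ly
    have dv : 2 ^ n ∣ 2 * 2 ^ (n + 1) := (pow_dvd_pow 2 n.le_succ).mul_left 2
    refine ⟨⟨fun g hg h hh => ?_, fun g hg => ?_⟩, y.sq, ?_, (cd n).trans (by omega),
      fun q hq => ?_, fun q hq P o => ?_⟩
    · beta_reduce
      rw [y.add g hg h hh, ZMod.val_add]
      exact (Nat.mod_modEq _ _).of_dvd dv
    · beta_reduce
      rw [y.ker g hg, ZMod.val_zero]; exact dvd_zero _
    · exact (t n).pr.one_lt.trans_le (Nat.le_of_dvd (Nat.pos_of_ne_zero y.sq.ne_zero)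
        (dvd_mul_left _ _))
    · have p := Nat.prime_of_mem_primeFactors hq
      have d := Nat.dvd_of_mem_primeFactors hq
      obtain ⟨P, o⟩ := Mu.ex_pl p
      have nd : ¬ q ∣ b.δ' := fun z => p.prime.not_unit
        ((t n).sh.sq q (mul_dvd_mul (hb ▸ z) d))
      refine ⟨ou n q d, nd, ⟨_, typ b o (y.ram q P o d).1 nd (y.ram q P o d).2.1, ?_⟩,
        fun z => gp p (ou n q d) (gq n q p d) ((pow_dvd_pow 2 (by omega)).trans z)⟩
      exact (pow_dvd_pow 2 (by omega)).trans ((Nat.modEq_iff_dvd' p.pos).1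
        (Eq.trans (Nat.mod_eq_of_lt (Nat.one_lt_two_pow (by omega))) ((t n).cy q p d).symm))
    · obtain ⟨-, -, g, g1, g2⟩ := y.ram q P o (Nat.dvd_of_mem_primeFactors hq)
      have : Fact (1 < 2 * 2 ^ (n + 1)) := ⟨by have := lt (le_refl n); omega⟩
      have v : ((e₁ n + e₂ n) g).val = 1 := by rw [g2, ZMod.val_one]
      refine ⟨g, g1, ?_, fun h _ => ⟨_, by beta_reduce; rw [v, mul_one]⟩⟩
      beta_reduce
      rw [v, Nat.dvd_one, Nat.pow_eq_one]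
      omega
  · filter_upwards [eventually_ge_atTop (C + J)] with n hn
    rcases J.eq_zero_or_pos with rfl | J0
    · have : Subsingleton (Rb 0) := Ideal.Quotient.subsingleton_iff.2 (by simp)
      exact (Finite.card_le_one_iff_subsingleton.2 inferInstance).trans Nat.one_le_two_pow
    obtain ⟨l, -, -, z⟩ := (lv' n (by omega)).2 _ (e.nd.erase 2) er
    rw [card]
    exact (z _ _ J (Lv.tq J) J0 (by have := lt (show J ≤ n by omega); omega) _ (gd b _)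
      fun g _ => tr_zero hI g).1
  · filter_upwards [eventually_ge_atTop (2 * C + 2)] with n hn
    obtain ⟨j0, z⟩ := lv' n (by omega)
    obtain ⟨l, lC, an, z⟩ := z _ (e.nd.erase 2) er
    refine ⟨l, ?_, fun T hT => ?_⟩
    · rw [card]
      exact (z _ _ _ (Lv.tq _) (by omega) (by have := lt hn; omega) _ (gd b _)
        fun g _ => tr_zero hI g).2 (by omega) (by omega)
    have c0 := Nat.pos_of_ne_zero (t n).ly.sq.ne_zero
    have co : (c₁ n * q₀ n).Coprime (e.N * e.S.prod) := Nat.coprime_of_dvd fun q p d z =>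
      (p.dvd_mul.1 z).elim (fun z => (e.bad q p (ou n q d)).1 (z.mul_right _))
        fun z => ou n q d ((nd_prod p).1 z)
    have R0 : 0 < e.N * e.S.prod ^ 2 := mul_pos e.rn.pos (pow_pos (List.prod_pos fun p h =>
      (pr e h).pos) 2)
    have th := hb ▸ b.th
    obtain ⟨τ, hτ⟩ := (hg1 b.K b.j b.iq _ _ _ R0 c0 (co.coprime_mul_right_right.mul_right
      (co.coprime_mul_left_right.pow_right 2)) (Qf.sp_sq (fun p => pr e) b.ch.spl (fun _ => id)
        e.rn.pos b.ch.lev b.ch.cop).cn).1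
    have := an T (tv b hT) _ fun g hg => by
      obtain ⟨σ, hσ⟩ := ex_ex g
      obtain ⟨τ', h'⟩ := (cj0 σ _ R0).1 τ
      exact qy _ (by omega) sq b.K b.j b.iq b.θ th _ _ _ _ b.ch _ c0 co j0 g (hT.1 g hg) σ τ τ' hσ hτ
        h' _ ((qx _ (by omega) sq b.K b.j b.iq b.θ th _ _ _ _ b.ch _ c0 co _
          (b.hg _ c0 co.coprime_mul_right_right) g (hT.1 g hg) 2 e.two).2 σ τ τ' hσ hτ h')
    by_contra k
    exact this fun i hi => by_contra fun w => k ⟨i, by omega, w⟩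

end Vale.Agent.P004R
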