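import Vale.Agent.P004R.Ext0
import Vale.Agent.P004K.Rc.Cyc
import Vale.Agent.P022K.Cheb.Main
import Vale.Agent.P022E.GW.TauG

/-!
# P004R, row EXT: characters of the ring class group with prescribed ramification
-/

set_option autoImplicit false
set_option linter.all false

open NumberField IsDedekindDomain
open scoped NumberTheorySymbols nonZeroDivisors

noncomputable section

namespace Vale.Agent.P004R

open Vale.Agent.P022 (Qb GQ GK below)
open P004K P004K.Rc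
open Vale.Agent.P027M.S (Inert)
open Vale.Agent.P022D.W (dec)
open Vale.Agent.P022E.GW (Ov Fb)
open Vale.Agent.P004S (nu ov_dvd)

namespace Xt

variable {K : Type} [Field K] [NumberField K] {j : K →+* Qb} {ω θ : 𝓞 K} {s : 𝓞 K →+* 𝓞 K}
  {δ c : ℕ}

/-- the quotient of an element by its conjugate -/
def qu (s : 𝓞 K →+* 𝓞 K) (a : 𝓞 K) : K := (a : K) / (s a : 𝓞 K)

theorem s_ne (q : Qd (JJ j) ω s) {a : 𝓞 K} (h : a ≠ 0) : ((s a : 𝓞 K) : K) ≠ 0 := fun e =>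
  h (by rw [← q.ss a, show s a = 0 from RingOfIntegers.ext e, map_zero])

theorem qu_ne (q : Qd (JJ j) ω s) {a : 𝓞 K} (h : a ≠ 0) : j (qu s a) ≠ 0 :=
  (map_ne_zero j).2 (div_ne_zero (fun e => h (RingOfIntegers.ext e)) (s_ne q h))

theorem qu_nm (q : Qd (JJ j) ω s) {a : 𝓞 K} (h : a ≠ 0) : Algebra.norm ℚ (qu s a) = 1 := by
  refine mul_right_cancel₀ (Algebra.norm_ne_zero_iff.2 (s_ne q h) : Algebra.norm ℚ _ ≠ 0) ?_
  rw [← map_mul, qu, div_mul_cancel₀ _ (s_ne q h), one_mul, ← Algebra.coe_norm_int,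
    ← Algebra.coe_norm_int, nm_s q]

theorem qu_val {a : 𝓞 K} (v : HeightOneSpectrum (𝓞 K)) (h : a * s a ∉ v.asIdeal) :
    v.valuation K (qu s a) = 1 := by
  rw [qu, map_div₀, RingOfIntegers.coe_eq_algebraMap, RingOfIntegers.coe_eq_algebraMap,
    (v.valuation_eq_one_iff_notMem).2 fun e => h (Ideal.mul_mem_right _ _ e),
    (v.valuation_eq_one_iff_notMem).2 fun e => h (Ideal.mul_mem_left _ _ e), div_one]

/-- the properties of the symbol -/
structure Lm (s : 𝓞 K →+* 𝓞 K) (c : ℕ) {N : ℕ} (lam : 𝓞 K → ZMod N) : Prop where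
  add : ∀ a b, a ≠ 0 → b ≠ 0 → lam (a * b) = lam a + lam b
  neg : ∀ a, a ≠ 0 → lam (-a) = lam a
  rc : ∀ (k : ℤ) (a : 𝓞 K), (k : 𝓞 K) + c * a ≠ 0 → IsCoprime k (c : ℤ) → lam (k + c * a) = 0
  par : ∀ a (n : ℤ), a ≠ 0 → a * s a = n → IsCoprime n (c : ℤ) → sn (lam a).val = J(n | c)

theorem ex_lam (q : Qd (JJ j) ω s) {n k : ℕ} {p : Fin k → ℕ} {P : Fin k → Ideal (𝓞 Qb)}
    {φ : Fin k → GQ} (h : ∀ i, Ov (p i) (P i) ∧ φ i ∈ GK j ∧ Fb (p i) (P i) (φ i) ∧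
      p i % (2 * 2 ^ (n + 1)) = 1) :
    ∃ lam : 𝓞 K → ZMod (2 * 2 ^ (n + 1)), Lm s (∏ i, p i) lam ∧ ∀ a ≠ 0,
      (∀ y, y ^ (2 * 2 ^ (n + 1)) = j (qu s a) → (List.ofFn φ).prod y = y) → lam a = 0 := by
  obtain ⟨ζ, hζ⟩ := HasEnoughRootsOfUnity.exists_primitiveRoot Qb (2 * 2 ^ (n + 1))
  have mem (H : Subgroup GQ) (e : ∀ i, φ i ∈ H) : (List.ofFn φ).prod ∈ H :=
    H.list_prod_mem fun x hx => by obtain ⟨i, rfl⟩ := List.mem_ofFn.1 hx; exact e i
  have hΦ := mem (GK j) fun i => (h i).2.1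
  have fx (y : Qb) (e : ∀ i, φ i y = y) : (List.ofFn φ).prod y = y :=
    mem (MulAction.stabilizer GQ y) e
  have h1 : Fx {1} (2 * 2 ^ (n + 1)) (List.ofFn φ).prod := fun y hy =>
    fx y fun i => fx_one (h i).1 (h i).2.2.1 (h i).2.2.2 y hy
  have ex (a : 𝓞 K) : ∃ x : ZMod (2 * 2 ^ (n + 1)), a ≠ 0 →
      Km ζ (List.ofFn φ).prod (j (qu s a)) x := by
    by_cases a0 : a = 0
    · exact ⟨0, fun e => absurd a0 e⟩
    · exact (km_ex hζ h1 (qu_ne q a0) (hΦ _)).imp fun _ e _ => e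
  choose lam hl using ex
  have z (a : 𝓞 K) (a0 : a ≠ 0) e : lam a = 0 := km_uq hζ (qu_ne q a0) (hl a a0) (km_zero e)
  have nd (i) {x : ℤ} (e : IsCoprime x (∏ i, p i : ℕ)) (d : (p i : ℤ) ∣ x) : False :=
    (Nat.prime_iff_prime_int.1 (h i).1.1).not_unit (e.isUnit_of_dvd' d
      (Int.natCast_dvd_natCast.2 (Finset.dvd_prod_of_mem p (Finset.mem_univ i))))
  refine ⟨lam, ⟨fun a b a0 b0 => ?_, fun a a0 => ?_, fun x a a0 e => ?_, fun a x a0 e e' => ?_⟩, z⟩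
  · refine km_uq hζ (qu_ne q (mul_ne_zero a0 b0)) (hl _ (mul_ne_zero a0 b0)) ?_
    have := km_mul hζ h1 (qu_ne q a0) (qu_ne q b0) (hl a a0) (hl b b0)
    rwa [← map_mul, show qu s a * qu s b = qu s (a * b) by simp [qu, div_mul_div_comm]] at this
  · refine km_uq hζ (qu_ne q a0) ?_ (hl a a0)
    have := hl _ (neg_ne_zero.2 a0)
    rwa [show qu s (-a) = qu s a by simp [qu, neg_div_neg_eq]] at this
  · refine z _ a0 fun y hy => fx y fun i => ?_
    have m (b : 𝓞 K) : iz j ((∏ i, p i : ℕ) * b) ∈ P i := by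
      obtain ⟨r, hr⟩ := Finset.dvd_prod_of_mem p (Finset.mem_univ i)
      rw [map_mul, map_natCast, hr, Nat.cast_mul]
      exact Ideal.mul_mem_right _ _ (Ideal.mul_mem_right _ _ (h i).1.2.2)
    refine fix_quo (h i).1 (h i).2.2.1 (h i).2.2.2 (a := iz j _) (b := iz j (s _)) ((h i).2.1 _)
      ((h i).2.1 _) (fun b => nd i e (ov_dvd (h i).1 ?_)) ?_ (hy.trans (map_div₀ j _ _))
    · rw [map_add, map_intCast, map_mul, map_natCast, map_add, map_intCast] at b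
      exact (Ideal.add_mem_iff_left _ (m _)).1 b
    · rw [← map_sub, map_add s, map_intCast, map_mul s, map_natCast, add_sub_add_left_eq_sub, ← mul_sub]
      exact m _
  · have x0 : x ≠ 0 := fun b => mul_ne_zero a0 (fun d : s a = 0 => s_ne q a0 (by rw [d]; rfl))
      (by rw [e, b, Int.cast_zero])
    rw [km_par hζ x0 (hΦ (s a : 𝓞 K)) (by
      rw [← map_pow, ← map_mul, qu, pow_two, ← mul_assoc, div_mul_cancel₀ _ (s_ne q a0),
        ← map_intCast j]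
      exact congrArg j (by simpa using congrArg (algebraMap (𝓞 K) K) e)) (hl a a0)]
    show ch x _ = _
    rw [map_list_prod, ← List.prod_ofFn (f := p), jacobiSym.list_prod_right fun y hy => by
      obtain ⟨i, rfl⟩ := List.mem_ofFn.1 hy; exact (h i).1.1.ne_zero, List.map_ofFn, List.map_ofFn]
    refine congrArg _ (congrArg _ (funext fun i => ch_fb (h i).1 (h i).2.2.1 (fun b => ?_) (nd i e')))
    have := (h i).2.2.2
    rw [b, Nat.mod_eq_of_lt (by have := Nat.one_lt_two_pow n.succ_ne_zero; omega)] at this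
    omega

/-- a generator -/
def gn (I : Ideal (𝓞 K)) : 𝓞 K := Classical.epsilon fun β => I = Ideal.span {β}

theorem gn_sp {I : (Ideal (𝓞 K))⁰} (h : ClassGroup.mk0 I = 1) :
    (I : Ideal (𝓞 K)) = Ideal.span {gn I} :=
  Classical.epsilon_spec (p := fun β => (I : Ideal (𝓞 K)) = Ideal.span {β})
    ((ClassGroup.mk0_eq_one_iff I.2).1 h).principal

theorem gn_ne {I : (Ideal (𝓞 K))⁰} (h : ClassGroup.mk0 I = 1) : gn (I : Ideal (𝓞 K)) ≠ 0 := fun e =>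
  nonZeroDivisors.coe_ne_zero I (by rw [gn_sp h, e]; simp)

/-- extension of the symbol to all ideals -/
theorem ex_f (hU : Upm K) {N : ℕ} {lam : 𝓞 K → ZMod N} (hl : Lm s c lam)
    {b : ClassGroup (𝓞 K) → (Ideal (𝓞 K))⁰} (b1 : b 1 = 1) (hb : ∀ x, ClassGroup.mk0 (b x) = x⁻¹)
    (h : ∀ x y, lam (gn (b x * b y * b (x * y)⁻¹ : (Ideal (𝓞 K))⁰)) = 0) :
    ∃ f : Ideal (𝓞 K) → ZMod N, (∀ I I', I ≠ ⊥ → I' ≠ ⊥ → f (I * I') = f I + f I') ∧
      (∀ a ≠ 0, f (Ideal.span {a}) = lam a) ∧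
      ∀ I ≠ ⊥, ∃ x, ∃ β ≠ 0, I * (b x : Ideal (𝓞 K)) = Ideal.span {β} ∧ f I = lam β := by
  classical
  have cg {a a' : 𝓞 K} (a0 : a ≠ 0) (e : Ideal.span {a} = Ideal.span {a'}) : lam a' = lam a := by
    obtain ⟨u, rfl⟩ := Ideal.span_singleton_eq_span_singleton.1 e
    rcases hU u with rfl | rfl
    · simp
    · simpa using hl.neg a a0
  have k := ex_add ClassGroup.mk0 b b1 hb (fun I => lam (gn I)) (fun I I' e e' => by
    rw [← hl.add _ _ (gn_ne e) (gn_ne e')]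
    refine cg (mul_ne_zero (gn_ne e) (gn_ne e')) ?_
    rw [← Ideal.span_singleton_mul_span_singleton, ← gn_sp e, ← gn_sp e',
      ← gn_sp (by rw [map_mul, e, e', mul_one]), Submonoid.coe_mul])
    fun x y z e => by rw [eq_inv_of_mul_eq_one_right e]; exact h x y
  have k1 (I : (Ideal (𝓞 K))⁰) : ClassGroup.mk0 (I * b (ClassGroup.mk0 I)) = 1 := by
    rw [map_mul, hb, mul_inv_cancel]
  refine ⟨fun I => if h : I ∈ (Ideal (𝓞 K))⁰ then
    lam (gn ((⟨I, h⟩ : (Ideal (𝓞 K))⁰) * b (ClassGroup.mk0 ⟨I, h⟩) : (Ideal (𝓞 K))⁰)) else 0,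
    fun I I' e e' => ?_, fun a a0 => ?_, fun I e => ?_⟩
  · have m := mem_nonZeroDivisors_of_ne_zero e
    have m' := mem_nonZeroDivisors_of_ne_zero e'
    simp only [dif_pos m, dif_pos m', dif_pos (mul_mem m m')]
    exact k ⟨I, m⟩ ⟨I', m'⟩
  · have m := mem_nonZeroDivisors_of_ne_zero (mt Ideal.span_singleton_eq_bot.1 a0 : Ideal.span {a} ≠ ⊥)
    have e := (ClassGroup.mk0_eq_one_iff m).2 ⟨a, rfl⟩
    simp only [dif_pos m, e, b1, mul_one]
    exact cg a0 (gn_sp e)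
  · have m := mem_nonZeroDivisors_of_ne_zero e
    exact ⟨_, _, gn_ne (k1 ⟨I, m⟩), gn_sp (k1 ⟨I, m⟩), dif_pos m⟩

/-- passage to the Galois group -/
theorem ex_e (h2 : RC2) (hK : Iq K) (hc : 0 < c) {Z : Type} [AddCommGroup Z] {f : Ideal (𝓞 K) → Z}
    (add : ∀ I I', I ≠ ⊥ → I' ≠ ⊥ → f (I * I') = f I + f I')
    (rc : ∀ (k : ℤ) (a : 𝓞 K), Cop c (Ideal.span {k + c * a}) → f (Ideal.span {k + c * a}) = 0) :
    ∃ e : GQ → Z, (∀ g ∈ GK j, ∀ h ∈ GK j, e (g * h) = e g + e h) ∧ (∀ g ∈ Hc j c, e g = 0) ∧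
      ∀ I g, Cop c I → Ar j c I g → e g = f I := by
  classical
  obtain ⟨-, r2, r3, -, r5, -⟩ := h2 K j hK c hc
  have ex (g) (hg : g ∈ GK j) : ∃ I, Cop c I ∧ Ar j c I g := by simpa using r2 g hg 1 one_pos
  have z (I g) (a : Cop c I) (b : Ar j c I g) (m : g ∈ Hc j c) : f I = 0 := by
    obtain ⟨k, x, rfl⟩ := (r5 I g a b).1 m
    exact rc k x a
  have wd (I I' g) (a : Cop c I) (a' : Cop c I') (b : Ar j c I g) (b' : Ar j c I' g) : f I = f I' := by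
    obtain ⟨L, l1, l2⟩ := ex _ (inv_mem b.1)
    have m : g * g⁻¹ ∈ Hc j c := by rw [mul_inv_cancel]; exact one_mem _
    refine add_right_cancel (b := f L) ?_
    rw [← add _ _ a.1 l1.1, ← add _ _ a'.1 l1.1, z _ _ (cop_mul a l1) (r3 _ _ _ _ a l1 b l2) m,
      z _ _ (cop_mul a' l1) (r3 _ _ _ _ a' l1 b' l2) m]
  obtain ⟨e, he⟩ : ∃ e : GQ → Z, ∀ I g, Cop c I → Ar j c I g → e g = f I :=
    ⟨fun g => if h : ∃ I, Cop c I ∧ Ar j c I g then f h.choose else 0, fun I g a b => by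
      have h : ∃ I, Cop c I ∧ Ar j c I g := ⟨I, a, b⟩
      exact (dif_pos h).trans (wd _ _ g h.choose_spec.1 a h.choose_spec.2 b)⟩
  refine ⟨e, fun g hg h hh => ?_, fun g hg => ?_, he⟩
  · obtain ⟨I, a, b⟩ := ex g hg
    obtain ⟨I', a', b'⟩ := ex h hh
    rw [he _ _ (cop_mul a a') (r3 _ _ _ _ a a' b b'), he _ _ a b, he _ _ a' b', add _ _ a.1 a'.1]
  · obtain ⟨I, a, b⟩ := ex g hg.1
    rw [he _ _ a b, z _ _ a b hg]

theorem cop_nm {β : 𝓞 K} {n : ℤ} (b0 : β ≠ 0) (e : β * s β = n) (h : IsCoprime n (c : ℤ)) :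
    Cop c (Ideal.span {β}) := by
  obtain ⟨u, v, h⟩ := h
  refine cop_of (mt Ideal.span_singleton_eq_bot.1 b0) (u := u * s β * β) (b := v)
    (Ideal.mul_mem_left _ _ (Ideal.mem_span_singleton_self _)) ?_
  have := congrArg (Int.cast : ℤ → 𝓞 K) h
  push_cast at this
  linear_combination this + u * e

theorem sn_odd {a : ℕ} (h : sn a = -1) : Odd a := by
  rw [← ZMod.natCast_eq_one_iff_odd]
  generalize (a : ZMod 2) = x at h
  revert x
  decide

/-- total ramification -/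
theorem ram (h2 : RC2) (h3 : RC3) (kd : Kd j δ) (q : Qd (JJ j) ω s) (hθ : θ ^ 2 = -(δ : 𝓞 K))
    {l n : ℕ} (hl : l.Prime) (hc : 0 < c) (hd : ¬ l ∣ c) (l2 : l ≠ 2) (hδ : J(-δ | l) = 1)
    {e : GQ → ZMod (2 * 2 ^ (n + 1))} (add : ∀ g ∈ GK j, ∀ h ∈ GK j, e (g * h) = e g + e h)
    (ker : ∀ g ∈ Hc j (c * l), e g = 0) (par : ∀ β (x : ℤ) g, β ≠ 0 → β * s β = x →
      IsCoprime x (c * l : ℕ) → Ar j (c * l) (Ideal.span {β}) g → sn (e g).val = J(x | c * l))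
    {P : Ideal (𝓞 Qb)} (o : Ov l P) : ∃ t, Inert P t ∧ e t = 1 := by
  have := Fact.mk hl
  have d0 := Nat.pos_of_ne_zero kd.sq.ne_zero
  have lp := Nat.prime_iff_prime_int.1 hl
  have z2 : (2 : ZMod l) ≠ 0 := Ring.two_ne_zero (by rwa [ZMod.ringChar_zmod_n])
  have zc : (c : ZMod l) ≠ 0 := mt (ZMod.natCast_eq_zero_iff c l).1 hd
  obtain ⟨t, ht⟩ := ZMod.isSquare_of_jacobiSym_eq_one hδ
  have t0 : t ≠ 0 := fun a => by
    rw [a, zero_mul, ZMod.intCast_zmod_eq_zero_iff_dvd] at ht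
    rw [jacobiSym.mod_left, Int.emod_eq_zero_of_dvd ht, jacobiSym.zero_left hl.one_lt] at hδ
    exact zero_ne_one hδ
  obtain ⟨r, hr⟩ := FiniteField.exists_nonsquare (F := ZMod l) (by rwa [ZMod.ringChar_zmod_n])
  obtain ⟨x, hx⟩ := ZMod.intCast_surjective (((r + 1) / 2 - 1) / (c : ZMod l))
  obtain ⟨y, hy⟩ := ZMod.intCast_surjective ((r - 1) / (2 * t) / (c : ZMod l))
  obtain ⟨t, rfl⟩ := ZMod.intCast_surjective t
  push_cast at ht
  obtain ⟨τ, i1, i2⟩ := (h3 K j kd.iq kd.upm).2 l _ (typ q d0 hθ hl (t := t)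
    ((ZMod.intCast_zmod_eq_zero_iff_dvd _ l).1 (by push_cast; linear_combination -ht))
    (mt (ZMod.intCast_zmod_eq_zero_iff_dvd _ l).2 (by push_cast; exact mul_ne_zero z2 t0))) P o.2.1 o.2.2
  obtain ⟨g1, -, g3⟩ := i2 c hc hd
  obtain ⟨m, hm⟩ : ∃ m : ℤ, m = (1 + c * x) ^ 2 + δ * (c * y) ^ 2 := ⟨_, rfl⟩
  have m1 : (m : ZMod l) = r := by
    rw [hm]
    push_cast
    rw [hx, hy, show (δ : ZMod l) = -(t * t) by rw [← ht, neg_neg]]
    field_simp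
    ring
  have m2 : m ≡ 1 [ZMOD c] := (Int.modEq_iff_dvd.2 ⟨-(2 * x + c * x ^ 2 + δ * c * y ^ 2), by
    rw [hm]; ring⟩)
  have m3 : J(m | l) = -1 := by
    rw [← jacobiSym.legendreSym.to_jacobiSym, legendreSym.eq_neg_one_iff, m1]
    exact hr
  have m4 : J(m | c * l) = -1 := by
    rw [jacobiSym.mul_right' _ hc.ne' hl.ne_zero, m3, jacobiSym.mod_left' m2, jacobiSym.one_left,
      one_mul]
  have cl := Nat.mul_pos hc hl.pos
  have m5 : IsCoprime m (c * l : ℕ) := Int.isCoprime_iff_gcd_eq_one.2 (by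
    by_contra a
    have := NeZero.of_pos cl
    rw [jacobiSym.eq_zero_iff_not_coprime.2 a] at m4
    omega)
  have b1 : (((1 : ℤ) : 𝓞 K) + c * (x + y * θ)) * s ((1 : ℤ) + c * (x + y * θ)) = m := by
    simp only [map_add, map_mul, map_intCast, map_natCast, s_th q d0 hθ, hm]
    push_cast
    linear_combination -(c * y) ^ 2 * hθ
  have b0 : (((1 : ℤ) : 𝓞 K) + c * (x + y * θ)) ≠ 0 := fun a => by
    rw [a, zero_mul, eq_comm, Int.cast_eq_zero] at b1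
    exact hr (by rw [← m1, b1]; simp)
  have cp := cop_nm b0 b1 m5
  obtain ⟨g, hg⟩ := (h2 K j kd.iq _ cl).1 _ cp
  obtain ⟨-, -, -, -, r5, r6, -⟩ := h2 K j kd.iq c hc
  obtain ⟨i, hi⟩ := g3 g ((r5 _ g (cop_dvd cp) (r6 l _ g hl.pos cp hg)).2 ⟨_, _, rfl⟩)
  have pw (i : ℕ) : e (τ ^ i) = i * e τ := by
    induction i with
    | zero => simpa using ker 1 (one_mem _)
    | succ i ih => rw [pow_succ τ, add _ (pow_mem g1.1 i) _ g1.1, ih, Nat.cast_succ, add_mul, one_mul]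
  have e1 := add g hg.1 _ hi.1
  rw [ker _ hi, add_zero, mul_inv_cancel_left, pw] at e1
  have od := sn_odd ((par _ _ g b0 b1 m5 hg).trans m4)
  have un := (ZMod.isUnit_iff_coprime _ _).2
    (Nat.Coprime.mul_right od.coprime_two_right (od.coprime_two_right.pow_right (n + 1)))
  rw [ZMod.natCast_zmod_val, ← e1] at un
  obtain ⟨u, hu⟩ := (isUnit_of_mul_isUnit_right un).exists_left_inv
  exact ⟨τ ^ u.val, (P022.H443.inP P).pow_mem i1 _, by rw [pw, ZMod.natCast_zmod_val, hu]⟩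

/-- the genus character -/
theorem par (h1 : RC1) (h2 : RC2) (kd : Kd j δ) (q : Qd (JJ j) ω s) (hθ : θ ^ 2 = -(δ : 𝓞 K))
    {d N : ℕ} (c4 : c % 4 = 1) (hd : d ∣ δ) (d4 : d % 4 = 1) {e : GQ → ZMod N}
    (add : ∀ g ∈ GK j, ∀ h ∈ GK j, e (g * h) = e g + e h) (ker : ∀ g ∈ Hc j c, e g = 0)
    (h : ∀ I g, Cop c I → Ar j c I g → ∃ β, ∃ b : ℕ, J(b | d * c) = 1 ∧
      Ideal.absNorm (Ideal.span {β}) = Ideal.absNorm I * b ∧
        ∀ x : ℤ, β * s β = x → IsCoprime x (c : ℤ) → sn (e g).val = J(x | c))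
    (g : GQ) (hg : g ∈ GK j) : ((e g).val : ZMod 2) = nu (d * c : ℕ) g := by
  have hc : 0 < c := by omega
  have d0 : 0 < d := by omega
  obtain ⟨l, ψ, hl, hS, ⟨P, p1, p2, f⟩, m1, m2⟩ := P022K.Cheb.exists_fr (g := g)
    (((h1 K j kd.iq c hc).2.1.inter (P004S.kn_open (d * c : ℕ))).preimage
      (continuous_mul_left g⁻¹)) ⟨by simpa using one_mem _, by simpa using one_mem _⟩
      (2 * (d * c)).primeFactors
  have nd : ¬ l ∣ 2 * (d * c) := fun a => hS (Nat.mem_primeFactors.2 ⟨hl, a, by positivity⟩)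
  have o : Ov l P := ⟨hl, p1, p2⟩
  have hψ : ψ ∈ GK j := by simpa using mul_mem hg m1.1
  have e1 := add g hg _ m1.1
  have e2 := P004S.nu_mul (d * c : ℕ) g (g⁻¹ * ψ)
  rw [ker _ m1, add_zero, mul_inv_cancel_left] at e1
  rw [P004S.mem_kn.1 m2, add_zero, mul_inv_cancel_left] at e2
  have nb := norm_below kd.iq o f hψ
  have lm : (l : 𝓞 K) ∈ below j P := by rw [mem_below, map_natCast]; exact p2
  have lc : ¬ l ∣ c := fun a => nd ((a.mul_left _).mul_left _)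
  have l2 : l ≠ 2 := fun a => nd (a ▸ dvd_mul_right _ _)
  have ar := (h2 K j kd.iq c hc).2.2.2.2.2.2 P p1 (fun a => hl.ne_zero (by simpa [a] using p2))
    (fun a => lc (Int.natCast_dvd_natCast.1 (ov_dvd o (by simpa using a)))) ψ hψ 1
    (by simpa only [nb, pow_one] using f)
  obtain ⟨u, v, uv⟩ := Nat.isCoprime_iff_coprime.2 ((Nat.Prime.coprime_iff_not_dvd hl).2 lc)
  rw [pow_one] at ar
  obtain ⟨β, b, hb, n1, n2⟩ := h _ ψ (cop_of (fun a => hl.ne_zero (by simpa [a] using lm))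
    (Ideal.mul_mem_left _ (u : 𝓞 K) lm) (b := v)
      (by rw [mul_comm (c : 𝓞 K)]; exact_mod_cast congrArg (Int.cast : ℤ → 𝓞 K) uv)) ar
  obtain ⟨x, hx⟩ := q.nm β
  obtain ⟨y, r, hy⟩ := nm_form q kd.sq hθ hx
  rw [nm_eq kd.iq q hx, nb] at n1
  have x0 : 0 ≤ x := by nlinarith [sq_nonneg y, mul_nonneg (Int.natCast_nonneg δ) (sq_nonneg r)]
  have k1 : J(x | d) * J(x | c) = sn (nu (d * c : ℕ) ψ) := by
    rw [← jacobiSym.mul_right' _ d0.ne' hc.ne', ← Int.natAbs_of_nonneg x0, n1, Nat.cast_mul,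
      jacobiSym.mul_left, hb, mul_one, ← jacobiSym.quadratic_reciprocity_one_mod_four
        (by rw [Nat.mul_mod, c4, d4]) (hl.odd_of_ne_two l2)]
    exact (ch_fb o f l2 fun a => nd ((Int.natCast_dvd_natCast.1 a).mul_left _)).symm
  have k2 := mul_ne_zero_iff.1 (k1 ▸ sn_ne _)
  have k3 : J(x | d) = J(y | d) ^ 2 := by
    obtain ⟨w, rfl⟩ := hd
    rw [← jacobiSym.pow_left, ← one_mul J(x | d), ← jacobiSym.at_four (b := d) (Nat.odd_iff.2 (by omega)),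
      ← jacobiSym.mul_left]
    exact jacobiSym.mod_left' (Int.modEq_iff_dvd.2 ⟨-(w * r ^ 2), by rw [hy]; push_cast; ring⟩)
  have k4 : J(x | d) = 1 := by
    rcases jacobiSym.trichotomy y d with a | a | a <;> simp [k3, a] at k2 ⊢
  rw [k4, one_mul, ← n2 x hx (Int.isCoprime_iff_gcd_eq_one.2 (by
    by_contra a
    have := NeZero.of_pos hc
    exact k2.2 (jacobiSym.eq_zero_iff_not_coprime.2 a))), e1, e2] at k1
  exact sn_inj k1

end Xt

open Xt in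
/-- **characters with prescribed ramification** -/
theorem ext' (h1 : RC1) (h2 : RC2) (h3 : RC3) : EXT := by
  intro K _ _ j δ kd m hm
  classical
  obtain ⟨ω, w1, w2⟩ := iq0 j kd.iq
  obtain ⟨s, q⟩ := ex_qd (J := JJ j) (fun a b h => RingOfIntegers.ext
    (j.injective (io_inj h))) w1 w2
  obtain ⟨θ, hθ⟩ : ∃ θ : 𝓞 K, θ ^ 2 = -(δ : 𝓞 K) := by
    obtain ⟨θ, e⟩ := kd.rt
    refine ⟨⟨θ, IsIntegral.of_pow two_pos (e ▸ (isIntegral_natCast δ).neg)⟩, RingOfIntegers.ext ?_⟩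
    exact (map_pow (algebraMap (𝓞 K) K) _ 2).trans (e.trans (by simp))
  obtain ⟨b, b1, hb⟩ := ex_rep K hm
  have bp (x) : 0 < Ideal.absNorm (b x : Ideal (𝓞 K)) :=
    Nat.pos_of_ne_zero (Ideal.absNorm_ne_zero_of_nonZeroDivisors _)
  have tr (x y) : ClassGroup.mk0 (b x * b y * b (x * y)⁻¹) = 1 := by
    rw [map_mul, map_mul, (hb _).1, (hb _).1, (hb _).1, ← mul_inv, ← mul_inv, mul_inv_cancel, inv_one]
  refine ⟨Finset.univ.image fun t : ClassGroup (𝓞 K) × ClassGroup (𝓞 K) =>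
    qu s (gn (b t.1 * b t.2 * b (t.1 * t.2)⁻¹ : (Ideal (𝓞 K))⁰)),
    Finset.univ.image fun x => Ideal.absNorm (b x : Ideal (𝓞 K)), ?_, ?_,
    fun n k p P φ inj hp hF => ?_⟩
  · simp only [Finset.mem_image, Finset.mem_univ, true_and, forall_exists_index,
      forall_apply_eq_imp_iff]
    exact fun x => ⟨bp x, (hb x).2⟩
  · simp only [Finset.mem_image, Finset.mem_univ, true_and, forall_exists_index,
      forall_apply_eq_imp_iff]
    refine fun t => ⟨qu_nm q (gn_ne (tr _ _)), fun v hv => qu_val v fun a => ?_⟩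
    obtain ⟨x, hx⟩ := q.nm (gn (b t.1 * b t.2 * b (t.1 * t.2)⁻¹ : (Ideal (𝓞 K))⁰))
    have e := nm_eq kd.iq q hx
    rw [← gn_sp (tr _ _), Submonoid.coe_mul, Submonoid.coe_mul, map_mul, map_mul] at e
    have a' : (x.natAbs : 𝓞 K) ∈ v.asIdeal := by
      rw [hx] at a
      rcases Int.natAbs_eq x with z | z <;> rw [z] at a <;> simpa using a
    rw [← e, Nat.cast_mul, Nat.cast_mul] at a'
    exact (v.isPrime.mem_or_mem a').elim
      (fun z => (v.isPrime.mem_or_mem z).elim (hv _) (hv _)) (hv _)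
  have md (i) {N : ℕ} (d : N ∣ 2 ^ (n + 3)) (N1 : 1 < N) : p i % N = 1 := by
    rw [← Nat.mod_mod_of_dvd _ d, (hp i).2.2.2.1, Nat.mod_eq_of_lt N1]
  have p4 (i) : p i % 4 = 1 := md i ⟨2 ^ (n + 1), by ring⟩ (by norm_num)
  have mφ (i) : φ i ∈ GK j := (hp i).2.1 (P022D.W.phi_mem (hp i).1.1 (hp i).1.2.1 (hp i).2.2.1)
  obtain ⟨lam, hl, z⟩ := ex_lam q (n := n) fun i => ⟨(hp i).1, mφ i, (hp i).2.2.1,
    md i ⟨2, by ring⟩ (by have := Nat.one_lt_two_pow n.succ_ne_zero; omega)⟩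
  obtain ⟨f, f1, f2, f3⟩ := ex_f kd.upm hl b1 (fun x => (hb x).1) fun x y =>
    z _ (gn_ne (tr x y)) fun w hw => hF w ⟨_, Finset.mem_coe.2 (Finset.mem_image.2
      ⟨(x, y), Finset.mem_univ _, rfl⟩), by rw [← hw, pow_succ' 2 (n + 1)]⟩
  have c4 : (∏ i, p i) % 4 = 1 :=
    Finset.prod_induction _ (· % 4 = 1) (fun a b ha hb => by rw [Nat.mul_mod, ha, hb]) rfl
      fun i _ => p4 i
  obtain ⟨e, add, ker, he⟩ := ex_e (j := j) h2 kd.iq (c := ∏ i, p i) (by omega) f1 fun x a h => by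
    have a0 := mt Ideal.span_singleton_eq_bot.2 h.1
    rw [f2 _ a0, hl.rc x a a0 (q.cop_int h)]
  refine ⟨e, add, ker, fun i P' o => ?_, fun d hd d4 hB => par h1 h2 kd q hθ c4 hd d4 add ker
    fun I g a a' => ?_⟩
  · have l2 : p i ≠ 2 := by have := p4 i; omega
    have e1 := Finset.prod_erase_mul Finset.univ p (Finset.mem_univ i)
    have nd : ¬ (p i : ℤ) ∣ -δ := fun a => by
      obtain ⟨τ, hτ⟩ := P022E.GW.Tg.ex_gn' (hp i).1
      have := P004S.nu_tau (hp i).1 l2 (Int.squarefree_natAbs.1 (by simpa using kd.sq)) a hτ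
      rw [(kd.gk τ).1 ((hp i).2.1 (P022D.W.inP_le_dec hτ.1))] at this
      exact zero_ne_one this
    refine ram h2 h3 kd q hθ o.1 (c := ∏ i' ∈ Finset.univ.erase i, p i')
      (Finset.prod_pos fun i' _ => (hp i').1.1.pos) (fun a => ?_) l2 ?_ add (e1 ▸ ker)
      (e1 ▸ fun β x g b0 e2 cp a => ?_) o
    · obtain ⟨i', a1, a2⟩ := (o.1.prime.dvd_finset_prod_iff _).1 a
      exact Finset.ne_of_mem_erase a1 (inj ((Nat.prime_dvd_prime_iff_eq o.1 (hp i').1.1).1 a2)).symm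
    · rw [← ch_fb (hp i).1 (hp i).2.2.1 l2 nd]
      exact if_pos ((kd.gk _).1 (mφ i))
    · rw [he _ _ (cop_nm b0 e2 cp) a, f2 _ b0, hl.par β x b0 e2 cp]
  · obtain ⟨x, β, b0, e1, e2⟩ := f3 I a.1
    exact ⟨β, _, hB _ (Finset.mem_image.2 ⟨x, Finset.mem_univ _, rfl⟩), by rw [← e1, map_mul],
      fun y e3 cp => by rw [he _ _ a a', e2, hl.par β y b0 e3 cp]⟩

end Vale.Agent.P004R
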