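import Mathlib.NumberTheory.NumberField.Basic
import Mathlib.NumberTheory.LegendreSymbol.JacobiSymbol
import Mathlib.RingTheory.DedekindDomain.AdicValuation
import Mathlib.RingTheory.Trace.Basic
import Mathlib.RingTheory.Norm.Basic

/-!
# P004R: norms from an imaginary quadratic field (tools for the row KI)
-/

set_option autoImplicit false

open NumberField Module IsDedekindDomain
open scoped NumberTheorySymbols

noncomputable section

namespace Vale.Agent.P004R.Ki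

variable {K : Type} [Field K] [NumberField K] {θ : K} {δ : ℕ}

/-- `K = ℚ(θ)`, `θ ^ 2 = -δ` -/
structure Qd (θ : K) (δ : ℕ) : Prop where
  two : finrank ℚ K = 2
  rt : θ ^ 2 = -(δ : K)
  pos : 0 < δ

theorem Qd.co (h : Qd θ δ) : (∀ t : K, ∃ a b : ℚ, t = a + b * θ) ∧ ∀ a b : ℚ,
    Algebra.norm ℚ (a + b * θ) = a ^ 2 + δ * b ^ 2 ∧ Algebra.trace ℚ K (a + b * θ) = 2 * a := by
  have li : LinearIndependent ℚ ![1, θ] := LinearIndependent.pair_iff.2 fun s t e => by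
    rw [Rat.smul_one_eq_cast, Rat.smul_def] at e
    have k : ((s ^ 2 + δ * t ^ 2 : ℚ) : K) = 0 := by
      push_cast
      linear_combination (s - t * θ) * e + t ^ 2 * h.rt
    have k : s ^ 2 + δ * t ^ 2 = 0 := by exact_mod_cast k
    have p : (0 : ℚ) < δ := by exact_mod_cast h.pos
    obtain ⟨k1, k2⟩ := (add_eq_zero_iff_of_nonneg (sq_nonneg s) (by positivity)).1 k
    exact ⟨pow_eq_zero_iff two_ne_zero |>.1 k1,
      pow_eq_zero_iff two_ne_zero |>.1 ((mul_eq_zero.1 k2).resolve_left p.ne')⟩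
  obtain ⟨B, hB⟩ : ∃ B : Basis (Fin 2) ℚ K, ⇑B = ![1, θ] :=
    ⟨_, coe_basisOfLinearIndependentOfCardEqFinrank li (by simp [h.two])⟩
  have b0 : B 0 = 1 := by rw [hB]; rfl
  have b1 : B 1 = θ := by rw [hB]; rfl
  have r : ∀ a b : ℚ, B.repr (a + b * θ) 0 = a ∧ B.repr (a + b * θ) 1 = b := fun a b => by
    rw [show (a : K) + b * θ = a • B 0 + b • B 1 by rw [b0, b1, Rat.smul_one_eq_cast, Rat.smul_def]]
    simp
  refine ⟨fun t => ⟨B.repr t 0, B.repr t 1, ?_⟩, fun a b => ?_⟩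
  · have := B.sum_repr t
    rw [Fin.sum_univ_two, b0, b1, Rat.smul_one_eq_cast, Rat.smul_def] at this
    exact this.symm
  have e : (a + b * θ) * θ = (-δ * b : ℚ) + a * θ := by push_cast; linear_combination b * h.rt
  rw [Algebra.norm_eq_matrix_det B, Algebra.trace_eq_matrix_trace B, Matrix.det_fin_two,
    Matrix.trace_fin_two]
  simp only [Algebra.leftMulMatrix_eq_repr_mul, b0, b1, mul_one, e, r]
  exact ⟨by ring, by ring⟩

theorem Qd.nn (h : Qd θ δ) (t : K) : 0 ≤ Algebra.norm ℚ t := by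
  obtain ⟨a, b, rfl⟩ := h.co.1 t
  rw [(h.co.2 a b).1]
  positivity

theorem Qd.nat (h : Qd θ δ) (x : ℕ) : Algebra.norm ℚ (x : K) = x ^ 2 := by
  simpa using (h.co.2 x 0).1

theorem den_odd {q : ℚ} {m n : ℤ} (e : m * q ^ 2 = n) (h : ¬ 4 ∣ m) : Odd q.den := by
  by_contra c
  obtain ⟨s, hs⟩ := Nat.not_odd_iff_even.1 c
  have k : ((m * q.num ^ 2 : ℤ) : ℚ) = (n * q.den ^ 2 : ℤ) := by
    push_cast
    rw [← e, ← Rat.mul_den_eq_num]
    ring
  have k : m * q.num ^ 2 = n * q.den ^ 2 := by exact_mod_cast k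
  obtain ⟨r, hr⟩ : Odd q.num := Int.natAbs_odd.1 (Nat.coprime_two_right.1
    (q.reduced.coprime_dvd_right ⟨s, by omega⟩))
  rw [hs, hr] at k
  exact h ⟨n * s ^ 2 - m * (r ^ 2 + r), by push_cast at k; linear_combination k⟩

theorem ex_odd {k : K} (h : ∀ v : HeightOneSpectrum (𝓞 K), (2 : 𝓞 K) ∈ v.asIdeal →
    v.valuation K k ≤ 1) : ∃ o : ℕ, Odd o ∧ IsIntegral ℤ (o * k) := by
  obtain ⟨D, s, D0, e⟩ := IsAlgebraic.exists_nsmul_eq (𝓞 K) (x := k)
    ((IsFractionRing.isAlgebraic_iff ℤ ℚ K).2 (Algebra.IsAlgebraic.isAlgebraic k))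
  obtain ⟨i, o, ho, rfl⟩ := Nat.exists_eq_two_pow_mul_odd D0
  obtain ⟨y, hy⟩ := HeightOneSpectrum.mem_integers_of_valuation_le_one (R := 𝓞 K) K (o * k) fun v => by
    by_cases c : (2 : 𝓞 K) ∈ v.asIdeal
    · rw [map_mul]
      exact mul_le_one' (by simpa using v.valuation_le_one (K := K) (o : 𝓞 K)) (h v c)
    · have a := (v.valuation_eq_one_iff_notMem (K := K)).2 c
      have b := v.valuation_le_one (K := K) s
      rw [map_ofNat] at a
      change v.valuation K (algebraMap _ K s) ≤ 1 at b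
      rwa [← e, nsmul_eq_mul, Nat.cast_mul, mul_assoc, map_mul, Nat.cast_pow, map_pow,
        Nat.cast_ofNat, a, one_pow, one_mul] at b
  exact ⟨o, ho, hy ▸ y.isIntegral_coe⟩

/-- the prime two is not ramified -/
theorem Qd.not_two (h : Qd θ δ) (h4 : δ % 4 = 3) {k t : K} {x : ℕ} (hx : Odd x)
    (e : t ^ 2 = 2 * k ∨ t ^ 2 = -2 * k) (hn : Algebra.norm ℚ t = 2 * x)
    (hv : ∀ v : HeightOneSpectrum (𝓞 K), (2 : 𝓞 K) ∈ v.asIdeal → v.valuation K k ≤ 1) : False := by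
  obtain ⟨o, ho, i⟩ := ex_odd hv
  obtain ⟨a, b, rfl⟩ := h.co.1 t
  rw [(h.co.2 a b).1] at hn
  have i2 : IsIntegral ℤ (((o * (a ^ 2 - δ * b ^ 2) / 2 : ℚ) : K) + (o * a * b : ℚ) * θ) := by
    rcases e with e | e
    · convert i using 1
      push_cast
      linear_combination o / 2 * e - o * b ^ 2 / 2 * h.rt
    · convert i.neg using 1
      push_cast
      linear_combination o / 2 * e - o * b ^ 2 / 2 * h.rt
  obtain ⟨n, hn'⟩ := IsIntegrallyClosed.isIntegral_iff.1 (Algebra.isIntegral_trace (L := ℚ) i2)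
  rw [(h.co.2 _ _).2, eq_intCast] at hn'
  obtain ⟨o, rfl⟩ := ho
  obtain ⟨x, rfl⟩ := hx
  obtain ⟨s, hs⟩ := den_odd (q := a) (m := 2 * (2 * o + 1)) (n := n + 2 * (2 * o + 1) * (2 * x + 1))
    (by push_cast at hn hn' ⊢; linear_combination (2 * o + 1) * hn - hn') (by omega)
  have ea := Rat.mul_den_eq_num a
  have eb := Rat.mul_den_eq_num b
  obtain ⟨d, rfl⟩ : ∃ d, δ = 4 * d + 3 := ⟨δ / 4, by omega⟩
  obtain ⟨s', hs'⟩ := den_odd (q := b) (m := (4 * d + 3) * a.den ^ 2)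
    (n := 2 * (2 * x + 1) * a.den ^ 2 - a.num ^ 2)
    (by push_cast at hn ⊢; rw [← ea]; linear_combination (a.den : ℚ) ^ 2 * hn) (by
      rw [hs]
      rintro ⟨c, hc⟩
      push_cast at hc
      have : 4 * (c - (4 * d + 3) * (s ^ 2 + s) - d) = (3 : ℤ) := by linear_combination -hc
      omega)
  have k : ((a.num ^ 2 * b.den ^ 2 + (4 * d + 3) * b.num ^ 2 * a.den ^ 2 : ℤ) : ℚ) =
      (2 * (2 * x + 1) * a.den ^ 2 * b.den ^ 2 : ℤ) := by
    push_cast at hn ⊢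
    rw [← ea, ← eb]
    linear_combination (a.den : ℚ) ^ 2 * b.den ^ 2 * hn
  have k := congrArg (Int.cast : ℤ → ZMod 4) (Int.cast_injective k)
  rw [hs, hs'] at k
  push_cast at k
  generalize (a.num : ZMod 4) = A, (b.num : ZMod 4) = B, (s : ZMod 4) = S, (s' : ZMod 4) = S',
    (d : ZMod 4) = D, (x : ZMod 4) = Y at k
  have f : (4 : ZMod 4) = 0 := rfl
  have k2 : A ^ 2 + 3 * B ^ 2 = 2 := by
    linear_combination k - f * (A ^ 2 * (S' ^ 2 + S') + D * B ^ 2 * (2 * S + 1) ^ 2 +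
      3 * B ^ 2 * (S ^ 2 + S) - Y * (2 * S + 1) ^ 2 * (2 * S' + 1) ^ 2 -
        2 * ((S ^ 2 + S) * (2 * S' + 1) ^ 2 + S' ^ 2 + S'))
  clear k
  revert A B
  decide

theorem desc (hs : Squarefree δ) {d R : ℕ} (hd : d ∣ δ) (hR : R.Coprime d) (s : ℕ) (s0 : s ≠ 0)
    (u v : ℤ) (e : R * s ^ 2 = u ^ 2 + δ * v ^ 2) : J(R | d) = 1 := by
  induction s using Nat.strong_induction_on generalizing u v with | _ s ih => ?_
  by_cases c : s.Coprime d
  · obtain ⟨w, rfl⟩ := hd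
    have g : IsCoprime (R * s ^ 2 : ℤ) d :=
      (Nat.isCoprime_iff_coprime.2 hR).mul_left (Nat.isCoprime_iff_coprime.2 c).pow_left
    rw [e, Nat.cast_mul, mul_assoc, IsCoprime.add_mul_left_left_iff,
      IsCoprime.pow_left_iff two_pos] at g
    rw [← jacobiSym.sq_one' (Int.isCoprime_iff_gcd_eq_one.1 g), ← mul_one J(R | d),
      ← jacobiSym.sq_one' (a := s) (b := d) c, ← jacobiSym.mul_left, e, Nat.cast_mul, mul_assoc]
    exact jacobiSym.mod_left' (Int.add_mul_emod_self_left _ _ _)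
  obtain ⟨p, hp, ⟨s, rfl⟩, h2⟩ := Nat.Prime.not_coprime_iff_dvd.1 c
  obtain ⟨w, rfl⟩ := h2.trans hd
  have pp := Nat.prime_iff_prime_int.1 hp
  have p0 := pp.ne_zero
  push_cast at e
  obtain ⟨u, rfl⟩ : (p : ℤ) ∣ u := pp.dvd_of_dvd_pow (n := 2)
    ⟨R * p * s ^ 2 - w * v ^ 2, by linear_combination -e⟩
  have k : (p : ℤ) ∣ w * v ^ 2 :=
    ⟨R * s ^ 2 - u ^ 2, mul_left_cancel₀ p0 (by linear_combination -e)⟩
  obtain ⟨v, rfl⟩ : (p : ℤ) ∣ v := pp.dvd_of_dvd_pow ((pp.dvd_or_dvd k).resolve_left fun a =>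
    hp.prime.not_isUnit (hs p (mul_dvd_mul_left p (Int.natCast_dvd_natCast.1 a))))
  have s1 : s ≠ 0 := right_ne_zero_of_mul s0
  exact ih s (lt_mul_of_one_lt_left (Nat.pos_of_ne_zero s1) hp.one_lt) s1 u v
    (mul_left_cancel₀ (pow_ne_zero 2 p0) (by push_cast; linear_combination e))

theorem Qd.jac (h : Qd θ δ) (hs : Squarefree δ) {d R : ℕ} (hd : d ∣ δ) (hR : R.Coprime d) {β : K}
    (e : Algebra.norm ℚ β = R) : J(R | d) = 1 := by
  obtain ⟨a, b, rfl⟩ := h.co.1 β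
  rw [(h.co.2 a b).1] at e
  refine desc hs hd hR (a.den * b.den) (mul_ne_zero a.den_nz b.den_nz) (a.num * b.den)
    (b.num * a.den) (Int.cast_injective (α := ℚ) ?_)
  push_cast
  rw [← Rat.mul_den_eq_num a, ← Rat.mul_den_eq_num b, ← e]
  ring

theorem Qd.rp {d₁ d₂ p : ℕ} (h : Qd θ (d₁ * d₂)) (hs : Squarefree (d₁ * d₂)) (h1 : d₁ % 4 = 1)
    (hp : p.Prime) (h2 : p ≠ 2) : ∃ (r : ℕ) (β : K), r.Coprime d₁ ∧ Algebra.norm ℚ β = p * r ∧
      J(r | d₁) = if p ∣ d₁ then J(-d₂ | p) else J(d₁ | p) := by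
  have po := hp.odd_of_ne_two h2
  split_ifs with c
  swap
  · exact ⟨p, p, (Nat.Prime.coprime_iff_not_dvd hp).2 c, by rw [h.nat, sq],
      (jacobiSym.quadratic_reciprocity_one_mod_four h1 po).symm⟩
  obtain ⟨e, rfl⟩ := c
  have c1 : p.Coprime (e * d₂) := Nat.coprime_of_squarefree_mul (mul_assoc p e d₂ ▸ hs)
  have c2 : p.Coprime e := c1.coprime_mul_right_right
  have eo : Odd e := (Nat.odd_mul.1 (Nat.odd_iff.2 (show p * e % 2 = 1 by omega))).2
  refine ⟨p + e * d₂, (p : ℚ) + (1 : ℚ) * θ, ?_, by rw [(h.co.2 _ _).1]; push_cast; ring, ?_⟩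
  · exact Nat.Coprime.mul_right (by simpa using c1.symm) (by simpa using c2)
  have a1 : J((p + e * d₂ : ℕ) | p) = J(e * d₂ | p) := jacobiSym.mod_left' (by simp)
  have a2 : J((p + e * d₂ : ℕ) | e) = J(p | e) := jacobiSym.mod_left' (by simp)
  have a3 : J(e | p) * J(e | p) = 1 := by
    rw [← jacobiSym.mul_left, ← sq]; exact jacobiSym.sq_one' c2.symm
  rw [jacobiSym.mul_right' _ hp.ne_zero eo.pos.ne', a1, a2, jacobiSym.mul_left, jacobiSym.neg _ po]
  rcases Nat.odd_mod_four_iff.1 (Nat.odd_iff.1 po) with k | k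
  · rw [jacobiSym.quadratic_reciprocity_one_mod_four k eo, ZMod.χ₄_nat_one_mod_four k]
    linear_combination J(d₂ | p) * a3
  · have k' : e % 4 = 3 := by
      rcases Nat.odd_mod_four_iff.1 (Nat.odd_iff.1 eo) with l | l
      · rw [Nat.mul_mod, k, l] at h1; omega
      · exact l
    rw [jacobiSym.quadratic_reciprocity_three_mod_four k k', ZMod.χ₄_nat_three_mod_four k]
    linear_combination -J(d₂ | p) * a3

/-- the genus character is trivial on norms -/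
theorem Qd.genus {d₁ d₂ : ℕ} (h : Qd θ (d₁ * d₂)) (hs : Squarefree (d₁ * d₂)) (h1 : d₁ % 4 = 1)
    {ι : Type} [Fintype ι] {p : ι → ℕ} (hp : ∀ i, (p i).Prime ∧ p i ≠ 2) (m : ι → ℕ) {t : K}
    (e : Algebra.norm ℚ t = (∏ i, p i ^ m i : ℕ)) :
    ∏ i, (if p i ∣ d₁ then J(-d₂ | p i) else J(d₁ | p i)) ^ m i = 1 := by
  choose r β a b c using fun i => h.rp hs h1 (hp i).1 (hp i).2
  have x0 : (∏ i, p i ^ m i : ℕ) ≠ 0 :=
    Finset.prod_ne_zero_iff.2 fun i _ => pow_ne_zero _ (hp i).1.ne_zero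
  have k := h.jac hs (dvd_mul_right d₁ d₂) (R := ∏ i, r i ^ m i)
    (Nat.Coprime.prod_left fun i _ => (a i).pow_left _)
    (β := (t * ∏ i, β i ^ m i) * ((∏ i, p i ^ m i : ℕ) : K)⁻¹) (by
      rw [map_mul, map_mul, Algebra.norm_inv, h.nat, e, map_prod,
        mul_inv_eq_iff_eq_mul₀ (pow_ne_zero _ (Nat.cast_ne_zero.2 x0))]
      simp only [map_pow, b, mul_pow, Finset.prod_mul_distrib]
      push_cast
      ring)
  rw [← k, Nat.cast_prod, ← Finset.prod_hom_rel (r := fun (a b : ℤ) => a = J(b | d₁))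
    (f := fun i => J((r i ^ m i : ℕ) | d₁)) (jacobiSym.one_left _).symm
      fun _ _ _ a => by rw [a, jacobiSym.mul_left]]
  simp only [← c, Nat.cast_pow, jacobiSym.pow_left]

end Vale.Agent.P004R.Ki
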