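import Vale.Agent.P004R.St
import Vale.Agent.P004R.Ki0
import Vale.Agent.P004S.Bas

/-!
# P004R: the row KI (independence of the Kummer conditions)
-/

set_option autoImplicit false

open NumberField Module IsDedekindDomain Polynomial
open scoped NumberTheorySymbols

noncomputable section

namespace Vale.Agent.P004R

open Vale.Agent.P022 (Qb GQ GK)
open Vale.Agent.P004S (nu nu_mul nu_eq_zero z2)

namespace Ki

variable {K : Type} [Field K] [CharZero K] {j : K →+* Qb} {n N : ℕ} {ζ : Qb}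

theorem gal : IsGalois ℚ Qb :=
  have : Algebra.IsAlgebraic ℚ Qb := AlgebraicClosure.isAlgebraic ℚ
  have : IsAlgClosure ℚ Qb := ⟨inferInstance, inferInstance⟩
  IsAlgClosure.isGalois ℚ Qb

theorem fixed {y : Qb} (h : ∀ g ∈ GK j, g y = y) : ∃ x, j x = y := by
  have := gal
  have k : y ∈ j.toRatAlgHom.fieldRange := by
    rw [← InfiniteGalois.fixedField_fixingSubgroup j.toRatAlgHom.fieldRange,
      IntermediateField.mem_fixedField_iff]
    exact fun g hg => h g fun x => (IntermediateField.mem_fixingSubgroup_iff _ _).1 hg _ ⟨x, rfl⟩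
  exact k

theorem ex_pow (hζ : IsPrimitiveRoot ζ (2 ^ n)) {u : ℕ} (hu : Odd u) : ∃ g : GQ, g ζ = ζ ^ u := by
  have := gal
  refine minpoly.exists_algEquiv_of_root' (Algebra.IsAlgebraic.isAlgebraic ζ) ?_
  rw [← cyclotomic_eq_minpoly_rat hζ (by positivity), cyclotomic_eq_minpoly_rat
    (hζ.pow_of_coprime u ((Nat.coprime_two_right.2 hu).pow_right n)) (by positivity), minpoly.aeval]

theorem ex_exp (hζ : IsPrimitiveRoot ζ (2 ^ (n + 1))) (g : GQ) : ∃ u, Odd u ∧ g ζ = ζ ^ u := by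
  have h := hζ.map_of_injective g.injective
  obtain ⟨u, -, e⟩ := hζ.eq_pow_of_pow_eq_one h.pow_eq_one
  rw [← e, hζ.pow_iff_coprime (by positivity), Nat.coprime_pow_right_iff n.succ_pos,
    Nat.coprime_two_right] at h
  exact ⟨u, h, e.symm⟩

theorem fix_of [NeZero N] (hζ : IsPrimitiveRoot ζ N) {g : GQ} (h : g ζ = ζ) {y : Qb}
    (hy : y ^ N = 1) : g y = y := by
  obtain ⟨u, -, rfl⟩ := hζ.eq_pow_of_pow_eq_one hy
  rw [map_pow, h]

theorem sq_mod (n : ℕ) {u : ℕ} (hu : u % 8 = 1) :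
    ∃ v : ℕ, Odd v ∧ (2 ^ (n + 3) : ℤ) ∣ v ^ 2 - u := by
  induction n with
  | zero => exact ⟨1, odd_one, by omega⟩
  | succ n ih =>
    obtain ⟨v, ⟨w, rfl⟩, c, hc⟩ := ih
    obtain ⟨c, rfl | rfl⟩ := c.even_or_odd'
    · exact ⟨_, ⟨w, rfl⟩, c, by rw [hc]; ring⟩
    · exact ⟨2 * w + 1 + 2 ^ (n + 2), ⟨w + 2 ^ (n + 1), by ring⟩, c + w + 1 + 2 ^ n, by
        push_cast at hc ⊢; linear_combination hc⟩

theorem same {g c : GQ} {y : Qb} (h : c y = g y) : (c⁻¹ * g) y = y := by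
  rw [AlgEquiv.mul_apply, ← h]; exact c.symm_apply_apply y

theorem same' {g c : GQ} {y : Qb} (h : (c⁻¹ * g) y = y) : g y = c y := by
  conv_rhs => rw [← h, ← AlgEquiv.mul_apply, mul_inv_cancel_left]

/-- the quadratic extensions in the cyclotomic tower -/
theorem quad (hζ : IsPrimitiveRoot ζ (2 ^ (n + 3))) (sj : ∀ u, Odd u → ∃ g ∈ GK j, g ζ = ζ ^ u)
    {k : K} {s : Qb} (hs : s ^ 2 = j k) (hf : ∀ g ∈ GK j, g ζ = ζ → g s = s) :
    ∃ t : K, (t ^ 2 = k ∨ t ^ 2 = -k) ∨ t ^ 2 = 2 * k ∨ t ^ 2 = -2 * k := by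
  obtain ⟨η, hη⟩ : ∃ η, η = ζ ^ 2 ^ n := ⟨_, rfl⟩
  have p8 : IsPrimitiveRoot η (2 ^ (2 + 1)) := hη ▸ hζ.pow (by positivity) (pow_add 2 n 3)
  have e4 : η ^ 4 = -1 := (p8.pow (b := 2) (by norm_num) (by norm_num)).eq_neg_one_of_two_right
  have ac : ∀ (g : GQ) u, g ζ = ζ ^ u → g η = η ^ u := fun g u h => by
    rw [hη, map_pow, h, pow_right_comm]
  have pm : ∀ g ∈ GK j, g s = s ∨ g s = -s := fun g hg =>
    sq_eq_sq_iff_eq_or_eq_neg.1 (by rw [← map_pow, hs, hg])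
  have f8 : ∀ g ∈ GK j, g η = η → g s = s := fun g hg h => by
    obtain ⟨u, u1, u2⟩ := ex_exp hζ g
    obtain ⟨w, rfl⟩ := u1
    have a := ac g _ u2
    rw [h, pow_succ, eq_comm, mul_eq_right₀ (p8.ne_zero (by norm_num)), p8.pow_eq_one_iff_dvd] at a
    obtain ⟨v, v1, v2⟩ := sq_mod n (u := 2 * w + 1) (by omega)
    obtain ⟨c, c1, c2⟩ := sj v v1
    rw [same' (hf _ (mul_mem (inv_mem (mul_mem c1 c1)) hg) (same (by
      rw [AlgEquiv.mul_apply, c2, map_pow, c2, u2, ← pow_mul, ← pow_two]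
      exact pow_eq_pow_of_modEq (Nat.modEq_iff_dvd.2 (by push_cast at v2 ⊢; exact v2)).symm
        hζ.pow_eq_one))), AlgEquiv.mul_apply]
    rcases pm c c1 with e | e <;> simp [e]
  obtain ⟨a, a1, a2⟩ := sj 7 (by decide)
  obtain ⟨b, b1, b2⟩ := sj 5 (by decide)
  replace a2 := ac _ _ a2
  replace b2 := ac _ _ b2
  have key : ∀ (ρ : Qb) (ε : K), ρ ^ 2 = j ε → (∀ g : GQ, g η = η → g ρ = ρ) →
      a s * a ρ = s * ρ → b s * b ρ = s * ρ → ∃ t : K, t ^ 2 = ε * k := fun ρ ε h0 h1 h2 h3 => by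
    rw [← map_mul] at h2 h3
    obtain ⟨t, ht⟩ := fixed (j := j) (y := s * ρ) fun g hg => by
      have l : ∀ c ∈ GK j, c η = g η → c (s * ρ) = s * ρ → g (s * ρ) = s * ρ := fun c c1 c2 c3 => by
        refine (same' (c := c) ?_).trans c3
        rw [map_mul, f8 _ (mul_mem (inv_mem c1) hg) (same c2), h1 _ (same c2)]
      obtain ⟨u, u1, u2⟩ := ex_exp p8 g
      rw [pow_eq_pow_mod u p8.pow_eq_one] at u2
      have : u % 2 ^ (2 + 1) = 1 ∨ u % 2 ^ (2 + 1) = 3 ∨ u % 2 ^ (2 + 1) = 5 ∨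
          u % 2 ^ (2 + 1) = 7 := by have := Nat.odd_iff.1 u1; omega
      rcases this with e | e | e | e <;> rw [e] at u2
      · exact l 1 (one_mem _) (by rw [u2, pow_one]; rfl) rfl
      · exact l (a * b) (mul_mem a1 b1) (by
          rw [AlgEquiv.mul_apply, b2, map_pow, a2, u2, ← pow_mul]
          exact pow_eq_pow_mod _ p8.pow_eq_one) (by rw [AlgEquiv.mul_apply, h3, h2])
      · exact l b b1 (b2.trans u2.symm) h3
      · exact l a a1 (a2.trans u2.symm) h2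
    exact ⟨t, j.injective (by rw [map_pow, ht, mul_pow, hs, h0, map_mul, mul_comm])⟩
  have q1 : η ^ 7 = -η ^ 3 := by linear_combination η ^ 3 * e4
  have q2 : η ^ 5 = -η := by linear_combination η * e4
  rw [q1] at a2
  rw [q2] at b2
  rcases pm a a1 with x | x <;> rcases pm b b1 with y | y
  · exact (key 1 1 (by simp) (by simp) (by simp [x]) (by simp [y])).imp fun t h =>
      .inl (.inl (by rw [h, one_mul]))
  · exact (key (η - η ^ 3) 2 (by rw [map_ofNat]; linear_combination (η ^ 2 - 2) * e4)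
      (fun g h => by simp [h]) (by
        simp only [x, map_sub, map_pow, a2]; linear_combination s * (η ^ 5 - η) * e4)
      (by simp only [y, map_sub, map_pow, b2]; ring)).imp fun t h => .inr (.inl h)
  · exact (key (η ^ 2) (-1) (by rw [map_neg, map_one, ← e4]; ring) (fun g h => by simp [h])
      (by simp only [x, map_pow, a2]; linear_combination -s * η ^ 2 * e4)
      (by simp only [y, map_pow, b2]; ring)).imp fun t h => .inl (.inr (by rw [h, neg_one_mul]))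
  · exact (key (η + η ^ 3) (-2) (by rw [map_neg, map_ofNat]; linear_combination (η ^ 2 + 2) * e4)
      (fun g h => by simp [h]) (by
        simp only [x, map_add, map_pow, a2]; linear_combination s * (η ^ 5 - η) * e4)
      (by simp only [y, map_add, map_pow, b2]; ring)).imp fun t h => .inr (.inr h)

/-- the lemma of Sah -/
theorem sah (hζ : IsPrimitiveRoot ζ (2 ^ (n + 3))) (sj : ∀ u, Odd u → ∃ g ∈ GK j, g ζ = ζ ^ u)
    {w : Qb} {z : K} (w0 : w ≠ 0) (hw : w ^ 2 ^ (n + 2) = j z)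
    (hf : ∀ g ∈ GK j, g ζ = ζ → g w = w) : ∃ k t : K, k ^ 2 ^ (n + 2) = z ^ 2 ∧
      ((t ^ 2 = k ∨ t ^ 2 = -k) ∨ t ^ 2 = 2 * k ∨ t ^ 2 = -2 * k) := by
  have p : 1 ≤ 2 ^ (n + 3) := Nat.one_le_two_pow
  obtain ⟨γ, g1, g2⟩ := sj (2 ^ (n + 3) - 1) (Nat.Even.sub_odd p
    (Nat.even_pow.2 ⟨even_two, by omega⟩) odd_one)
  have c1 : ∀ g ∈ GK j, (g w / w) ^ 2 ^ (n + 2) = 1 := fun g hg => by
    rw [div_pow, ← map_pow, hw, hg, ← hw, div_self (pow_ne_zero _ w0)]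
  obtain ⟨k, hk⟩ := fixed (j := j) (y := w * γ w) fun g hg => by
    obtain ⟨u, -, u2⟩ := ex_exp hζ g
    have a := same' (hf _ (mul_mem (inv_mem (mul_mem g1 hg)) (mul_mem hg g1)) (same (by
      rw [AlgEquiv.mul_apply, AlgEquiv.mul_apply, u2, g2, map_pow, map_pow, u2, g2,
        pow_right_comm])))
    obtain ⟨i, -, e⟩ := hζ.eq_pow_of_pow_eq_one (ξ := g w / w) (by
      rw [pow_succ, pow_mul, c1 g hg, one_pow])
    rw [eq_div_iff w0] at e
    rw [map_mul, ← AlgEquiv.mul_apply g γ, a, AlgEquiv.mul_apply, ← e, map_mul, map_pow, g2,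
      mul_mul_mul_comm, ← mul_pow, ← pow_succ', Nat.sub_add_cancel p, hζ.pow_eq_one, one_pow, one_mul]
  obtain ⟨y, hy⟩ := IsAlgClosed.exists_pow_nat_eq (γ w / w) two_pos
  obtain ⟨t, ht⟩ := quad hζ sj (k := k) (s := w * y) (by rw [hk, mul_pow, hy]; field_simp)
    fun g hg h => by
      rw [map_mul, hf g hg h, fix_of hζ h (by rw [pow_succ', pow_mul, hy, c1 γ g1])]
  exact ⟨k, t, j.injective (by
    rw [map_pow, hk, mul_pow, ← map_pow, hw, g1, map_pow, pow_two]), ht⟩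

/-- duality for a family of roots -/
theorem dual [NeZero N] {ι : Type} [Fintype ι] (G : Subgroup GQ)
    (hG : ∀ g ∈ G, ∀ y : Qb, y ^ N = 1 → g y = y) (r b : ι → Qb) (r0 : ∀ i, r i ≠ 0)
    (hr : ∀ g ∈ G, ∀ i, g (r i ^ N) = r i ^ N) (hb : ∀ i, b i ^ N = 1) :
    (∃ g ∈ G, ∀ i, g (r i) = b i * r i) ∨ ∃ m : ι → ℕ,
      (∀ g ∈ G, g (∏ i, r i ^ m i) = ∏ i, r i ^ m i) ∧ ∏ i, b i ^ m i ≠ 1 := by
  classical
  have f : ∀ g ∈ G, ∀ u : rootsOfUnity N Qb, g (u : Qbˣ) = (u : Qbˣ) := fun g hg u =>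
    hG g hg _ ((mem_rootsOfUnity' _ _).1 u.2)
  let H : Subgroup (ι → rootsOfUnity N Qb) :=
    { carrier := {u | ∃ g ∈ G, ∀ i, g (r i) = (u i : Qbˣ) * r i}
      mul_mem' := fun {u v} ⟨g, g1, g2⟩ ⟨h, h1, h2⟩ => ⟨g * h, mul_mem g1 h1, fun i => by
        rw [AlgEquiv.mul_apply, h2, map_mul, g2, f g g1, Pi.mul_apply, Subgroup.coe_mul,
          Units.val_mul, mul_left_comm, mul_assoc]⟩
      one_mem' := ⟨1, one_mem _, fun i => by simp⟩
      inv_mem' := fun {u} ⟨g, g1, g2⟩ => ⟨g⁻¹, inv_mem g1, fun i => g.injective (by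
        rw [← AlgEquiv.mul_apply, mul_inv_cancel, map_mul, f g g1, g2]
        simp)⟩ }
  by_cases c : (fun i => rootsOfUnity.mkOfPowEq (b i) (hb i)) ∈ H
  · exact .inl c
  obtain ⟨φ, hφ⟩ := CommGroup.exists_apply_ne_one_of_hasEnoughRootsOfUnity
    ((ι → rootsOfUnity N Qb) ⧸ H) Qb (mt (QuotientGroup.eq_one_iff _).1 c)
  obtain ⟨ξ, hξ⟩ := HasEnoughRootsOfUnity.exists_primitiveRoot Qb N
  have k : ∀ ψ : rootsOfUnity N Qb →* Qbˣ, ∃ m : ℕ, ∀ u, (ψ u : Qb) = ((u : Qbˣ) : Qb) ^ m :=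
    fun ψ => by
      have x : rootsOfUnity.mkOfPowEq ξ hξ.pow_eq_one ^ N = 1 :=
        Subtype.ext (Units.ext hξ.pow_eq_one)
      obtain ⟨m, -, e⟩ := hξ.eq_pow_of_pow_eq_one
        (ξ := (ψ (rootsOfUnity.mkOfPowEq ξ hξ.pow_eq_one)).val) (by
          rw [← Units.val_pow_eq_pow_val, ← map_pow, x, map_one, Units.val_one])
      refine ⟨m, fun u => ?_⟩
      obtain ⟨i, -, e'⟩ := hξ.eq_pow_of_pow_eq_one ((mem_rootsOfUnity' _ _).1 u.2)
      rw [← e', pow_right_comm, e, ← Units.val_pow_eq_pow_val, ← map_pow]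
      exact congrArg (fun v => (ψ v : Qb)) (Subtype.ext (Units.ext e'.symm))
  choose m hm using fun i => k ((φ.comp (QuotientGroup.mk' H)).comp
    (MonoidHom.mulSingle (fun _ => rootsOfUnity N Qb) i))
  have e : ∀ u : ι → rootsOfUnity N Qb, (φ u : Qb) = ∏ i, ((u i : Qbˣ) : Qb) ^ m i := fun u => by
    have l := congrArg (φ.comp (QuotientGroup.mk' H)) (Finset.univ_prod_mulSingle u)
    rw [map_prod] at l
    exact (congrArg Units.val l).symm.trans
      ((Units.coe_prod _ _).trans (Finset.prod_congr rfl fun i _ => hm i _))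
  refine .inr ⟨m, fun g hg => ?_, fun a => hφ (Units.ext ((e _).trans a))⟩
  have a : ∀ i, (g (r i) / r i) ^ N = 1 := fun i => by
    rw [div_pow, ← map_pow, hr g hg, div_self (pow_ne_zero _ (r0 i))]
  have l := e fun i => rootsOfUnity.mkOfPowEq _ (a i)
  have mH : (fun i => rootsOfUnity.mkOfPowEq _ (a i)) ∈ H :=
    ⟨g, hg, fun i => (div_mul_cancel₀ _ (r0 i)).symm⟩
  rw [(QuotientGroup.eq_one_iff _).2 mH, map_one] at l
  simp only [rootsOfUnity.val_mkOfPowEq_coe, div_pow, Finset.prod_div_distrib, Units.val_one] at l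
  rw [eq_div_iff (Finset.prod_ne_zero_iff.2 fun i _ => pow_ne_zero _ (r0 i)), one_mul] at l
  simpa only [map_prod, map_pow] using l.symm

theorem surj {K : Type} [Field K] [NumberField K] {j : K →+* Qb} {δ : ℕ} (h : Kd j δ)
    (hζ : IsPrimitiveRoot ζ (2 ^ (n + 3))) (u : ℕ) (hu : Odd u) : ∃ g ∈ GK j, g ζ = ζ ^ u := by
  have m := h.m8
  obtain ⟨τ, t1, t2⟩ : ∃ τ : GQ, τ ζ = ζ ∧ τ ∉ GK j := by
    by_contra! c
    obtain ⟨θ, hθ⟩ := h.rt
    obtain ⟨t, ht⟩ := quad (j := algebraMap ℚ Qb) hζ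
      (fun u hu => (ex_pow hζ hu).imp fun g e => ⟨g.commutes, e⟩) (k := -δ) (s := j θ)
      (by rw [← map_pow, hθ]; simp) fun g _ e => c g e θ
    have p : (0 : ℚ) < δ := by exact_mod_cast (show 0 < δ by omega)
    have q : ∀ x : ℕ, t ^ 2 = x → x % 4 = 0 ∨ x % 4 = 1 := fun x e => by
      obtain ⟨y, rfl⟩ := Rat.isSquare_natCast_iff.1 ⟨t, by rw [← e, pow_two]⟩
      rw [Nat.mul_mod]
      have : y % 4 < 4 := Nat.mod_lt _ four_pos
      interval_cases y % 4 <;> simp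
    rcases ht with (e | e) | e | e
    · nlinarith [sq_nonneg t]
    · have := q δ (by rw [e, neg_neg]); omega
    · nlinarith [sq_nonneg t]
    · have := q (2 * δ) (by rw [e]; push_cast; ring); omega
  obtain ⟨g, hg⟩ := ex_pow hζ hu
  by_cases c : g ∈ GK j
  · exact ⟨g, c, hg⟩
  refine ⟨g * τ, (h.gk _).2 ?_, by rw [AlgEquiv.mul_apply, t1, hg]⟩
  rw [nu_mul, (z2 _).resolve_left (mt (h.gk _).2 c), (z2 _).resolve_left (mt (h.gk _).2 t2)]
  rfl

end Ki

open Ki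

/-- **KI** -/
theorem ki : KI := fun K _ _ j d₁ d₂ h h1 A hA X hX n => by
  obtain ⟨θ, hθ⟩ := h.rt
  have m8 := h.m8
  have Q : Qd θ (d₁ * d₂) := ⟨h.iq.two, hθ, by omega⟩
  obtain ⟨ζ, hζ⟩ := HasEnoughRootsOfUnity.exists_primitiveRoot Qb (2 ^ (n + 3))
  choose ra hra using fun a : A => IsAlgClosed.exists_pow_nat_eq (j a) (n := 2 ^ (n + 2)) (by positivity)
  choose rx hrx using fun x : X => P004S.ex_sqrt (x : ℕ)
  have a0 : ∀ a : A, ra a ≠ 0 := fun a e => by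
    have k := hra a
    rw [e, zero_pow (by positivity), eq_comm, map_eq_zero] at k
    simpa [k] using (hA a a.2).1
  have x0 : ∀ x : X, rx x ≠ 0 := fun x e => (hX x x.2).1.ne_zero (by
    have k := hrx x
    rw [e, zero_pow two_ne_zero] at k
    exact_mod_cast k.symm)
  have ex : ∀ x : X, rx x ^ 2 ^ (n + 2) = j ((x : ℕ) ^ 2 ^ (n + 1)) := fun x => by
    rw [pow_succ', pow_mul, hrx]; simp
  have pm : ∀ x ∈ X, gs d₁ d₂ x = 1 ∨ gs d₁ d₂ x = -1 := fun x hx => by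
    obtain ⟨r, -, c, -, e⟩ := Q.rp h.sq h1 (hX x hx).1 (hX x hx).2
    exact (show _ = gs d₁ d₂ x from e) ▸ jacobiSym.eq_one_or_neg_one c
  have f2 : ∀ g : GQ, g ζ = ζ → ∀ y : Qb, y ^ 2 ^ (n + 2) = 1 → g y = y := fun g e y hy =>
    fix_of hζ e (by rw [pow_succ, pow_mul, hy, one_pow])
  have r0 : ∀ i, Sum.elim ra rx i ≠ 0 := Sum.forall.2 ⟨a0, x0⟩
  rcases dual (N := 2 ^ (n + 2)) (GK j ⊓ MulAction.stabilizer GQ ζ) (fun g hg => f2 g hg.2)
    (Sum.elim ra rx) (Sum.elim 1 fun x => gs d₁ d₂ x) r0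
    (fun g hg => Sum.forall.2 ⟨fun a => by rw [Sum.elim_inl, hra, hg.1],
      fun x => by rw [Sum.elim_inr, ex, hg.1]⟩)
    (Sum.forall.2 ⟨fun a => one_pow _, fun x => by
      rcases pm x x.2 with e | e <;> simp [e, pow_succ', pow_mul]⟩) with ⟨g, g1, g2⟩ | ⟨m, m1, m2⟩
  · refine ⟨g, g1.1, fun y hy => fix_of hζ g1.2 hy, ?_, fun x hx => ?_⟩
    · rintro y ⟨a, ha, e⟩
      have k : g (ra ⟨a, ha⟩) = ra ⟨a, ha⟩ := (g2 (.inl _)).trans (one_mul _)
      rw [← div_mul_cancel₀ y (a0 ⟨a, ha⟩), map_mul, k, f2 g g1.2 _ (by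
        rw [div_pow, ← e, ← hra ⟨a, ha⟩, div_self (pow_ne_zero _ (a0 _))])]
    · rw [nu_eq_zero (hrx ⟨x, hx⟩), show g (rx ⟨x, hx⟩) = _ from g2 (.inr _), Sum.elim_inr,
        Sum.elim_inr, mul_eq_right₀ (x0 _), Int.cast_eq_one]
  exfalso
  obtain ⟨x, hx⟩ : ∃ x : ℕ, x = ∏ p : X, (p : ℕ) ^ m (.inr p) := ⟨_, rfl⟩
  obtain ⟨y, hy⟩ : ∃ y : K, y = ∏ a : A, (a : K) ^ m (.inl a) := ⟨_, rfl⟩
  obtain ⟨k, t, k1, k2⟩ := sah hζ (surj h hζ) (z := y * x ^ 2 ^ (n + 1))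
    (Finset.prod_ne_zero_iff.2 fun i _ => pow_ne_zero (m i) (r0 i)) (by
      rw [← Finset.prod_pow, Fintype.prod_sum_type, hx, hy]
      simp only [Sum.elim_inl, Sum.elim_inr, pow_right_comm _ (m _), hra, ex, map_mul, map_prod,
        map_pow, Nat.cast_prod, Nat.cast_pow, ← Finset.prod_pow]) fun g hg e => m1 g ⟨hg, e⟩
  rw [mul_pow, ← pow_mul, ← pow_succ] at k1
  have ny : Algebra.norm ℚ y = 1 := by
    rw [hy, map_prod]
    exact Finset.prod_eq_one fun a _ => by rw [map_pow, (hA a a.2).1, one_pow]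
  have nk : Algebra.norm ℚ k = x ^ 2 := (pow_left_inj₀ (Q.nn k) (sq_nonneg _)
    (pow_ne_zero (n + 2) two_ne_zero)).1 (by
      rw [← map_pow, k1, map_mul, map_pow, map_pow, ny, Q.nat, one_pow, one_mul])
  have n1 : ∀ c : ℕ, t ^ 2 = c * k ∨ t ^ 2 = -c * k → Algebra.norm ℚ t = c * x := fun c e =>
    (pow_left_inj₀ (Q.nn t) (by positivity) two_ne_zero).1 (by
      have l : Algebra.norm ℚ (-c : K) = c ^ 2 := by simpa using (Q.co.2 (-c) 0).1
      rcases e with e | e <;> rw [← map_pow, e, map_mul, nk, mul_pow]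
      exacts [by rw [Q.nat], by rw [l]])
  rcases k2 with e | e
  · have k := Q.genus h.sq h1 (p := fun p : X => p) (fun p => hX p p.2) (fun p => m (.inr p))
      (t := t) (by rw [← hx]; simpa using n1 1 (by simpa using e))
    refine m2 ?_
    rw [Fintype.prod_sum_type]
    simp only [Sum.elim_inl, Sum.elim_inr, Pi.one_apply, one_pow, Finset.prod_const_one, one_mul, gs]
    exact_mod_cast congrArg (Int.cast : ℤ → Qb) k
  refine Q.not_two (by omega) (x := x) ?_ e (n1 2 e) fun v hv => ?_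
  · rw [hx]
    exact Finset.prod_induction _ Odd (fun _ _ => Odd.mul) odd_one fun p _ =>
      ((hX p p.2).1.odd_of_ne_two (hX p p.2).2).pow
  · have vy : v.valuation K y = 1 := by
      rw [hy, map_prod]
      exact Finset.prod_eq_one fun a _ => by rw [map_pow, (hA a a.2).2 v hv, one_pow]
    rw [← pow_le_one_iff (pow_ne_zero (n + 2) two_ne_zero), ← map_pow, k1, map_mul, map_pow,
      map_pow, vy, one_pow, one_mul]
    exact pow_le_one' (by simpa using v.valuation_le_one (K := K) (x : 𝓞 K)) _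

end Vale.Agent.P004R
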