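import Vale.Agent.P004R.St0
import Vale.Agent.P004K.St2
import Vale.Agent.P004T.St
import Vale.Agent.P004F.Pr.Defs
import Vale.Agent.P027M.S.Defs

/-!
# P004R (the anchor for a rational point of order two): Galois rows
-/

set_option autoImplicit false

open UpperHalfPlane NumberField Filter Topology Module Polynomial IsDedekindDomain
open scoped Real NumberTheorySymbols Pointwise

noncomputable section

namespace Vale.Agent.P004R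

open Vale.Agent.P022 (Qb GQ GK below IsConj IsFrob)
open P027H P027M.M P004K
open Vale.Agent.P027M.S (Inert LI)
open Vale.Agent.P022D.W (dec)
open Vale.Agent.P022E.GW (Ov Fb)
open Vale.Agent.P022K.G2 (Tv)
open Vale.Agent.P004S (nu UnS)

section layer

variable {K : Type} [Field K] [NumberField K] (j : K →+* Qb) (c M : ℕ) (e : GQ → ZMod (2 * M))

/-- a cyclic layer of degree `2 M` in the ring class field of conductor `c`, totally ramified at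
the primes of `c`, which split in `K` -/
structure Ly : Prop where
  iq : Iq K
  upm : Upm K
  pow : ∃ m, M = 2 ^ (m + 1)
  sq : Squarefree c
  two : ∃ q q' : ℕ, q.Prime ∧ q'.Prime ∧ q ≠ q' ∧ q * q' ∣ c
  add : ∀ g ∈ GK j, ∀ h ∈ GK j, e (g * h) = e g + e h
  ker : ∀ g ∈ Hc j c, e g = 0
  ram : ∀ q P, Ov q P → q ∣ c → q ≠ 2 ∧ dec P ≤ GK j ∧ ∃ t, Inert P t ∧ e t = 1

/-- the fields of the layer; `φ` induces `σ` -/
structure Fl (F : Type) {H : Type} [Field F] [Field H] [Algebra F H] [Algebra ℚ H] (jH : H →+* Qb)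
    (φ : GQ) (σ : H ≃ₐ[ℚ] H) : Prop where
  gH : ∀ g, g ∈ GK jH ↔ g ∈ GK j ∧ e g = 0
  gF : ∀ g, g ∈ GK (jH.comp (algebraMap F H)) ↔ g ∈ GK j ∧ 2 * e g = 0
  mem : φ ∈ GK j
  gen : IsUnit (e φ)
  act : ∀ x, jH (σ x) = φ (jH x)

open Classical in
/-- the characters of ideals -/
def th (k : ℕ) (I : Ideal (𝓞 K)) : ℂ :=
  if h : Cop c I ∧ ∃ g, Ar j c I g then ze (2 * M) (k * (e h.2.choose).val) else 0

/-- `s = 2 ^ 12 Δ(O_c) / Δ(𝔭⁻¹ O_c)`, `𝔭` the prime below `P`, `φ` a Frobenius element at `P` -/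
structure Us (P : Ideal (𝓞 Qb)) (φ : GQ) (s : 𝓞 Qb) : Prop where
  fix : ∀ g ∈ Hc j c, g • s = s
  unit : ∀ g ∈ GK j, g • s ∉ P ∧ Associated (g • s) s
  e1 : jc j c * (s : Qb) ^ 2 = ((s : Qb) + 256) ^ 3
  e2 : φ (jc j c) * (s : Qb) = ((s : Qb) + 16) ^ 3
  lg : ∀ g ∈ GK j, ∀ τ τ' : ℍ, jL (lat τ) = io (g (jc j c)) → jL (lat τ') = io ((g * φ) (jc j c)) →
    Real.log ‖io (g (s : Qb))‖ = Gl τ - Gl τ' + 6 * Real.log 2

/-- `K = ℚ(√-δ)` -/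
structure Kd (δ : ℕ) : Prop where
  iq : Iq K
  upm : Upm K
  sq : Squarefree δ
  m8 : δ % 8 = 7
  rt : ∃ θ : K, θ ^ 2 = -(δ : K)
  gk : ∀ g, g ∈ GK j ↔ nu (-(δ : ℤ)) g = 0

end layer

/-! ### the class number formula -/

/-- the fields and their primes -/
def FLD : Prop := ∀ (K : Type) [Field K] [NumberField K] (j : K →+* Qb) (c M : ℕ)
  (e : GQ → ZMod (2 * M)), Ly j c M e → ∀ φ ∈ GK j, IsUnit (e φ) →
  ∃ (F H : Type) (_ : Field F) (_ : NumberField F) (_ : Field H) (_ : NumberField H)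
    (_ : Algebra F H) (jH : H →+* Qb) (σ : H ≃ₐ[ℚ] H), Fl j M e F jH φ σ ∧ Cp F σ M ∧
    ∀ l P ψ, Ov l P → ¬ l ∣ c → dec P ≤ GK j → Fb l P ψ → IsUnit (e ψ) → ∀ γ ∉ GK j,
      Ip σ M l (below (jH.comp (algebraMap F H)) P) (below (jH.comp (algebraMap F H)) (γ • P)) ∧
      up H (below (jH.comp (algebraMap F H)) P) = below jH P ∧
      up H (below (jH.comp (algebraMap F H)) (γ • P)) = below jH (γ • P) ∧
      ¬ (l : ℤ) ∣ discr K ∧ ¬ (l : ℤ) ∣ discr F ∧ ¬ (l : ℤ) ∣ discr H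

/-- the factorisation of the zeta functions -/
def LFA : Prop := ∀ (K : Type) [Field K] [NumberField K] (j : K →+* Qb) (c M : ℕ)
  (e : GQ → ZMod (2 * M)), Ly j c M e → ∀ (F H : Type) [Field F] [NumberField F] [Field H]
  [NumberField H] [Algebra F H] (jH : H →+* Qb) (φ : GQ) (σ : H ≃ₐ[ℚ] H), Fl j M e F jH φ σ →
  ∀ s : ℝ, 1 < s → dedekindZeta H s =
    dedekindZeta F s * ∏ k ∈ Finset.range M, LI (th j c M e (2 * k + 1)) s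

/-- the series of a primitive character is a sum of Epstein zeta functions -/
def LFB : Prop := ∀ (K : Type) [Field K] [NumberField K] (j : K →+* Qb) (c M : ℕ)
  (e : GQ → ZMod (2 * M)), Ly j c M e → ∀ R, Tv (GK j) (Hc j c) R → ∀ τ : GQ → ℍ,
  (∀ g ∈ R, jL (lat (τ g)) = io (g (jc j c))) → ∀ k, Odd k → ∀ s : ℝ, 1 < s →
  LI (th j c M e k) s = 1 / 2 * ((c * √|(discr K : ℝ)| / 2) ^ (-s) : ℝ) *
    ∑ g ∈ R, ze (2 * M) (k * (e g).val) * Ze (τ g) s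

/-- the elliptic unit -/
def UNI : Prop := ∀ (K : Type) [Field K] [NumberField K] (j : K →+* Qb) (c : ℕ), Iq K → Odd c →
  ∀ P φ, Ov 2 P → dec P ≤ GK j → Fb 2 P φ → ∃ s, Us j c P φ s

open Classical in
/-- **the index formula** -/
def CNF : Prop := ∀ (K : Type) [Field K] [NumberField K] (j : K →+* Qb) (c M : ℕ)
  (e : GQ → ZMod (2 * M)), Ly j c M e → ∀ (F H : Type) [Field F] [NumberField F] [Field H]
  [NumberField H] [Algebra F H] (jH : H →+* Qb) (φ : GQ) (σ : H ≃ₐ[ℚ] H), Fl j M e F jH φ σ →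
  Cp F σ M → Odd (discr K) → Odd (discr F) → Odd (discr H) → ∀ P s, Us j c P φ s →
  ∀ R, Tv (GK j) (Hc j c) R → ∀ u : (𝓞 H)ˣ,
  jH (u : 𝓞 H) * ∏ g ∈ R with e g = 0, g (s : Qb) = φ (∏ g ∈ R with e g = 0, g (s : Qb)) →
  (CU F σ u).index ≠ 0 ∧ padicValNat 2 ((CU F σ u).index * classNumber F) =
    padicValNat 2 (classNumber H) + 3 * M + 1

/-! ### the tower -/

/-- `g` fixes the roots of order `n` of the elements of `A` -/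
def Fx (A : Set Qb) (n : ℕ) (g : GQ) : Prop := ∀ y : Qb, y ^ n ∈ A → g y = y

/-- the local conditions at the primes of `c` -/
def Lq (D : ℤ) (c x : ℕ) : Prop := ∀ q : ℕ, q.Prime → q ∣ c →
  (¬ q ∣ x → J(x | q) = 1) ∧ (q ∣ x → J((x / q : ℕ) * (D / q) | q) = 1)

/-- the two kernels are as small as possible -/
structure Rd (d₁ d₂ c : ℕ) : Prop where
  r1 : ∀ x : ℕ, x ∣ d₂ * c → x % 4 = 1 → (∀ a : ℕ, a.Prime → a ∣ d₁ → J(x | a) = 1) →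
    Lq (d₁ * c) c x → x = 1
  r2 : ∀ x : ℕ, x ∣ 2 * d₁ * c → (∀ b : ℕ, b.Prime → b ∣ d₂ → J(x | b) = 1) →
    Lq (-(d₂ * c)) c x → x = 1 ∨ x = d₁ * c

/-- the shape of the conductor -/
structure Sh (S : Finset ℕ) (d₁ d₂ c : ℕ) : Prop where
  sq : Squarefree (d₁ * d₂ * c)
  m1 : d₁ % 8 = 5
  m2 : d₂ % 8 = 3
  c8 : ∀ q : ℕ, q.Prime → q ∣ c → q % 8 = 1
  two : 2 ∈ S
  inS : ∀ p ∈ S, p.Prime ∧ (p ≠ 2 → J(d₁ * c | p) = -1 ∧ J(-(d₁ * d₂) | p) = 1)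
  rd : Rd d₁ d₂ c

/-- the genus character on primes -/
def gs (d₁ d₂ x : ℕ) : ℤ := if x ∣ d₁ then J(-d₂ | x) else J(d₁ | x)

/-- characters of the ring class group with prescribed ramification -/
def EXT : Prop := ∀ (K : Type) [Field K] [NumberField K] (j : K →+* Qb) (δ : ℕ), Kd j δ →
  ∀ m : ℕ, 0 < m → ∃ (A : Finset K) (B : Finset ℕ), (∀ b ∈ B, 0 < b ∧ b.Coprime m) ∧
    (∀ a ∈ A, Algebra.norm ℚ a = 1 ∧ ∀ v : HeightOneSpectrum (𝓞 K),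
      (∀ b ∈ B, (b : 𝓞 K) ∉ v.asIdeal) → v.valuation K a = 1) ∧
    ∀ (n k : ℕ) (q : Fin k → ℕ) (P : Fin k → Ideal (𝓞 Qb)) (φ : Fin k → GQ), Function.Injective q →
      (∀ i, Ov (q i) (P i) ∧ dec (P i) ≤ GK j ∧ Fb (q i) (P i) (φ i) ∧ q i % 2 ^ (n + 3) = 1 ∧
        ∀ b ∈ B, ¬ q i ∣ b) → Fx (j '' A) (2 ^ (n + 2)) (List.ofFn φ).prod →
      ∃ e : GQ → ZMod (2 * 2 ^ (n + 1)), (∀ g ∈ GK j, ∀ h ∈ GK j, e (g * h) = e g + e h) ∧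
        (∀ g ∈ Hc j (∏ i, q i), e g = 0) ∧
        (∀ i P', Ov (q i) P' → ∃ t, Inert P' t ∧ e t = 1) ∧
        ∀ d : ℕ, d ∣ δ → d % 4 = 1 → (∀ b ∈ B, J(b | d * ∏ i, q i) = 1) →
          ∀ g ∈ GK j, ((e g).val : ZMod 2) = nu (d * ∏ i, q i : ℕ) g

/-- independence of the Kummer conditions -/
def KI : Prop := ∀ (K : Type) [Field K] [NumberField K] (j : K →+* Qb) (d₁ d₂ : ℕ),
  Kd j (d₁ * d₂) → d₁ % 4 = 1 → ∀ A : Finset K, (∀ a ∈ A, Algebra.norm ℚ a = 1 ∧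
    ∀ v : HeightOneSpectrum (𝓞 K), (2 : 𝓞 K) ∈ v.asIdeal → v.valuation K a = 1) →
  ∀ X : Finset ℕ, (∀ x ∈ X, x.Prime ∧ x ≠ 2) → ∀ n : ℕ, ∃ g ∈ GK j, Fx {1} (2 ^ (n + 3)) g ∧
    Fx (j '' A) (2 ^ (n + 2)) g ∧ ∀ x ∈ X, (nu x g = 0 ↔ gs d₁ d₂ x = 1)

/-- primes with prescribed Frobenius elements and mutual symbols -/
def CHB : Prop := ∀ (W : Subgroup GQ) (T : Finset ℕ), IsOpen (W : Set GQ) → W.Normal → UnS T W →
  2 ∈ T → (∀ g ∈ W, Fx {1} 4 g) → ∀ (k : ℕ) (g : Fin k → GQ) (μ : Fin k → Fin k → Prop),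
  (∀ i, Fx {1} 4 (g i)) → (∀ i i', μ i i' → μ i' i) →
  ∃ (q : Fin k → ℕ) (P : Fin k → Ideal (𝓞 Qb)) (φ : Fin k → GQ), Function.Injective q ∧
    ∀ i, q i ∉ T ∧ Ov (q i) (P i) ∧ Fb (q i) (P i) (φ i) ∧ (g i)⁻¹ * φ i ∈ W ∧
      ∀ i', i' ≠ i → (J(q i | q i') = -1 ↔ μ i i')

/-- the table of symbols -/
def RED : Prop := ∀ d₁ d₂ : ℕ, Squarefree (d₁ * d₂) → d₁ % 8 = 5 → d₂ % 8 = 3 →
  d₁.primeFactors.card = d₂.primeFactors.card → ∃ (k : ℕ) (α β : Fin (k + 1) → ℕ),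
    (∀ i, α i ∈ d₁.primeFactors ∧ β i ∈ d₂.primeFactors) ∧
    (∀ x ∈ (d₁ * d₂).primeFactors,
      (-1) ^ (Finset.univ.filter fun i => α i = x ∨ β i = x).card = gs d₁ d₂ x) ∧
    ∀ (q₀ : ℕ) (q : Fin (k + 1) → ℕ), Function.Injective q → q₀.Prime → q₀ % 8 = 1 →
      (∀ i, (q i).Prime ∧ q i % 8 = 1 ∧ J(q i | q₀) = (if i = 0 then -1 else 1) ∧
        ∀ i', i' ≠ i → J(q i | q i') = 1) →
      (∀ x ∈ (d₁ * d₂).primeFactors, J(q₀ | x) = 1 ∧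
        ∀ i, J(q i | x) = if α i = x ∨ β i = x then -1 else 1) → Rd d₁ d₂ ((∏ i, q i) * q₀)

/-- the input which keeps the traces of the Frobenius elements away from `± 2` -/
structure Nq {K : Type} [Field K] (j : K →+* Qb) (S : Finset ℕ) (U : ℕ → Subgroup GQ)
    (Gq : ℕ → GQ → Prop) : Prop where
  opn : ∀ m, IsOpen (U m : Set GQ) ∧ (U m).Normal ∧ UnS S (U m)
  stb : ∀ m g, ∀ u ∈ U m, Gq m g → Gq m (g * u)
  cj : ∀ m g x, Gq m g → Gq m (x * g * x⁻¹)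
  ex : ∀ A : Finset K, 0 ∉ A → ∃ h ∈ GK j, (∀ n, Fx (insert 1 (j '' A)) (2 ^ n) h) ∧
    ∃ m, ∀ g, Fx {1} 4 g → ∃ k ≤ 2, Gq m (g * h ^ k)

/-- one level of the tower -/
structure Tw {K : Type} [Field K] [NumberField K] (j : K →+* Qb) (S : Finset ℕ) (d₁ d₂ c₁ q₀ n : ℕ)
    (e₁ e₂ : GQ → ZMod (2 * 2 ^ (n + 1))) : Prop where
  pr : q₀.Prime
  ly : Ly j (c₁ * q₀) (2 ^ (n + 1)) (e₁ + e₂)
  sh : Sh S d₁ d₂ (c₁ * q₀)
  par : ∀ g ∈ GK j, (((e₁ + e₂) g).val : ZMod 2) = nu (d₁ * (c₁ * q₀) : ℕ) g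
  add : ∀ g ∈ GK j, ∀ h ∈ GK j, e₂ (g * h) = e₂ g + e₂ h
  k1 : ∀ g ∈ Hc j c₁, e₁ g = 0
  k2 : ∀ g ∈ Hc j q₀, e₂ g = 0
  cy : ∀ q : ℕ, q.Prime → q ∣ c₁ * q₀ → q % 2 ^ (n + 3) = 1

/-- **the tower** -/
def TWR : Prop := ∀ (K : Type) [Field K] [NumberField K] (j : K →+* Qb) (d₁ d₂ : ℕ) (S : Finset ℕ)
  (U : ℕ → Subgroup GQ) (Gq : ℕ → GQ → Prop), Kd j (d₁ * d₂) → d₁ % 8 = 5 →
  d₁.primeFactors.card = d₂.primeFactors.card → 2 ∈ S →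
  (∀ p ∈ S, p.Prime ∧ (p ≠ 2 → J(-(d₁ * d₂) | p) = 1)) → Nq j S U Gq →
  ∃ k m : ℕ, ∀ n, ∃ c₁ q₀ e₁ e₂, Tw j S d₁ d₂ c₁ q₀ n e₁ e₂ ∧ c₁.primeFactors.card ≤ k ∧
    ∀ q : ℕ, q.Prime → q ∣ c₁ * q₀ → ∀ g, IsFrob q g → Gq m g

/-- **no free part**: the cocycles which vanish at one prime above two are killed by `T ^ 2` -/
def MU : Prop := ∀ (K : Type) [Field K] [NumberField K] (j : K →+* Qb) (d₁ d₂ c M : ℕ)
  (S : Finset ℕ) (e : GQ → ZMod (2 * M)), Kd j (d₁ * d₂) → Ly j c M e → Sh S d₁ d₂ c →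
  (∀ g ∈ GK j, ((e g).val : ZMod 2) = nu (d₁ * c : ℕ) g) → ∀ P, Ov 2 P →
  ∀ (n : ℕ) (z : GQ → (ZMod 2)[X]), n ≤ 2 * M →
  (∀ g ∈ GK j, ∀ h ∈ GK j, X ^ n ∣ z (g * h) - z g - (1 + X) ^ (e g).val * z h) →
  (∃ W : Subgroup GQ, IsOpen (W : Set GQ) ∧ ∀ w ∈ W, X ^ n ∣ z w) →
  (∀ l Q, Ov l Q → l ∉ S → ¬ l ∣ c → ∀ g ∈ GK j, Inert Q g → X ^ n ∣ z g) →
  (∀ g ∈ dec P, X ^ n ∣ z g) → ∀ g ∈ GK j, X ^ n ∣ X ^ 2 * z g

/-- the fields of the wanted shape have positive density -/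
def PART : Prop := ∀ (S : Finset ℕ) (B : ℕ), (∀ p ∈ S, p.Prime) → P004T.PosD
  {δ | Squarefree δ ∧ B < δ ∧ (∀ p ∈ S, p ≠ 2 → J(-(δ : ℤ) | p) = 1) ∧ ∃ d₁ d₂ : ℕ, δ = d₁ * d₂ ∧
    d₁ % 8 = 5 ∧ d₂ % 8 = 3 ∧ d₁.primeFactors.card = d₂.primeFactors.card}

end Vale.Agent.P004R
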