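import Vale.Agent.P004R.Mu0
import Vale.Agent.P004R.St

/-!
# P004R, row MU: no free part (helper7)
-/

set_option linter.all false

noncomputable section

namespace Vale.Agent.P004R.Mu

open NumberField Polynomial
open scoped NumberTheorySymbols Pointwise
open Vale.Agent.P022 (Qb GQ GK below IsConj)
open Vale.Agent.P027M.S (Inert)
open Vale.Agent.P022D.W (dec exists_phi phi_mem)
open Vale.Agent.P022E.GW (Ov Fb Gn)
open Vale.Agent.P004S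
open P004K

/-- binomial coefficients modulo two -/
def bn (i : ℕ) (a : ZMod 4) : ZMod 2 := (a.val.choose i : ℕ)

theorem bn1 (a b : ZMod 4) : bn 1 (a + b) = bn 1 a + bn 1 b := by revert a b; decide

theorem bn2 (a b : ZMod 4) : bn 2 (a + b) = bn 2 a + bn 2 b + bn 1 a * bn 1 b := by
  revert a b; decide

theorem bn3 (a b : ZMod 4) :
    bn 3 (a + b) = bn 3 a + bn 3 b + bn 1 a * bn 2 b + bn 2 a * bn 1 b := by revert a b; decide

theorem bn1n (a : ZMod 4) : bn 1 (-a) = bn 1 a := by revert a; decide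

theorem bn2n (a : ZMod 4) : bn 2 (-a) = bn 2 a + bn 1 a := by revert a; decide

theorem bn_nat (n : ℕ) : bn 1 n = n ∧ bn 2 n = (n.choose 2 : ℕ) := by
  induction n with
  | zero => decide
  | succ n ih =>
    rw [Nat.choose_succ_succ' n 1, Nat.choose_one_right, Nat.cast_add, Nat.cast_add, Nat.cast_add,
      bn1, bn2, ih.1, ih.2, Nat.cast_one, show bn 1 1 = 1 by decide, show bn 2 1 = 0 by decide]
    exact ⟨by simp, by ring⟩

/-- the group of the field -/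
abbrev Gd (d₁ d₂ : ℕ) : Subgroup GQ := kn (-((d₁ * d₂ : ℕ) : ℤ))

/-- the data of the layer, modulo four -/
structure Bs (S : Finset ℕ) (d₁ d₂ c : ℕ) (k : GQ) (f : GQ → ZMod 4) : Prop where
  sh : Sh S d₁ d₂ c
  cj : IsConj k
  add : ∀ g ∈ Gd d₁ d₂, ∀ h ∈ Gd d₁ d₂, f (g * h) = f g + f h
  neg : ∀ g ∈ Gd d₁ d₂, f (k * g * k⁻¹) = -f g
  opn : ∃ U : Subgroup GQ, IsOpen (U : Set GQ) ∧ ∀ u ∈ U, f u = 0
  unr : ∀ l Q, Ov l Q → ¬ l ∣ c → ∀ g ∈ Gd d₁ d₂, Inert Q g → f g = 0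
  par : ∀ g ∈ Gd d₁ d₂, bn 1 (f g) = nu (d₁ * c : ℕ) g
  spl : ∀ q Q, Ov q Q → q ∣ c → dec Q ≤ Gd d₁ d₂

/-- cocycles modulo `T ^ 3` -/
structure Cc (S : Finset ℕ) (d₁ d₂ c : ℕ) (f : GQ → ZMod 4) (z₀ z₁ z₂ : GQ → ZMod 2) : Prop where
  a0 : ∀ g ∈ Gd d₁ d₂, ∀ h ∈ Gd d₁ d₂, z₀ (g * h) = z₀ g + z₀ h
  a1 : ∀ g ∈ Gd d₁ d₂, ∀ h ∈ Gd d₁ d₂, z₁ (g * h) = z₁ g + z₁ h + bn 1 (f g) * z₀ h
  a2 : ∀ g ∈ Gd d₁ d₂, ∀ h ∈ Gd d₁ d₂,
    z₂ (g * h) = z₂ g + z₂ h + bn 1 (f g) * z₁ h + bn 2 (f g) * z₀ h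
  opn : ∃ U : Subgroup GQ, IsOpen (U : Set GQ) ∧ ∀ u ∈ U, z₀ u = 0 ∧ z₁ u = 0 ∧ z₂ u = 0
  unr : ∀ l Q, Ov l Q → l ∉ S → ¬ l ∣ c → ∀ g ∈ Gd d₁ d₂, Inert Q g →
    z₀ g = 0 ∧ z₁ g = 0 ∧ z₂ g = 0

variable {S : Finset ℕ} {d₁ d₂ c l n : ℕ} {k g h : GQ} {f : GQ → ZMod 4}
  {z₀ z₁ z₂ x y : GQ → ZMod 2} {P : Ideal (𝓞 Qb)}

theorem Cc.shift (z : Cc S d₁ d₂ c f z₀ z₁ z₂) : Cc S d₁ d₂ c f 0 z₀ z₁ :=
  ⟨fun _ _ _ _ => by simp, fun g a h b => by simpa using z.a0 g a h b,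
    fun g a h b => by simpa using z.a1 g a h b,
    z.opn.imp fun U e => ⟨e.1, fun u m => ⟨rfl, (e.2 u m).1, (e.2 u m).2.1⟩⟩,
    fun l Q o a b g m i => ⟨rfl, (z.unr l Q o a b g m i).1, (z.unr l Q o a b g m i).2.1⟩⟩

theorem Cc.addu (z : Cc S d₁ d₂ c f z₀ z₁ z₂) (b : Bs S d₁ d₂ c k f) : Cc S d₁ d₂ c f
    (fun g => z₀ g + bn 1 (f g)) (fun g => z₁ g + bn 2 (f g)) fun g => z₂ g + bn 3 (f g) := by
  obtain ⟨U, o1, e1⟩ := z.opn
  obtain ⟨V, o2, e2⟩ := b.opn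
  refine ⟨fun g m h n => ?_, fun g m h n => ?_, fun g m h n => ?_,
    ⟨U ⊓ V, o1.inter o2, fun u m => ?_⟩, fun l Q o a e g m i => ?_⟩
  · rw [z.a0 g m h n, b.add g m h n, bn1]; ring
  · rw [z.a1 g m h n, b.add g m h n, bn2]; ring
  · rw [z.a2 g m h n, b.add g m h n, bn3]; ring
  · obtain ⟨a0, a1, a2⟩ := e1 u m.1
    rw [a0, a1, a2, e2 u m.2]; decide
  · obtain ⟨a0, a1, a2⟩ := z.unr l Q o a e g m i
    rw [a0, a1, a2, b.unr l Q o e g m i]; decide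

theorem cjm : k * (g * h) * k⁻¹ = k * g * k⁻¹ * (k * h * k⁻¹) := by group

theorem cjG (hg : g ∈ Gd d₁ d₂) : k * g * k⁻¹ ∈ Gd d₁ d₂ := (nu_conj _ k g).trans hg

theorem cj2 (hk : IsConj k) : k * (k * g * k⁻¹) * k⁻¹ = g := by
  rw [show k * (k * g * k⁻¹) * k⁻¹ = k * k * g * (k * k)⁻¹ by group, kk hk]; simp

theorem cjo {U : Subgroup GQ} (hU : IsOpen (U : Set GQ)) (k : GQ) : ∃ V : Subgroup GQ,
    IsOpen (V : Set GQ) ∧ ∀ u ∈ V, u ∈ U ∧ k * u * k⁻¹ ∈ U :=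
  ⟨U ⊓ U.comap (MulAut.conj k).toMonoidHom, hU.inter (hU.preimage (f := fun u => k * u * k⁻¹)
    (by fun_prop)), fun u m => m⟩

open Classical in
/-- the retraction to the subgroup of index two -/
def pj (d₁ d₂ : ℕ) (k g : GQ) : GQ := if g ∈ Gd d₁ d₂ then g else g * k

theorem pj_of (hg : g ∈ Gd d₁ d₂) : pj d₁ d₂ k g = g := if_pos hg

theorem Bs.ne (b : Bs S d₁ d₂ c k f) : d₁ ≠ 0 ∧ d₂ ≠ 0 ∧ c ≠ 0 := by
  simpa [not_or, and_assoc] using b.sh.sq.ne_zero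

theorem Bs.nk (b : Bs S d₁ d₂ c k f) : nu (-((d₁ * d₂ : ℕ) : ℤ)) k = 1 :=
  nu_neg_conj (neg_neg_of_pos (Int.natCast_pos.2 (Nat.pos_of_ne_zero
    (mul_ne_zero b.ne.1 b.ne.2.1)))) b.cj

theorem nG (hg : g ∉ Gd d₁ d₂) : nu (-((d₁ * d₂ : ℕ) : ℤ)) g = 1 := (z2 _).resolve_left hg

theorem Bs.pj_mem (b : Bs S d₁ d₂ c k f) (g : GQ) : pj d₁ d₂ k g ∈ Gd d₁ d₂ := by
  unfold pj
  split_ifs with a
  · exact a
  · rw [mem_kn, nu_mul, nG a, b.nk]; rfl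

theorem Bs.pj_k (b : Bs S d₁ d₂ c k f) : pj d₁ d₂ k k = 1 :=
  (if_neg fun a => one_ne_zero (b.nk.symm.trans a)).trans (kk b.cj)

theorem Bs.pj_nu (b : Bs S d₁ d₂ c k f) (g : GQ) :
    bn 1 (f (pj d₁ d₂ k g)) = nu (d₁ * c : ℕ) g := by
  rw [b.par _ (b.pj_mem g), pj]
  split_ifs
  · rfl
  · rw [nu_mul, nu_nat_conj _ b.cj, add_zero]

theorem Bs.pj_in (b : Bs S d₁ d₂ c k f) (hg : g ∈ Gd d₁ d₂) (h : GQ) :
    pj d₁ d₂ k (g * h) = pj d₁ d₂ k g * pj d₁ d₂ k h := by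
  rw [pj_of hg, pj, pj]
  by_cases a : h ∈ Gd d₁ d₂
  · rw [if_pos a, if_pos (mul_mem hg a)]
  · rw [if_neg a, if_neg (mt (mul_mem_cancel_left hg).1 a), mul_assoc]

theorem Bs.pj_out (b : Bs S d₁ d₂ c k f) (hg : g ∉ Gd d₁ d₂) (h : GQ) :
    pj d₁ d₂ k (g * h) = pj d₁ d₂ k g * (k * pj d₁ d₂ k h * k⁻¹) := by
  have e : ∀ u, g * k * (k * u * k⁻¹) = g * u * k⁻¹ := fun u => by
    rw [show g * k * (k * u * k⁻¹) = g * (k * k) * u * k⁻¹ by group, kk b.cj, mul_one]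
  rw [pj, pj, pj, if_neg hg, e]
  by_cases a : h ∈ Gd d₁ d₂
  · rw [if_pos a, if_neg (mt (mul_mem_cancel_right a).1 hg), inv_eq_of_mul_eq_one_right (kk b.cj)]
  · rw [if_neg a, if_pos (by rw [mem_kn, nu_mul, nG hg, nG a]; rfl)]; group

/-- extension of a triple to the whole group -/
theorem Bs.ext (b : Bs S d₁ d₂ c k f) (a : ZMod 2) {d : ℤ}
    (hd : ∀ g, nu d g = nu (d₁ * c : ℕ) g + a * nu (-((d₁ * d₂ : ℕ) : ℤ)) g)
    (op : ∃ U : Subgroup GQ, IsOpen (U : Set GQ) ∧ ∀ u ∈ U, x u = 0 ∧ y u = 0)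
    (x1 : ∀ g ∈ Gd d₁ d₂, ∀ h ∈ Gd d₁ d₂, x (g * h) = x g + x h)
    (x2 : ∀ g ∈ Gd d₁ d₂, x (k * g * k⁻¹) = x g)
    (y1 : ∀ g ∈ Gd d₁ d₂, ∀ h ∈ Gd d₁ d₂, y (g * h) = y g + y h + bn 1 (f g) * x h)
    (y2 : ∀ g ∈ Gd d₁ d₂, y (k * g * k⁻¹) = y g + a * x g) :
    ∃ n : ℕ, Squarefree n ∧ (∀ g ∈ Gd d₁ d₂, x g = nu n g) ∧
      Hs ⊤ (nu d) (nu n) fun g => y (pj d₁ d₂ k g) := by
  obtain ⟨U, hU, h0⟩ := op
  have ad : ∀ g h, x (pj d₁ d₂ k (g * h)) = x (pj d₁ d₂ k g) + x (pj d₁ d₂ k h) := fun g h => by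
    by_cases m : g ∈ Gd d₁ d₂
    · rw [b.pj_in m, x1 _ (b.pj_mem _) _ (b.pj_mem _)]
    · rw [b.pj_out m, x1 _ (b.pj_mem _) _ (cjG (b.pj_mem _)), x2 _ (b.pj_mem _)]
  obtain ⟨n, hn, e⟩ := ex_nu (x := fun g => x (pj d₁ d₂ k g)) ad (U := U ⊓ Gd d₁ d₂)
    (hU.inter (kn_open _)) (fun u m => by rw [pj_of m.2, (h0 u m.1).1]) b.cj
    (by rw [b.pj_k, (h0 1 (one_mem _)).1])
  refine ⟨n, hn, fun g m => by simp only [← e, pj_of m], ⟨U ⊓ Gd d₁ d₂ ⊓ (kn d ⊓ kn n),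
    (hU.inter (kn_open _)).inter ((kn_open _).inter (kn_open _)), fun u m => ⟨m.2.1, m.2.2, ?_⟩⟩,
    fun g _ h _ => nu_mul _ g h, fun g _ h _ => nu_mul _ g h, fun g _ h _ => ?_⟩
  · rw [pj_of m.1.2, (h0 u m.1.1).2]
  rw [← e, hd]
  by_cases m : g ∈ Gd d₁ d₂
  · rw [b.pj_in m, y1 _ (b.pj_mem _) _ (b.pj_mem _), b.pj_nu, mem_kn.1 m]; ring
  · rw [b.pj_out m, y1 _ (b.pj_mem _) _ (cjG (b.pj_mem _)), x2 _ (b.pj_mem _), y2 _ (b.pj_mem _),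
      b.pj_nu, nG m]; ring

theorem Bs.odd (b : Bs S d₁ d₂ c k f) (hl : l.Prime) (h : l ∣ d₁ ∨ l ∣ d₂ ∨ l ∣ c) : l ≠ 2 := by
  rintro rfl
  have := b.sh.m1
  have := b.sh.m2
  have := b.sh.c8 2 hl
  omega

theorem Bs.c8 (b : Bs S d₁ d₂ c k f) : c % 8 = 1 := by
  have : ∀ c : ℕ, c ≠ 0 → (∀ q : ℕ, q.Prime → q ∣ c → q % 8 = 1) → c % 8 = 1 := fun c => by
    induction c using induction_on_primes with
    | zero => exact fun a => absurd rfl a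
    | one => exact fun _ _ => rfl
    | prime_mul p a hp ih =>
      intro a0 h
      rw [Nat.mul_mod, h p hp (dvd_mul_right _ _), ih (right_ne_zero_of_mul a0)
        fun q hq d => h q hq (d.mul_left _)]
  exact this c b.ne.2.2 b.sh.c8

theorem Bs.m5 (b : Bs S d₁ d₂ c k f) : ((d₁ * c : ℕ) : ℤ) % 8 = 5 := by
  have : d₁ * c % 8 = 5 := by rw [Nat.mul_mod, b.sh.m1, b.c8]
  omega

theorem Bs.dec2 (b : Bs S d₁ d₂ c k f) (o : Ov 2 P) : dec P ≤ Gd d₁ d₂ := by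
  have : d₁ * d₂ % 8 = 7 := by rw [Nat.mul_mod, b.sh.m1, b.sh.m2]
  exact dec_two o (by omega)

theorem Bs.out (b : Bs S d₁ d₂ c k f) (hl : l.Prime) (h : l ∣ d₁ * d₂) : l ∉ S ∧ ¬ l ∣ c :=
  ⟨fun m => nd_of hl (.inr ((b.sh.inS l m).2 (b.odd hl ((hl.dvd_mul.1 h).imp_right .inl))).2)
    (dvd_neg.2 (by exact_mod_cast h)), fun m => hl.prime.not_unit (b.sh.sq l (mul_dvd_mul h m))⟩

/-- the conditions which are common to the two kernels -/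
theorem Bs.loc (b : Bs S d₁ d₂ c k f) (a : ZMod 2) {d : ℤ} (sd : Squarefree d) (cd : (c : ℤ) ∣ d)
    (hd : ∀ g, nu d g = nu (d₁ * c : ℕ) g + a * nu (-((d₁ * d₂ : ℕ) : ℤ)) g) (hn : Squarefree n)
    (H : Hs ⊤ (nu d) (nu n) y)
    (un : ∀ l Q, Ov l Q → l ∉ S → ¬ l ∣ c → ∀ g ∈ Gd d₁ d₂, Inert Q g → nu n g = 0) :
    Lq d c n ∧ ∀ l : ℕ, l.Prime → l ∣ n → l = 2 ∨ l ∣ d₁ ∨ l ∣ d₂ ∨ l ∣ c := by
  refine ⟨fun q hq qc => ?_, fun l hl ln => ?_⟩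
  · have q2 := b.odd hq (.inr (.inr qc))
    have qd := (Int.natCast_dvd_natCast.2 qc).trans cd
    refine ⟨H.spl sd hq q2 qd, fun qn => ?_⟩
    obtain ⟨Q, o⟩ := ex_pl hq
    obtain ⟨U, hU, h0⟩ := b.opn
    have le := b.spl q Q o qc
    refine H.ram sd hn o q2 qd qn (w := fun g => bn 2 (f g)) ⟨⟨U ⊓ kn d, hU.inter (kn_open _),
      fun u m => ⟨m.2, m.2, by rw [h0 u m.1]; rfl⟩⟩, fun g _ h _ => nu_mul _ g h,
      fun g _ h _ => nu_mul _ g h, fun g m h n => ?_⟩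
    rw [b.add g (le m) h (le n), bn2, b.par g (le m), b.par h (le n), hd, hd, mem_kn.1 (le m),
      mem_kn.1 (le n)]
    ring
  by_contra e
  push Not at e
  obtain ⟨l2, l3, l4, l5⟩ := e
  obtain ⟨Q, o⟩ := ex_pl hl
  obtain ⟨τ, σ, t, s, -⟩ := ex_st o
  have nδ : ¬ (l : ℤ) ∣ -((d₁ * d₂ : ℕ) : ℤ) := fun e =>
    (hl.dvd_mul.1 (Int.natCast_dvd_natCast.1 (dvd_neg.1 e))).elim l3 l4
  by_cases m : l ∈ S
  · obtain ⟨j1, j2⟩ := (b.sh.inS l m).2 l2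
    rw [← Nat.cast_mul] at j1 j2
    rw [nu_fb o l2 s nδ] at j2
    rw [nu_fb o l2 s (nd_of hl (.inl j1))] at j1
    have nd : ¬ (l : ℤ) ∣ d := fun e => by
      have := nu_tau o l2 sd e t
      rw [hd, nu_inert o l2 nδ t.1, nu_inert o l2 (fun e => (hl.dvd_mul.1
        (Int.natCast_dvd_natCast.1 e)).elim l3 l5) t.1] at this
      simp at this
    refine H.ine hn hl l2 ?_ ln
    rw [nu_fb o l2 s nd, hd]
    split_ifs at j1 j2 with p q <;> first | omega | rw [q, mul_zero, add_zero, if_neg p]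
  · have := un l Q o m l5 τ (nu_inert o l2 nδ t.1) t.1
    rw [nu_tau o l2 (Int.squarefree_natCast.2 hn) (Int.natCast_dvd_natCast.2 ln) t] at this
    exact one_ne_zero this

theorem sqG (g : GQ) : g * g ∈ Gd d₁ d₂ := by rw [mem_kn, nu_mul, CharTwo.add_self_eq_zero]

/-- **L1** -/
theorem Bs.l1 (b : Bs S d₁ d₂ c k f) (z : Cc S d₁ d₂ c f z₀ z₁ z₂)
    (h0 : ∀ g ∈ Gd d₁ d₂, z₀ (k * g * k⁻¹) = z₀ g) (h1 : ∀ g ∈ Gd d₁ d₂, z₁ (k * g * k⁻¹) = z₁ g)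
    (o : Ov 2 P) (hP : ∀ g, Inert P g → z₀ g = 0) : ∀ g ∈ Gd d₁ d₂, z₀ g = 0 := by
  have hd : ∀ g, nu (d₁ * c) g = nu (d₁ * c : ℕ) g + 0 * nu (-((d₁ * d₂ : ℕ) : ℤ)) g := by simp
  have sd : Squarefree ((d₁ : ℤ) * c) := by
    rw [← Nat.cast_mul, Int.squarefree_natCast]
    exact b.sh.sq.squarefree_of_dvd ⟨d₂, by ring⟩
  obtain ⟨U, hU, e0⟩ := z.opn
  obtain ⟨V, hV, e1⟩ := cjo hU k
  obtain ⟨n, hn, e, H⟩ := b.ext 0 hd (x := z₀) (y := fun g => z₂ g + z₂ (k * g * k⁻¹))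
    ⟨V, hV, fun u m => ⟨(e0 u (e1 u m).1).1, by
      rw [(e0 u (e1 u m).1).2.2, (e0 _ (e1 u m).2).2.2, add_zero]⟩⟩ z.a0 h0
    (fun g m h n => by
      rw [cjm, z.a2 g m h n, z.a2 _ (cjG m) _ (cjG n), b.neg g m, bn1n, bn2n, h0 h n, h1 h n]
      linear_combination (bn 1 (f g) * z₁ h + bn 2 (f g) * z₀ h) * CharTwo.two_eq_zero (R := ZMod 2))
    fun g m => by rw [cj2 b.cj]; ring
  obtain ⟨lq, dv⟩ := b.loc 0 sd (dvd_mul_left _ _) hd hn H fun l Q o a d g m i =>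
    (e g m).symm.trans (z.unr l Q o a d g m i).1
  have n4 := mod_four o hn fun g i => (e g (b.dec2 o (inert_dec i))).symm.trans (hP g i)
  have n1 : ∀ a : ℕ, a.Prime → a ∣ d₁ → ¬ a ∣ n := fun a ha d =>
    H.unr sd hn ha (b.odd ha (.inl d)) ((Int.natCast_dvd_natCast.2 d).mul_right _) fun Q τ o t => by
      obtain ⟨u, v⟩ := b.out ha (d.mul_right _)
      rw [pj_of (sqG τ), (z.unr a Q o u v _ (sqG τ) (inert_mul t t)).2.2,
        (z.unr a _ (ov_sm o k) u v _ (cjG (sqG τ)) (in_sm (inert_mul t t) k)).2.2, add_zero]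
  have := b.sh.rd.r1 n (sq_dvd hn fun l hl ln => ?_) n4 (fun a ha d => H.spl sd ha
    (b.odd ha (.inl d)) ((Int.natCast_dvd_natCast.2 d).mul_right _) (n1 a ha d)) lq
  · intro g m
    rw [e g m, this, Nat.cast_one, nu_one_left]
  · rcases dv l hl ln with rfl | d | d | d
    · omega
    · exact absurd ln (n1 l hl d)
    · exact d.mul_right _
    · exact d.mul_left _

/-- **L2** -/
theorem Bs.l2 (b : Bs S d₁ d₂ c k f) (z : Cc S d₁ d₂ c f z₀ z₁ z₂)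
    (h0 : ∀ g ∈ Gd d₁ d₂, z₀ (k * g * k⁻¹) = z₀ g) :
    (∀ g ∈ Gd d₁ d₂, z₁ g + z₁ (k * g * k⁻¹) = 0) ∨
      ∀ g ∈ Gd d₁ d₂, z₁ g + z₁ (k * g * k⁻¹) = bn 1 (f g) := by
  have t2 := CharTwo.two_eq_zero (R := ZMod 2)
  obtain ⟨a1, a2, a3⟩ := b.ne
  have hd : ∀ g, nu (-(d₂ * c)) g = nu (d₁ * c : ℕ) g + 1 * nu (-((d₁ * d₂ : ℕ) : ℤ)) g := fun g => by
    rw [one_mul, ← nu_mul_left (by simp [a1, a3]) (by simp [a1, a2]),
      ← nu_mul_sq (e := d₁) (by simp [a2, a3]) (by simp [a1])]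
    congr 1; push_cast; ring
  have sd : Squarefree (-((d₂ : ℤ) * c)) := by
    rw [← Int.squarefree_natAbs, Int.natAbs_neg, ← Nat.cast_mul, Int.natAbs_natCast]
    exact b.sh.sq.squarefree_of_dvd ⟨d₁, by ring⟩
  obtain ⟨U, hU, e0⟩ := z.opn
  obtain ⟨V, hV, e1⟩ := cjo hU k
  obtain ⟨n, hn, e, H⟩ := b.ext 1 hd (x := fun g => z₁ g + z₁ (k * g * k⁻¹))
    (y := fun g => z₂ g + z₂ (k * g * k⁻¹) + z₁ g)
    ⟨V, hV, fun u m => by simp [e0 u (e1 u m).1, e0 _ (e1 u m).2]⟩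
    (fun g m h n => by
      rw [cjm, z.a1 g m h n, z.a1 _ (cjG m) _ (cjG n), b.neg g m, bn1n, h0 h n]
      linear_combination (bn 1 (f g) * z₀ h) * t2)
    (fun g m => by rw [cj2 b.cj]; ring)
    (fun g m h n => by
      rw [cjm, z.a2 g m h n, z.a2 _ (cjG m) _ (cjG n), z.a1 g m h n, b.neg g m, bn1n, bn2n, h0 h n]
      linear_combination (bn 1 (f g) * z₀ h + bn 2 (f g) * z₀ h) * t2)
    fun g m => by rw [cj2 b.cj]; linear_combination (-z₁ g) * t2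
  obtain ⟨lq, dv⟩ := b.loc 1 sd (dvd_neg.2 (dvd_mul_left _ _)) hd hn H fun l Q o a d g m i => by
    rw [← e g m, (z.unr l Q o a d g m i).2.1,
      (z.unr l _ (ov_sm o k) a d _ (cjG m) (in_sm i k)).2.1, add_zero]
  have n1 : ∀ a : ℕ, a.Prime → a ∣ d₂ → ¬ a ∣ n := fun a ha d =>
    H.unr sd hn ha (b.odd ha (.inr (.inl d)))
      (dvd_neg.2 ((Int.natCast_dvd_natCast.2 d).mul_right _)) fun Q τ o t => by
      obtain ⟨u, v⟩ := b.out ha (d.mul_left _)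
      obtain ⟨-, p, q⟩ := z.unr a Q o u v _ (sqG τ) (inert_mul t t)
      rw [pj_of (sqG τ), p, q,
        (z.unr a _ (ov_sm o k) u v _ (cjG (sqG τ)) (in_sm (inert_mul t t) k)).2.2]
      rfl
  refine (b.sh.rd.r2 n (sq_dvd hn fun l hl ln => ?_) (fun a ha d => H.spl sd ha
    (b.odd ha (.inr (.inl d))) (dvd_neg.2 ((Int.natCast_dvd_natCast.2 d).mul_right _))
      (n1 a ha d)) lq).imp (fun r g m => ?_) fun r g m => ?_
  · rcases dv l hl ln with rfl | d | d | d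
    · exact (dvd_mul_right _ _).mul_right _
    · exact (d.mul_left _).mul_right _
    · exact absurd ln (n1 l hl d)
    · exact d.mul_left _
  · rw [e g m, r, Nat.cast_one, nu_one_left]
  · rw [e g m, r, b.par g m]

theorem Bs.lb (b : Bs S d₁ d₂ c k f) (z : Cc S d₁ d₂ c f z₀ z₁ z₂)
    (h0 : ∀ g ∈ Gd d₁ d₂, z₀ (k * g * k⁻¹) = z₀ g) (o : Ov 2 P) (hP : ∀ g ∈ dec P, z₀ g = 0) :
    ∀ g ∈ Gd d₁ d₂, z₁ (k * g * k⁻¹) = z₁ g := by
  have t2 := CharTwo.two_eq_zero (R := ZMod 2)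
  rcases b.l2 z h0 with e | e
  · exact fun g m => by linear_combination e g m - z₁ g * t2
  obtain ⟨φ, hφ⟩ := exists_phi o.1 o.2.1 o.2.2
  have m := phi_mem o.1 o.2.1 hφ
  have m5 := b.m5
  have := b.l1 (z.addu b) (fun g m => by rw [h0 g m, b.neg g m, bn1n])
    (fun g m => by
      rw [b.neg g m, bn2n]; linear_combination e g m + (bn 1 (f g) - z₁ g) * t2) o
    (fun g i => by
      rw [hP g (inert_dec i), b.par g (b.dec2 o (inert_dec i)), in_two o (by omega) i, add_zero])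
    φ (b.dec2 o m)
  rw [hP φ m, zero_add, b.par φ (b.dec2 o m), fb_two o (by omega) hφ] at this
  omega

theorem Bs.core (b : Bs S d₁ d₂ c k f) (z : Cc S d₁ d₂ c f z₀ z₁ z₂) (o : Ov 2 P)
    (hP : ∀ g ∈ dec P, z₀ g = 0) : ∀ g ∈ Gd d₁ d₂, z₀ g = 0 :=
  have h0 := b.lb z.shift (fun _ _ => rfl) o fun _ _ => rfl
  b.l1 z h0 (b.lb z h0 o hP) o fun g i => hP g (inert_dec i)

/-- the coefficients of the cocycle law -/
theorem coef {m n a : ℕ} {p q r : (ZMod 2)[X]} (hn : m + 3 ≤ n) (hr : X ^ m ∣ r)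
    (h : X ^ n ∣ p - q - (1 + X) ^ a * r) :
    p.coeff m = q.coeff m + r.coeff m ∧
    p.coeff (1 + m) = q.coeff (1 + m) + r.coeff (1 + m) + bn 1 a * r.coeff m ∧
    p.coeff (2 + m) = q.coeff (2 + m) + r.coeff (2 + m) + bn 1 a * r.coeff (1 + m) +
      bn 2 a * r.coeff m := by
  obtain ⟨w, rfl⟩ := hr
  rw [X_pow_dvd_iff] at h
  have h0 := h (0 + m) (by omega)
  have h1 := h (1 + m) (by omega)
  have h2 := h (2 + m) (by omega)
  have e0 := coeff_X_pow_mul w m 0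
  rw [mul_left_comm, coeff_sub, coeff_sub, coeff_X_pow_mul, coeff_mul] at h0 h1 h2
  simp only [Finset.Nat.antidiagonal_succ, Finset.Nat.antidiagonal_zero, Finset.sum_cons,
    Finset.sum_map, Finset.sum_singleton, Finset.map_singleton, Finset.map_cons,
    Function.Embedding.coe_prodMap, Function.Embedding.coeFn_mk, Prod.map_apply,
    Function.Embedding.refl_apply, coeff_one_add_X_pow] at h0 h1 h2
  rw [zero_add] at h0 e0
  rw [coeff_X_pow_mul, coeff_X_pow_mul, e0, (bn_nat a).1, (bn_nat a).2]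
  simp at h0 h1 h2
  exact ⟨by linear_combination h0, by linear_combination h1, by linear_combination h2⟩

end Mu

open Mu NumberField Polynomial P004S in
open Vale.Agent.P022 (Qb GQ GK below) in
/-- **row MU** -/
theorem mu (r1 : P004K.RC1) (r2 : P004K.RC2) : MU := by
  intro K _ _ j d₁ d₂ c M S e kd ly sh par P o n z _ co ⟨W, hW, op⟩ un hP
  have hG : GK j = Gd d₁ d₂ := Subgroup.ext kd.gk
  have c0 := Nat.pos_of_ne_zero ly.sq.ne_zero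
  obtain ⟨m, rfl⟩ := ly.pow
  have h4 : 4 ∣ 2 * 2 ^ (m + 1) := ⟨2 ^ m, by ring⟩
  have ef : ∀ g, ((e g).val : ZMod 4) = ZMod.castHom h4 (ZMod 4) (e g) := fun g => by simp
  obtain ⟨k, hk⟩ := ex_k
  obtain ⟨-, a1, -, -, a2, -⟩ := r1 K j ly.iq c c0
  obtain ⟨-, -, -, a3, -, -, a4⟩ := r2 K j ly.iq c c0
  have nk : k ∉ GK j := fun a => by
    have := (kd.gk k).1 a
    rw [nu_neg_conj (neg_neg_of_pos (Int.natCast_pos.2 (Nat.pos_of_ne_zero kd.sq.ne_zero))) hk] at this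
    exact one_ne_zero this
  have b : Bs S d₁ d₂ c k fun g => (e g).val := by
    refine ⟨sh, hk, fun g m h n => ?_, fun g m => ?_, ⟨_, a1, fun u m => ?_⟩, fun l Q o d g m i => ?_,
      fun g m => (bn_nat _).1.trans (par g (hG ▸ m)), fun q Q o d => hG ▸ (ly.ram q Q o d).2.1⟩
    · rw [ef, ef, ef, ly.add g (hG ▸ m) h (hG ▸ n), map_add]
    · have := ly.ker _ (a2 k nk g (hG ▸ m))
      rw [ly.add _ (hG ▸ cjG m) g (hG ▸ m)] at this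
      rw [ef, ef, eq_neg_of_add_eq_zero_left this, map_neg]
    · rw [ly.ker u m]; simp
    · have q0 : Q ≠ ⊥ := fun q => o.1.ne_zero (by simpa [q] using o.2.2)
      have q1 : (c : 𝓞 Qb) ∉ Q := fun q => d (Int.natCast_dvd_natCast.1 (ov_dvd o (by simpa using q)))
      have := (a3 _ 1 g (a4 Q o.2.1 q0 q1 1 (one_mem _) 0 (by simp))).1
        (a4 Q o.2.1 q0 q1 g (hG ▸ m) 0 fun x => by simpa using i x)
      rw [ly.ker g (by simpa using this)]; simp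
  rw [hG] at co un ⊢
  have key : ∀ m, m + 2 ≤ n → ∀ g ∈ Gd d₁ d₂, X ^ m ∣ z g := fun m => by
    induction m with
    | zero => simp
    | succ m ih =>
      intro hm g hg
      have ih := ih (by omega)
      have v : ∀ {u}, X ^ n ∣ z u → (z u).coeff m = 0 ∧ (z u).coeff (1 + m) = 0 ∧
          (z u).coeff (2 + m) = 0 := fun a => by
        rw [X_pow_dvd_iff] at a
        exact ⟨a _ (by omega), a _ (by omega), a _ (by omega)⟩
      have := b.core (z₀ := fun g => (z g).coeff m) (z₁ := fun g => (z g).coeff (1 + m))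
        (z₂ := fun g => (z g).coeff (2 + m))
        ⟨fun g a h b => (coef hm (ih h b) (co g a h b)).1,
          fun g a h b => (coef hm (ih h b) (co g a h b)).2.1,
          fun g a h b => (coef hm (ih h b) (co g a h b)).2.2, ⟨W, hW, fun u a => v (op u a)⟩,
          fun l Q o a b g c i => v (un l Q o a b g c i)⟩ o (fun g a => (v (hP g a)).1) g hg
      refine X_pow_dvd_iff.2 fun d hd => (Nat.lt_succ_iff_lt_or_eq.1 hd).elim
        (X_pow_dvd_iff.1 (ih g hg) d) fun e => e ▸ this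
  intro g hg
  rcases le_total n 2 with l | l
  · exact (pow_dvd_pow X l).mul_right _
  · obtain ⟨m, rfl⟩ := Nat.exists_eq_add_of_le l
    rw [pow_add]
    exact mul_dvd_mul_left _ (key m (by omega) g hg)

end Vale.Agent.P004R
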