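import Vale.Agent.P004R.St
import Vale.Agent.P004T.Adm

/-!
# P004R: the fields of the wanted shape have positive density (row PART)
-/

set_option autoImplicit false

open Finset Filter
open scoped NumberTheorySymbols

noncomputable section

namespace Vale.Agent.P004R

open P004T

namespace Pt

/-- bounded multipliers keep the density positive -/
theorem posd_mul {E E' : Set ℕ} (h : PosD E) {K : ℕ} (hK : 0 < K)
    (k : ∀ n ∈ E, ∃ k, 0 < k ∧ k ≤ K ∧ n * k ∈ E') : PosD E' := by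
  classical
  obtain ⟨c, c0, h⟩ := h
  have K0 : (0 : ℝ) < K := Nat.cast_pos.2 hK
  refine ⟨c / K ^ 2, by positivity, frequently_atTop.2 fun N => ?_⟩
  obtain ⟨X, hX, h⟩ := frequently_atTop.1 h N
  refine ⟨X * K, hX.trans (Nat.le_mul_of_pos_right _ hK), ?_⟩
  have a : ((range X).filter (· ∈ E)).card ≤ K * ((range (X * K)).filter (· ∈ E')).card := by
    refine (card_le_card (t := (Ioc 0 K).biUnion fun j => (range X).filter fun n => n * j ∈ E')
      fun n hn => ?_).trans ((card_biUnion_le_card_mul _ _ _ fun j hj => ?_).trans_eq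
        (by rw [Nat.card_Ioc, Nat.sub_zero]))
    · obtain ⟨j, a, b, d⟩ := k n (mem_filter.1 hn).2
      exact mem_biUnion.2 ⟨j, mem_Ioc.2 ⟨a, b⟩, mem_filter.2 ⟨(mem_filter.1 hn).1, d⟩⟩
    · obtain ⟨a, b⟩ := mem_Ioc.1 hj
      refine card_le_card_of_injOn (· * j) (fun n hn => ?_) fun n _ m _ e =>
        Nat.eq_of_mul_eq_mul_right a e
      obtain ⟨d, e⟩ := mem_filter.1 hn
      exact mem_filter.2 ⟨mem_range.2 (Nat.mul_lt_mul_of_lt_of_le (mem_range.1 d) b hK), e⟩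
  rw [Nat.cast_mul, show c / K ^ 2 * (X * K) = c * X / K by field_simp, div_le_iff₀' K0]
  exact h.trans (by exact_mod_cast a)

theorem split {n : ℕ} (h : Squarefree n) : ∃ a b, n = a * b ∧
    (a.primeFactors.card = b.primeFactors.card ∨ a.primeFactors.card = b.primeFactors.card + 1) := by
  obtain ⟨s, hs, e⟩ := exists_subset_card_eq (Nat.div_le_self n.primeFactors.card 2)
  have p {t : Finset ℕ} (ht : t ⊆ n.primeFactors) : (∏ p ∈ t, p).primeFactors = t :=
    Nat.primeFactors_prod fun p hp => Nat.prime_of_mem_primeFactors (ht hp)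
  refine ⟨∏ p ∈ n.primeFactors \ s, p, ∏ p ∈ s, p,
    ((prod_sdiff hs).trans (Nat.prod_primeFactors_of_squarefree h)).symm, ?_⟩
  rw [p hs, p sdiff_subset, card_sdiff_of_subset hs]
  omega

theorem step {n p : ℕ} (h : Squarefree n) (hp : p.Prime) (e : ¬p ∣ n) :
    Squarefree (n * p) ∧ (n * p).primeFactors.card = n.primeFactors.card + 1 := by
  have c := ((Nat.Prime.coprime_iff_not_dvd hp).2 e).symm
  refine ⟨Nat.squarefree_mul_iff.2 ⟨c, h, hp.prime.squarefree⟩, ?_⟩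
  rw [c.primeFactors_mul, card_union_of_disjoint c.disjoint_primeFactors, hp.primeFactors,
    card_singleton]

/-- auxiliary primes -/
theorem aux {m : ℕ} (hm : Odd m) (N r : ℕ) : ∃ p, N < p ∧ p.Prime ∧ p ≡ 1 [MOD m] ∧
    (Odd r → p ≡ r [MOD 8]) := by
  have c : m.Coprime 8 := (Nat.coprime_two_right.2 hm).pow_right 3
  obtain ⟨a, a1, a2⟩ := Nat.chineseRemainder c 1 (if Odd r then r else 1)
  obtain ⟨p, p1, p2, p3⟩ := Nat.forall_exists_prime_gt_and_modEq N (q := m * 8) (a := a)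
    (mul_ne_zero hm.pos.ne' (by norm_num)) (Nat.Coprime.mul_right
      (by rw [Nat.Coprime, a1.gcd_eq, Nat.gcd_one_left]) (by
        rw [Nat.Coprime, a2.gcd_eq]
        split_ifs with o
        exacts [(Nat.coprime_two_right.2 o).pow_right 3, Nat.gcd_one_left _]))
  exact ⟨p, p1, p2, (p3.of_mul_right 8).trans a1,
    fun o => (p3.of_mul_left m).trans (by rwa [if_pos o] at a2)⟩

end Pt

open Pt

/-- **PART** -/
theorem part : PART := fun S B hS => by
  have hm : Odd (∏ p ∈ S.erase 2, p) := prod_induction _ Odd (fun _ _ => Odd.mul) odd_one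
    fun p hp => (hS p (mem_of_mem_erase hp)).odd_of_ne_two (ne_of_mem_erase hp)
  choose f f1 f2 f3 f4 using aux hm
  obtain ⟨N₁, h1⟩ : ∃ N, ∀ r < 8, f 0 r ≤ N :=
    ⟨∑ r ∈ range 8, f 0 r, fun r hr => single_le_sum (fun _ _ => zero_le) (mem_range.2 hr)⟩
  obtain ⟨N₂, h2⟩ : ∃ N, ∀ r < 8, f N₁ r ≤ N :=
    ⟨∑ r ∈ range 8, f N₁ r, fun r hr => single_le_sum (fun _ _ => zero_le) (mem_range.2 hr)⟩
  obtain ⟨z, hz, hS'⟩ : ∃ z, f N₂ 1 ≤ z ∧ ∀ p ∈ S, p ≤ z := ⟨f N₂ 1 + ∑ p ∈ S, p,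
    Nat.le_add_right _ _, fun p hp => le_add_left (single_le_sum (f := fun p => p) (fun _ _ => zero_le) hp)⟩
  have z0 : 0 < z := (f2 _ _).pos.trans_le hz
  obtain ⟨a, ha⟩ := Nat.exists_eq_succ_of_ne_zero z.factorial_ne_zero
  refine posd_mul (posd_sqf (a := a) z.factorial_pos (by simp [ha]) B)
    (K := z * (z * z)) (by positivity) fun n ⟨n1, n2, n3⟩ => ?_
  have d {p : ℕ} (hp : p.Prime) (h : p ≤ z) : p ∣ n + 1 :=
    (Nat.dvd_factorial hp.pos h).trans ((Nat.modEq_zero_iff_dvd.1 ((n2.add_right 1).trans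
      (Nat.modEq_zero_iff_dvd.2 (ha ▸ dvd_rfl)))))
  have nd {p : ℕ} (hp : p.Prime) (h : p ≤ z) : ¬p ∣ n := fun e =>
    hp.ne_one (Nat.dvd_one.1 ((Nat.dvd_add_right e).1 (d hp h)))
  have o := nd Nat.prime_two ((f2 _ _).two_le.trans hz)
  obtain ⟨u, v, rfl, hc⟩ := split n1
  have ou : u % 2 = 1 := Nat.two_dvd_ne_zero.1 fun e => o (e.mul_right _)
  have ov : v % 2 = 1 := Nat.two_dvd_ne_zero.1 fun e => o (e.mul_left _)
  have r8 (c w : ℕ) (hw : w % 2 = 1) (hc : c % 2 = 1) (N : ℕ) : w * f N (c * w % 8) % 8 = c % 8 := by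
    have : f N (c * w % 8) % 8 = c * w % 8 % 8 :=
      f4 N _ (Nat.odd_iff.2 (by rw [Nat.mod_mod_of_dvd _ (by norm_num), Nat.mul_mod, hw, hc]))
    rw [Nat.mul_mod, this, Nat.mod_mod, ← Nat.mul_mod, mul_left_comm, Nat.mul_mod, Nat.mul_mod w]
    rcases (by omega : w % 8 = 1 ∨ w % 8 = 3 ∨ w % 8 = 5 ∨ w % 8 = 7) with e | e | e | e <;>
      simp [e]
  have x8 := r8 5 u ou rfl 0
  have y8 := r8 3 v ov rfl N₁
  have x1 := h1 _ (Nat.mod_lt (5 * u) (by norm_num))
  have y1 := h2 _ (Nat.mod_lt (3 * v) (by norm_num))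
  have y2 := f1 N₁ (3 * v % 8)
  have w2 := f1 N₂ 1
  have w8 : f N₂ 1 % 8 = 1 := f4 N₂ 1 odd_one
  have px := f2 0 (5 * u % 8)
  have py := f2 N₁ (3 * v % 8)
  have pw := f2 N₂ 1
  have mx := f3 0 (5 * u % 8)
  have my := f3 N₁ (3 * v % 8)
  have mw := f3 N₂ 1
  generalize f 0 (5 * u % 8) = x, f N₁ (3 * v % 8) = y, f N₂ 1 = w at *
  have j (k : ℕ) (hk : k ≡ 1 [MOD ∏ p ∈ S.erase 2, p]) (p) (hp : p ∈ S) (h : p ≠ 2) :
      J(-(u * v * k : ℕ) | p) = 1 := by
    obtain ⟨s, hs⟩ := d (hS p hp) (hS' p hp)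
    obtain ⟨t, ht⟩ := (hk.of_dvd (dvd_prod_of_mem (fun p => p) (mem_erase.2 ⟨h, hp⟩))).dvd
    refine (jacobiSym.mod_left' (Int.ModEq.symm
      (Int.modEq_iff_dvd.2 ⟨(u * v : ℕ) * t - s, ?_⟩))).trans (jacobiSym.one_left p)
    have := congrArg (Nat.cast : ℕ → ℤ) hs
    push_cast at this ht ⊢
    linear_combination (u * v : ℤ) * ht - this
  have nx := nd px (by omega)
  have ny := nd py (by omega)
  have nw := nd pw (by omega)
  have sx := step n1 px nx
  have sy := step sx.1 py fun e => ((Nat.Prime.dvd_mul py).1 e).elim ny fun e =>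
    absurd (Nat.le_of_dvd px.pos e) (by omega)
  have su := step n1.of_mul_left px fun e => nx (e.mul_right _)
  have sv := step n1.of_mul_right py fun e => ny (e.mul_left _)
  have xz : x ≤ z := by omega
  have yz : y ≤ z := by omega
  rcases hc with hc | hc
  · exact ⟨x * y, mul_pos px.pos py.pos, Nat.mul_le_mul xz (le_mul_of_le_of_one_le yz z0),
      mul_assoc (u * v) x y ▸ sy.1, n3.trans_le (Nat.le_mul_of_pos_right _ (mul_pos px.pos py.pos)),
      j _ (mx.mul my), u * x, v * y, by ring, x8, y8, by omega⟩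
  · have k {a : ℕ} (h : ¬w ∣ a) : ¬w ∣ a * y := fun e => ((Nat.Prime.dvd_mul pw).1 e).elim h
      fun e => absurd (Nat.le_of_dvd py.pos e) (by omega)
    have sw := step sy.1 pw (k fun e => ((Nat.Prime.dvd_mul pw).1 e).elim nw fun e =>
      absurd (Nat.le_of_dvd px.pos e) (by omega))
    have sz := step sv.1 pw (k fun e => nw (e.mul_left _))
    have p0 := mul_pos px.pos (mul_pos py.pos pw.pos)
    exact ⟨x * (y * w), p0, Nat.mul_le_mul xz (Nat.mul_le_mul yz hz), by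
      rw [← mul_assoc, ← mul_assoc]; exact sw.1, n3.trans_le (Nat.le_mul_of_pos_right _ p0),
      j _ (mx.mul (my.mul mw)), u * x, v * y * w, by ring, x8, by rw [Nat.mul_mod, y8, w8], by omega⟩

end Vale.Agent.P004R
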