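import Vale.Agent.P004F.Alg.Lam

/-!
# P004R: linear systems over `𝔽₂[T] / T ^ J` and over its dual numbers
-/

set_option autoImplicit false

open PowerSeries Matrix TrivSqZeroExt

namespace Vale.Agent.P004R.Db

variable {R n : Type} [CommRing R] [Fintype n] [DecidableEq n] {ρ : (ZMod 2)⟦X⟧ →+* R} {J : ℕ}

theorem low [Finite R] (hk : ∀ x, ρ x = 0 ↔ X ^ J ∣ x) (e : ℕ) :
    ∀ (A : Matrix n n (ZMod 2)⟦X⟧) (m : ℕ), X ^ e ∣ A.det → e + m ≤ J →
      2 ^ e ≤ Nat.card {y : n → R // A.map ρ *ᵥ y = 0 ∧ ∀ i, ρ X ^ m ∣ y i} := by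
  induction e with
  | zero => exact fun A m _ _ => Nat.card_pos_iff.2 ⟨⟨⟨0, mulVec_zero _, fun _ => dvd_zero _⟩⟩,
      inferInstance⟩
  | succ e ih =>
  intro A m h hm
  obtain ⟨v, hv, h1⟩ := exists_mulVec_eq_zero_iff.2 (show (A.map constantCoeff).det = 0 from
    (RingHom.map_det _ A).symm.trans (X_dvd_iff.1 ((dvd_pow_self X e.succ_ne_zero).trans h)))
  obtain ⟨i, hi⟩ := Function.ne_iff.1 hv
  have v1 : v i = 1 := (show ∀ x : ZMod 2, x ≠ 0 → x = 1 by decide) _ hi
  choose r hr using fun j => X_dvd_iff.2 (show constantCoeff ((A *ᵥ fun k => C (v k)) j) = 0 by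
    simpa [mulVec, dotProduct] using congrFun h1 j)
  have d : X * (A.updateCol i r).det = A.det := by
    rw [← det_updateCol_smul, ← one_smul (ZMod 2)⟦X⟧ A.det, ← map_one C, ← v1,
      ← det_updateCol_sum A i fun k => C (v k)]
    congr 2; ext j : 1; simp [← hr, mulVec, dotProduct, mul_comm]
  have k := ih (A.updateCol i r) (m + 1) ((mul_dvd_mul_iff_left X_prime.ne_zero).1
    (by rwa [d, ← pow_succ'])) (by omega)
  obtain ⟨J, rfl⟩ : ∃ J', J = m + J' + 1 := ⟨J - m - 1, by omega⟩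
  have z : ρ X * ρ X ^ (m + J) = 0 := by rw [← pow_succ', ← map_pow, hk]
  have z' : ρ X ^ (m + J) ≠ 0 := by
    rw [← map_pow, ne_eq, hk, pow_dvd_pow_iff X_prime.ne_zero X_prime.not_isUnit]
    omega
  choose s hs using fun y : {y : n → R // (A.updateCol i r).map ρ *ᵥ y = 0 ∧
    ∀ i, ρ X ^ (m + 1) ∣ y i} => y.2.2 i
  let t := fun p : _ × Bool => ρ X ^ m * s p.1 + if p.2 then ρ X ^ (m + J) else 0
  have ht (p) : ρ X * t p = p.1.1 i := by
    rw [hs, mul_add, mul_ite, z, mul_zero, ite_self]; ring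
  rw [pow_succ]
  refine (Nat.mul_le_mul_right 2 k).trans (le_trans (by simp) (Nat.card_le_card_of_injective
    (fun p : _ × Bool => ⟨fun j => Function.update p.1.1 i 0 j + ρ (C (v j)) * t p, ?_, fun j => ?_⟩)
    fun p q e => ?_))
  · funext j
    have a := congrFun p.1.2.1 j
    have b := congrArg ρ (hr j)
    simp only [mulVec, dotProduct, map_apply, map_sum, map_mul, mul_add, Finset.sum_add_distrib,
      ← mul_assoc, ← Finset.sum_mul] at a b ⊢
    rw [b, mul_comm (ρ X), mul_assoc, ht, ← a, ← Finset.add_sum_erase _ _ (Finset.mem_univ i),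
      ← Finset.add_sum_erase _ _ (Finset.mem_univ i), updateCol_self, Function.update_self, mul_zero,
      zero_add, add_comm]
    exact congrArg _ (Finset.sum_congr rfl fun k hk => by
      rw [updateCol_ne (Finset.ne_of_mem_erase hk), Function.update_of_ne (Finset.ne_of_mem_erase hk)])
  · refine dvd_add ?_ ((dvd_add (dvd_mul_right _ _) ?_).mul_left _)
    · rcases eq_or_ne j i with rfl | c
      · simp
      · rw [Function.update_of_ne c]
        exact (pow_dvd_pow _ m.le_succ).trans (p.1.2.2 j)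
    · split_ifs
      exacts [pow_dvd_pow _ (Nat.le_add_right _ _), dvd_zero _]
  · have e1 := congrFun (congrArg Subtype.val e)
    have e2 : t p = t q := by simpa [v1] using e1 i
    have e3 : p.1 = q.1 := Subtype.ext (funext fun j => by
      rcases eq_or_ne j i with rfl | c
      · rw [← ht, ← ht, e2]
      · simpa [e2, c] using e1 j)
    refine Prod.ext e3 ?_
    simp only [t, e3, add_right_inj] at e2
    cases hp : p.2 <;> cases hq : q.2 <;> simp_all

omit [DecidableEq n] in
/-- a system over the dual numbers -/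
theorem dual (Q : Matrix n n (DualNumber R)) (y : n → DualNumber R) : Q *ᵥ y = 0 ↔
    Q.map fst *ᵥ (fst ∘ y) = 0 ∧ Q.map snd *ᵥ (fst ∘ y) + Q.map fst *ᵥ (snd ∘ y) = 0 := by
  simp [funext_iff, TrivSqZeroExt.ext_iff, mulVec, dotProduct, fst_sum, snd_sum, forall_and,
    Finset.sum_add_distrib, add_comm, mul_comm]

omit [DecidableEq n] in
theorem up [Finite R] (Q : Matrix n n (DualNumber R)) :
    Nat.card {y // Q *ᵥ y = 0} ≤ Nat.card {x // Q.map fst *ᵥ x = 0} ^ 2 := by
  have : Nonempty {y // Q *ᵥ y = 0} := ⟨⟨0, mulVec_zero _⟩⟩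
  let f := fun y : {y // Q *ᵥ y = 0} => fst ∘ y.1
  have k (y) : f (f.invFun (f y)) = f y := Function.invFun_eq ⟨y, rfl⟩
  rw [sq, ← Nat.card_prod]
  refine Nat.card_le_card_of_injective (fun y => (⟨f y, ((dual Q _).1 y.2).1⟩,
    ⟨snd ∘ y.1 - snd ∘ (f.invFun (f y)).1, ?_⟩)) fun y z e => ?_
  · have a := ((dual Q _).1 y.2).2
    have b := ((dual Q _).1 (f.invFun (f y)).2).2
    rw [show fst ∘ (f.invFun (f y)).1 = fst ∘ y.1 from k y] at b
    rw [mulVec_sub, sub_eq_zero]
    exact add_left_cancel (a.trans b.symm)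
  · simp only [Prod.mk.injEq, Subtype.mk.injEq] at e
    have := e.2
    rw [e.1, sub_left_inj] at this
    exact Subtype.ext (funext fun j => TrivSqZeroExt.ext (congrFun e.1 j) (congrFun this j))

theorem down [Finite R] (hs : Function.Surjective ρ) (hk : ∀ x, ρ x = 0 ↔ X ^ J ∣ x)
    (Q : Matrix n n (DualNumber R)) {l : ℕ} (hl : 2 * l ≤ J)
    (h : 2 ^ l ≤ Nat.card {x // Q.map fst *ᵥ x = 0}) : 2 ^ (2 * l) ≤ Nat.card {y // Q *ᵥ y = 0} := by
  have : Finite (DualNumber R) := inferInstanceAs (Finite (R × R))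
  have m (A : Matrix n n R) : (A.map (Function.surjInv hs)).map ρ = A :=
    Matrix.ext fun _ _ => Function.surjInv_eq hs _
  generalize e0 : (Q.map fst).map (Function.surjInv hs) = A
  have d : X ^ l ∣ A.det := by
    rcases l with _ | l
    · simp
    by_contra c
    have := (P004F.Alg.cnt_ps ρ hs hk A).1 l c
    rw [← e0, m, Nat.card_zmod] at this
    exact (h.trans this).not_gt (Nat.pow_lt_pow_right one_lt_two l.lt_succ_self)
  refine (low hk (2 * l) (fromBlocks A 0 ((Q.map snd).map (Function.surjInv hs)) A) 0 (by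
    rw [det_fromBlocks_zero₁₂, two_mul, pow_add]; exact mul_dvd_mul d d) hl).trans
    (Nat.card_le_card_of_injective (fun y => ⟨fun j => (y.1 (.inl j), y.1 (.inr j)), (dual Q _).2 ?_⟩)
      fun y z e => Subtype.ext (funext fun j => ?_))
  · obtain ⟨y, this, -⟩ := y
    rw [fromBlocks_map, ← e0, m, m, Matrix.map_zero _ (map_zero ρ), fromBlocks_mulVec,
      zero_mulVec, add_zero] at this
    exact ⟨funext fun j => congrFun this (.inl j), funext fun j => congrFun this (.inr j)⟩
  · have := fun j => congrFun (congrArg Subtype.val e) j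
    cases j
    exacts [congrArg fst (this _), congrArg snd (this _)]

/-- subgroups of `GL₂(𝔽₂)` without elements of order three -/
theorem cls : ∀ s : Matrix (Fin 2) (Fin 2) (ZMod 2), s.trace = 0 → s.det ≠ 0 → s ≠ 1 →
    ∃ C : Matrix (Fin 2) (Fin 2) (ZMod 2), C * C = 1 ∧ ∀ t : Matrix (Fin 2) (Fin 2) (ZMod 2),
      t.trace = 0 → t.det ≠ 0 → (s * t).trace = 0 → C * t * C = !![1, 0; (C * t * C) 1 0, 1] := by
  simp only [det_fin_two]
  decide

end Vale.Agent.P004R.Db
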