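import Vale.Agent.P004R.St
import Vale.Agent.P004S.Lt
import Vale.Agent.P004S.Bas3
import Vale.Agent.P022K.Cheb.Main

/-!
# P004R: primes with prescribed Frobenius elements and mutual symbols
-/

set_option autoImplicit false

open NumberField
open scoped NumberTheorySymbols Pointwise

noncomputable section

namespace Vale.Agent.P004R

open Vale.Agent.P022 (Qb GQ GK below IsConj IsFrob)
open Vale.Agent.P027M.S (Inert)
open Vale.Agent.P022D.W (dec)
open Vale.Agent.P022E.GW (Ov Fb)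
open Vale.Agent.P004S

namespace Cb

variable {l : ℕ} {P : Ideal (𝓞 Qb)}

/-- the sign of a residue class -/
def sz (a : ZMod 2) : ℤ := if a = 0 then 1 else -1

theorem sz_add (a b : ZMod 2) : sz (a + b) = sz a * sz b := by revert a b; decide

theorem sz_sum {ι : Type} (T : Finset ι) (f : ι → ZMod 2) :
    sz (∑ i ∈ T, f i) = ∏ i ∈ T, sz (f i) := by
  classical
  induction T using Finset.induction_on with
  | empty => simp [sz]
  | insert i T hi ih => rw [Finset.sum_insert hi, Finset.prod_insert hi, sz_add, ih]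

theorem sz_neg {a : ZMod 2} : sz a = -1 ↔ a = 1 := by revert a; decide

theorem sz_inj {a b : ZMod 2} (h : sz a = sz b) : a = b := by revert a b; decide

/-- the symbol is the value at the Frobenius element -/
theorem jac (h : Ov l P) (h2 : l ≠ 2) {d : ℤ} (hd : ¬ (l : ℤ) ∣ d) {φ : GQ} (hφ : Fb l P φ) :
    J(d | l) = sz (nu d φ) := by
  have := Fact.mk h.1
  have e := sg_frob h h2 hd hφ
  rw [jacobiSym.legendreSym.to_jacobiSym] at e
  refine Int.cast_injective (α := ℚ_[2]) ?_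
  rw [← e, sg, sz]
  split_ifs <;> simp

theorem two_not (h : Ov l P) (h2 : l ≠ 2) : (2 : 𝓞 Qb) ∉ P := fun k => by
  have := ov_dvd h (a := 2) (by exact_mod_cast k)
  exact h2 ((Nat.prime_dvd_prime_iff_eq h.1 Nat.prime_two).1 (by exact_mod_cast this))

theorem ex_ov (hl : l.Prime) : ∃ P, Ov l P := by
  have : (Ideal.span {(l : ℤ)}).IsPrime :=
    (Ideal.span_singleton_prime (by exact_mod_cast hl.ne_zero)).2 (Nat.prime_iff_prime_int.1 hl)
  obtain ⟨P, -, hP, h⟩ := Ideal.exists_ideal_over_prime_of_isIntegral (S := 𝓞 Qb)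
    (Ideal.span {(l : ℤ)}) ⊥ (by
      rw [Ideal.comap_bot_of_injective _ (algebraMap ℤ (𝓞 Qb)).injective_int]; exact bot_le)
  refine ⟨P, hl, hP, ?_⟩
  have : (l : ℤ) ∈ P.comap (algebraMap ℤ (𝓞 Qb)) := h ▸ Ideal.mem_span_singleton_self _
  simpa using this

/-- roots of unity of two-power order are distinct modulo an odd prime -/
theorem root_one (h : Ov l P) (h2 : l ≠ 2) (n : ℕ) :
    ∀ η : 𝓞 Qb, η ^ 2 ^ n = 1 → η - 1 ∈ P → η = 1 := by
  induction n with
  | zero => intro η e _; simpa using e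
  | succ n ih =>
    intro η e k
    have h1 : η ^ 2 = 1 := ih _ (by rw [← pow_mul, ← pow_succ', e])
      (by rw [show η ^ 2 - 1 = (η + 1) * (η - 1) by ring]; exact P.mul_mem_left _ k)
    rcases sq_eq_one_iff.1 h1 with a | a
    · exact a
    · refine (two_not h h2 ?_).elim
      rw [a] at k
      simpa [show (-1 - 1 : 𝓞 Qb) = -2 by ring] using k

theorem fx_mod (h : Ov l P) (h2 : l ≠ 2) {φ : GQ} (hφ : Fb l P φ) {n : ℕ}
    (hf : Fx {1} (2 ^ (n + 1)) φ) : l % 2 ^ (n + 1) = 1 := by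
  have p0 : 0 < 2 ^ (n + 1) := by positivity
  have : NeZero ((2 ^ (n + 1) : ℕ) : Qb) := ⟨by exact_mod_cast p0.ne'⟩
  obtain ⟨ζ, hζ⟩ := HasEnoughRootsOfUnity.exists_primitiveRoot Qb (2 ^ (n + 1))
  let z : 𝓞 Qb := ⟨ζ, hζ.isIntegral p0⟩
  have hz : IsPrimitiveRoot z (2 ^ (n + 1)) :=
    IsPrimitiveRoot.of_map_of_injective (f := algebraMap (𝓞 Qb) Qb) hζ
      RingOfIntegers.coe_injective
  have e : φ • z = z := RingOfIntegers.ext (hf ζ hζ.pow_eq_one)
  have k := hφ z
  obtain ⟨m, rfl⟩ : ∃ m, l = m + 1 := ⟨l - 1, by have := h.1.pos; omega⟩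
  rw [e, show z - z ^ (m + 1) = -z * (z ^ m - 1) by ring] at k
  rcases h.2.1.mem_or_mem k with a | a
  · refine (h.2.1.ne_top (P.eq_top_of_isUnit_mem a ?_)).elim
    exact (hz.isUnit p0.ne').neg
  · have := root_one h h2 (n + 1) _ (by rw [← pow_mul, mul_comm, pow_mul, hz.pow_eq_one, one_pow]) a
    obtain ⟨c, rfl⟩ := (hz.pow_eq_one_iff_dvd m).1 this
    rw [Nat.mul_add_mod]
    exact Nat.mod_eq_of_lt (Nat.one_lt_two_pow (by omega))

/-- the group of `Fx` -/
def fxg (A : Set Qb) (n : ℕ) : Subgroup GQ where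
  carrier := {g | Fx A n g}
  mul_mem' {g h} hg hh y hy := by rw [AlgEquiv.mul_apply, hh y hy, hg y hy]
  one_mem' _ _ := rfl
  inv_mem' {g} hg y hy := by
    have h : g⁻¹ (g y) = y := by rw [← AlgEquiv.mul_apply, inv_mul_cancel, AlgEquiv.one_apply]
    rwa [hg y hy] at h

theorem mem_fxg {A : Set Qb} {n : ℕ} {g : GQ} : g ∈ fxg A n ↔ Fx A n g := Iff.rfl

theorem fxg_open {A : Set Qb} (hA : A.Finite) {n : ℕ} (hn : 0 < n) :
    IsOpen (fxg A n : Set GQ) := by
  classical
  have f : {y : Qb | y ^ n ∈ A}.Finite := hA.preimage' (f := fun y : Qb => y ^ n) fun a _ =>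
    (Polynomial.nthRoots n a).toFinset.finite_toSet.subset fun y hy => by
      simpa [Polynomial.mem_nthRoots hn] using hy
  have := f.isOpen_biInter (f := fun y => (MulAction.stabilizer GQ y : Set GQ))
    fun y _ => stabilizer_isOpen_of_isIntegral (K := ℚ) y
  convert this using 1
  ext g
  simp only [Set.mem_iInter]
  rfl

/-- prescribed values of the quadratic characters -/
theorem ex_nu (X : Finset ℕ) (hX : ∀ x ∈ X, x.Prime ∧ x ≠ 2) (W : Subgroup GQ)
    (a : ℕ → ZMod 2) (hW : ∀ x ∈ X, a x ≠ 0 → ∀ P, Ov x P → ∀ g, Inert P g → g ∈ W) :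
    ∃ h ∈ W, ∀ x ∈ X, nu x h = a x := by
  classical
  suffices H : ∀ Y ⊆ X, ∃ h ∈ W, ∀ x ∈ X, nu x h = if x ∈ Y then a x else 0 by
    obtain ⟨h, h1, h2⟩ := H X subset_rfl
    exact ⟨h, h1, fun x hx => by rw [h2 x hx, if_pos hx]⟩
  intro Y
  induction Y using Finset.induction_on with
  | empty => exact fun _ => ⟨1, W.one_mem, fun x _ => by simp [nu_one]⟩
  | insert y Y hy ih =>
    intro hs
    have yX := hs (Finset.mem_insert_self y Y)
    obtain ⟨h, h1, h2⟩ := ih ((Finset.subset_insert y Y).trans hs)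
    rcases z2 (a y) with e | e
    · refine ⟨h, h1, fun x hx => ?_⟩
      rw [h2 x hx]
      by_cases k : x = y
      · simp [k, e]
      · simp [k]
    obtain ⟨Q, hQ⟩ := ex_ov (hX y yX).1
    obtain ⟨τ, hτ⟩ := P022E.GW.Tg.ex_gn' hQ
    refine ⟨h * τ, W.mul_mem h1 (hW y yX (e ▸ one_ne_zero) Q hQ τ hτ.1), fun x hx => ?_⟩
    rw [nu_mul, h2 x hx]
    by_cases k : x = y
    · subst k
      simp [hy, e, nu_gn hQ hτ]
    · rw [nu_inert hQ (hX y yX).2 (fun d => k ((Nat.prime_dvd_prime_iff_eq (hX y yX).1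
        (hX x hx).1).1 (by exact_mod_cast d)).symm) hτ.1]
      simp [k]

end Cb

open Cb in
theorem chb : CHB := by
  classical
  intro W T hW hn hT h2 h4 k
  induction k with
  | zero =>
    exact fun _ _ _ _ => ⟨Fin.elim0, Fin.elim0, Fin.elim0, fun i => i.elim0, fun i => i.elim0⟩
  | succ k ih =>
    intro g μ hg hμ
    obtain ⟨q, P, φ, hq, H⟩ := ih (fun i => g i.succ) (fun i i' => μ i.succ i'.succ)
      (fun i => hg _) fun i i' => hμ _ _
    have q2 : ∀ i, q i ≠ 2 := fun i e => (H i).1 (e ▸ h2)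
    obtain ⟨h, hh, hv⟩ := ex_nu (Finset.univ.image q) (fun x hx => by
      obtain ⟨i, -, rfl⟩ := Finset.mem_image.1 hx
      exact ⟨(H i).2.1.1, q2 i⟩) W
      (fun x => nu x (g 0) + if ∃ i, q i = x ∧ μ 0 i.succ then 1 else 0) fun x hx _ Q hQ t ht => by
      obtain ⟨i, -, rfl⟩ := Finset.mem_image.1 hx
      exact hT _ Q hQ (H i).1 t ht
    have oV : IsOpen ((W ⊓ ⨅ i, kn (q i) : Subgroup GQ) : Set GQ) := by
      rw [Subgroup.coe_inf, Subgroup.coe_iInf]
      exact hW.inter (isOpen_iInter_of_finite fun i => kn_open _)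
    obtain ⟨l, ψ, hl, lT, ⟨Q, Q1, Q2, hψ⟩, hO⟩ := P022K.Cheb.exists_fr
      (oV.preimage (f := fun x => (g 0 * h)⁻¹ * x) (continuous_const.mul continuous_id))
      (g := g 0 * h) (by simp [one_mem]) (T ∪ Finset.univ.image q)
    have hQ : Ov l Q := ⟨hl, Q1, Q2⟩
    rw [Finset.mem_union, not_or] at lT
    have lq : ∀ i, q i ≠ l := fun i e => lT.2 (Finset.mem_image.2 ⟨i, Finset.mem_univ _, e⟩)
    have l2 : l ≠ 2 := fun e => lT.1 (e ▸ h2)
    obtain ⟨o1, o2⟩ := Subgroup.mem_inf.1 hO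
    have w1 : (g 0)⁻¹ * ψ ∈ W := by simpa [mul_assoc] using W.mul_mem hh o1
    have l4 : l % 4 = 1 := fx_mod (n := 1) hQ l2 hψ (by
      have := (fxg {1} 4).mul_mem (hg 0) (h4 _ w1)
      rwa [mul_inv_cancel_left] at this)
    have s1 : ∀ i, J(q i | l) = -1 ↔ μ 0 i.succ := fun i => by
      have a := mem_kn.1 (Subgroup.mem_iInf.1 o2 i)
      have b := hv (q i) (Finset.mem_image_of_mem _ (Finset.mem_univ i))
      rw [nu_mul, nu_inv, nu_mul, b, ← add_assoc, CharTwo.add_self_eq_zero, zero_add,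
        CharTwo.add_eq_zero] at a
      rw [jac hQ l2 (fun d => lq i ((Nat.prime_dvd_prime_iff_eq hl (H i).2.1.1).1
        (by exact_mod_cast d)).symm) hψ, sz_neg, ← a]
      simp [hq.eq_iff]
    have s2 : ∀ i, J(l | q i) = J(q i | l) := fun i =>
      jacobiSym.quadratic_reciprocity_one_mod_four l4 ((H i).2.1.1.odd_of_ne_two (q2 i))
    refine ⟨Fin.cons l q, Fin.cons Q P, Fin.cons ψ φ, ?_, fun i => ?_⟩
    · exact Fin.cons_injective_iff.2 ⟨fun ⟨i, e⟩ => lq i e, hq⟩
    induction i using Fin.cases with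
    | zero =>
      refine ⟨lT.1, hQ, hψ, w1, fun i' => ?_⟩
      induction i' using Fin.cases with
      | zero => exact fun e => absurd rfl e
      | succ i' => exact fun _ => by simpa [s2] using s1 i'
    | succ i =>
      obtain ⟨a, b, c, d, e⟩ := H i
      refine ⟨a, b, c, d, fun i' => ?_⟩
      induction i' using Fin.cases with
      | zero => exact fun _ => (s1 i).trans ⟨hμ _ _, hμ _ _⟩
      | succ i' => exact fun n => e i' fun x => n (x ▸ rfl)

end Vale.Agent.P004R
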