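import Vale.Agent.P004K.Defs

/-!
# P004R (the anchor for a rational point of order two): analytic and ideal theoretic rows
-/

set_option autoImplicit false

open UpperHalfPlane NumberField Filter Topology Module
open scoped Real

noncomputable section

namespace Vale.Agent.P004R

open P027H P027M.M P004K
open NumberField.Units (regulator torsion)

/-! ### the limit formula, the unit on `X₀(2)` -/

/-- the discriminant of a lattice -/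
def DL (Λ : Submodule ℤ ℂ) : ℂ := g2 Λ ^ 3 - 27 * g3 Λ ^ 2

/-- the Epstein zeta function (the term `x = 0` is zero) -/
def Ze (τ : ℍ) (s : ℝ) : ℝ := ∑' x : ℤ × ℤ, τ.im ^ s / ‖(x.1 : ℂ) * τ + x.2‖ ^ (2 * s)

/-- `log (y ^ 6 |Δ|)` -/
def Gl (τ : ℍ) : ℝ := Real.log (τ.im ^ 6 * ‖DL (lat τ)‖)

/-- **the first limit formula of Kronecker**, for differences -/
def KLF : Prop := ∀ τ τ' : ℍ, Tendsto (fun s : ℝ => Ze τ s - Ze τ' s) (𝓝[>] 1)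
  (𝓝 (-(π / 6) * (Gl τ - Gl τ')))

/-- `Δ(τ) / Δ(2 τ)` -/
def s2 (τ : ℍ) : ℂ := DL (lat τ) / DL (lat (ofComplex (2 * τ)))

/-- the parameter of `X₀(2)` -/
def VEL : Prop := ∀ τ : ℍ, s2 τ ≠ 0 ∧ jL (lat τ) * s2 τ ^ 2 = (s2 τ + 256) ^ 3 ∧
  jL (lat (ofComplex (2 * τ))) * s2 τ = (s2 τ + 16) ^ 3 ∧
  ∀ (σ : ℂ ≃+* ℂ) (τ' : ℍ), Cj0 σ 2 τ τ' → s2 τ' = σ (s2 τ)

/-! ### abelian groups -/

/-- the squares -/
abbrev sq (A : Type) [CommGroup A] : Subgroup A := (powMonoidHom 2 : A →* A).range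

/-- the relative ray class group, abstract form -/
def ABS : Prop := ∀ (X I G : Type) [CommGroup X] [CommGroup I] [CommGroup G] [Finite G]
  (d : X →* I) (ρ : X →* G) (sX : X →* X) (sI : I →* I) (sG : G →* G) (X' C : Subgroup X)
  (I' S : Subgroup I) (G' : Subgroup G) (m : ℕ), (∀ x, d (sX x) = sI (d x)) →
  (∀ x, ρ (sX x) = sG (ρ x)) → (∀ a ∈ I', sI a ∈ I') → (∀ g ∈ G', sG g ∈ G') →
  (∀ a, a * sI^[2 ^ m] a ∈ I') → (∀ g, g * sG^[2 ^ m] g ∈ G') → X'.map d ≤ I' → X'.map ρ ≤ G' →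
  C ≤ d.ker → S ≤ I' → (∀ a : I, a ^ 2 = 1 → a = 1) → d.range.index ≠ 0 →
  ∀ x y : ℕ, (sq d.ker).index = x → (sq I).relIndex (S ⊔ sq I) = y → x ≠ 0 → y ≠ 0 →
  (sq G).index ≤ x * y →
  ∀ z : ℕ, (sq X).relIndex ((S ⊔ sq I).comap d ⊓ (sq G).comap ρ) = z → z ≠ 0 ∧ (z < 2 ^ 2 ^ m →
    ∃ b o : ℕ, 2 ^ b ≤ z ∧ Odd o ∧ (G' ⊔ C.map ρ).index * d.range.index ∣
      2 ^ b * o * (((X' ⊓ d.ker) ⊔ C).relIndex d.ker * (X'.map d).relIndex I'))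

/-! ### a cyclic pair of number fields -/

section pair

variable (F : Type) {H : Type} [Field F] [NumberField F] [Field H] [NumberField H] [Algebra F H]
  (σ : H ≃ₐ[ℚ] H) (M : ℕ)

/-- `σ` has order `2 M`, `F` is the fixed field of `σ ^ M`, the fixed field of `σ` is imaginary
quadratic -/
structure Cp : Prop where
  pow : ∃ m, M = 2 ^ (m + 1)
  ord : σ ^ (2 * M) = 1
  fix : ∀ x, (σ ^ M) x = x ↔ x ∈ Set.range (algebraMap F H)
  deg : finrank ℚ H = 4 * M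
  deg' : finrank ℚ F = 2 * M
  cx : IsTotallyComplex F
  inf : ∀ w w' : InfinitePlace H, ∃ i : ℕ, ∀ x, w' x = w ((σ ^ i) x)
  tor : ∀ u ∈ torsion H, u = 1 ∨ u = -1

/-- the action on the units -/
def ua : (𝓞 H)ˣ →* (𝓞 H)ˣ := Units.map (MulSemiringAction.toRingHom _ (𝓞 H) σ)

/-- the group generated by the units of `F` and the conjugates of `u` -/
def CU (u : (𝓞 H)ˣ) : Subgroup (𝓞 H)ˣ :=
  (Units.map (algebraMap (𝓞 F) (𝓞 H) : 𝓞 F →* 𝓞 H)).range ⊔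
    Subgroup.closure (Set.range fun i : ℕ => ua (σ ^ i) u)

/-- the character sums of the logarithms -/
def Lg (w : InfinitePlace H) (u : H) (k : ℕ) : ℂ :=
  ∑ i ∈ Finset.range (2 * M), ze (2 * M) (k * i) * (2 * Real.log (w ((σ ^ i) u)) : ℝ)

variable {F}

variable (H) in
/-- the extension of ideals -/
abbrev up (w : Ideal (𝓞 F)) : Ideal (𝓞 H) := w.map (algebraMap (𝓞 F) (𝓞 H))

/-- `l = w w'` in `F`, both factors stay prime in `H` -/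
structure Ip (l : ℕ) (w w' : Ideal (𝓞 F)) : Prop where
  pr : l.Prime
  mul : w * w' = Ideal.span {(l : 𝓞 F)}
  cop : w ⊔ w' = ⊤
  nm : Ideal.absNorm w = l ^ M
  pw : (up H w).IsPrime
  pw' : (up H w').IsPrime
  st : ∀ x ∈ up H w, σ • x ∈ up H w

/-- the places: `v`, `w i` (strict) and `v'`, `w' i` (relaxed) -/
structure Pd {ι : Type} (p : ι → ℕ) (v v' : Ideal (𝓞 F)) (w w' : ι → Ideal (𝓞 F)) : Prop where
  cp : Cp F σ M
  two : Ip σ M 2 v v'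
  odd : ∀ i, p i ≠ 2 ∧ Ip σ M (p i) (w i) (w' i)
  inj : Function.Injective p

variable (H) in
/-- the modulus -/
def md {ι : Type} [Fintype ι] (v : Ideal (𝓞 F)) (w : ι → Ideal (𝓞 F)) : Ideal (𝓞 H) :=
  up H v ^ 5 * ∏ i, up H (w i)

variable (F) in
/-- the classes which come from `F` -/
def Gp (𝔪 : Ideal (𝓞 H)) : Subgroup (𝓞 H ⧸ 𝔪)ˣ := Subgroup.closure
  {g | ∃ a : 𝓞 F, (g : 𝓞 H ⧸ 𝔪) = Ideal.Quotient.mk 𝔪 (algebraMap (𝓞 F) (𝓞 H) a)}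

/-- `u ^ o = 1 + 16 x` modulo `v ^ 5` and `(σ - 1) ^ r x` comes from `F` modulo `v` -/
def Dp (v : Ideal (𝓞 F)) (u : (𝓞 H)ˣ) (r : ℕ) : Prop := ∃ (o : ℕ) (x : 𝓞 H) (y : 𝓞 F), Odd o ∧
  (u : 𝓞 H) ^ o - 1 - 16 * x ∈ up H v ^ 5 ∧
  (fun z : 𝓞 H => σ • z - z)^[r] x - algebraMap (𝓞 F) (𝓞 H) y ∈ up H v

/-- `x` is the square of a unit modulo `𝔪`, and has even valuation outside `J` -/
def Ad (𝔪 J : Ideal (𝓞 H)) (x : 𝓞 H) : Prop :=
  (∃ y : 𝓞 H, Ideal.span {y} ⊔ 𝔪 = ⊤ ∧ x - y ^ 2 ∈ 𝔪) ∧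
    ∃ (A B : Ideal (𝓞 H)) (n : ℕ), Ideal.span {x} = A ^ 2 * B ∧ B ∣ J ^ n

end pair

/-- the index of the group of units -/
def REG : Prop := ∀ (F H : Type) [Field F] [NumberField F] [Field H] [NumberField H] [Algebra F H]
  (σ : H ≃ₐ[ℚ] H) (M : ℕ), Cp F σ M → ∀ (w : InfinitePlace H) (u : (𝓞 H)ˣ),
  2 * (CU F σ u).index * regulator H =
    regulator F * ‖∏ k ∈ Finset.range M, Lg σ M w (u : 𝓞 H) (2 * k + 1)‖

/-- the local indices -/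
def LOC : Prop := ∀ (F H : Type) [Field F] [NumberField F] [Field H] [NumberField H] [Algebra F H]
  (σ : H ≃ₐ[ℚ] H) (M : ℕ) (ι : Type) [Fintype ι] (p : ι → ℕ) (v v' : Ideal (𝓞 F))
  (w w' : ι → Ideal (𝓞 F)), Pd σ M p v v' w w' →
  (sq (𝓞 H ⧸ md H v w)ˣ).index ≤ 2 ^ (2 * M + 1 + Fintype.card ι) ∧
  ∀ (u : (𝓞 H)ˣ) (r : ℕ), 1 ≤ r → Dp σ v u r → 2 ^ (4 * M + Fintype.card ι) ∣ 2 ^ r *
    (Gp F (md H v w) ⊔ (CU F σ u).map
      (Units.map (Ideal.Quotient.mk (md H v w) : 𝓞 H →* 𝓞 H ⧸ md H v w))).index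

/-- **the lower bound for the Selmer group** -/
def BT : Prop := ∀ (F H : Type) [Field F] [NumberField F] [Field H] [NumberField H] [Algebra F H]
  (σ : H ≃ₐ[ℚ] H) (M : ℕ) (ι : Type) [Fintype ι] (p : ι → ℕ) (v v' : Ideal (𝓞 F))
  (w w' : ι → Ideal (𝓞 F)), Pd σ M p v v' w w' → ∀ (u : (𝓞 H)ˣ) (r : ℕ), 1 ≤ r → Dp σ v u r →
  (CU F σ u).index ≠ 0 → ∀ (Z : Type) [Finite Z] (κ : 𝓞 H → Z),
  (∀ a b, Ad (md H v w) (md H v' w') a → Ad (md H v w) (md H v' w') b → κ a = κ b →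
    IsSquare ((a : H) * b)) → Nat.card Z < 2 ^ M → ∃ b : ℕ, 2 ^ b ≤ Nat.card Z ∧
    4 * M + Fintype.card ι + padicValNat 2 (classNumber H) ≤
      b + r + padicValNat 2 ((CU F σ u).index * classNumber F)

/-- from ideals to abelian groups -/
def INS : Prop := ABS → LOC → BT

end Vale.Agent.P004R
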