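import Vale.Agent.P004R.Klf0
import Vale.Agent.P004R.St0

/-!
# P004R: the row KLF
-/

set_option autoImplicit false

open UpperHalfPlane hiding I
open Filter Topology MeasureTheory Set Complex
open scoped Real

noncomputable section

namespace Vale.Agent.P004R

open P027H P027M.M P004K

namespace Kl

variable {τ : ℍ} {s : ℝ} {m : ℤ}

/-- the terms of the series -/
def gg (τ : ℍ) (k : ℝ) (x : ℤ × ℤ) : ℝ := ‖(x.1 : ℂ) * τ + x.2‖ ^ (-k)

/-- the integrals -/
def BB (τ : ℍ) (s : ℝ) (x : ℤ × ℤ) : ℝ :=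
  if x.1 = 0 then 0 else ∫ t in (0 : ℝ)..1, fz ((x.1 : ℂ) * τ + x.2) s t

/-- the differences -/
def AA (τ : ℍ) (s : ℝ) (x : ℤ × ℤ) : ℝ := gg τ (2 * s) x - BB τ s x

/-- the zeta function -/
def ZZ (s : ℝ) : ℝ := ∑' n : ℕ, 1 / (n : ℝ) ^ s

theorem sum_gg (τ : ℍ) {k : ℝ} (hk : 2 < k) : Summable (gg τ k) :=
  (finTwoArrowEquiv ℤ).summable_iff.1 (((EisensteinSeries.summable_one_div_norm_rpow hk).mul_left
    _).of_nonneg_of_le (fun _ => Real.rpow_nonneg (norm_nonneg _) _)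
      (EisensteinSeries.summand_bound τ (by linarith)))

theorem im_eq (m : ℤ) (τ : ℍ) : ((m : ℂ) * τ).im = m * τ.im := by simp

theorem im_ne (hm : m ≠ 0) (τ : ℍ) : ((m : ℂ) * τ).im ≠ 0 :=
  im_eq m τ ▸ mul_ne_zero (Int.cast_ne_zero.2 hm) τ.im_pos.ne'

theorem gg_zero (τ : ℍ) (k : ℝ) (n : ℤ) : gg τ k (0, n) = |(n : ℝ)| ^ (-k) := by simp [gg]

theorem dom (τ : ℍ) : ∃ b : ℤ × ℤ → ℝ, Summable b ∧ ∀ s ∈ Icc (1 : ℝ) 2, ∀ x, ‖AA τ s x‖ ≤ b x := by
  obtain ⟨C, hC⟩ := bound τ.im_pos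
  have S : Summable fun x : ℤ × ℤ => if x.1 = 0 then |(x.2 : ℝ)| ^ (-2 : ℝ) else 0 :=
    ((Prod.mk_right_injective (0 : ℤ)).summable_iff fun x hx =>
      if_neg fun e => hx ⟨x.2, Prod.ext e.symm rfl⟩).1
        ((Real.summable_abs_int_rpow one_lt_two).congr fun n => by simp)
  refine ⟨_, S.add ((sum_gg τ (k := 3) (by norm_num)).mul_left |C|), fun s hs ⟨m, n⟩ => ?_⟩
  have p : 0 ≤ gg τ 3 (m, n) := Real.rpow_nonneg (norm_nonneg _) _
  rcases eq_or_ne m 0 with rfl | h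
  · simp only [AA, BB, if_true, sub_zero, gg_zero τ (2 * s)]
    rw [Real.norm_of_nonneg (by positivity)]
    refine le_add_of_le_of_nonneg ?_ (by positivity)
    rcases eq_or_ne n 0 with rfl | h
    · rw [Int.cast_zero, abs_zero, Real.zero_rpow (by linarith [hs.1])]
      positivity
    · exact Real.rpow_le_rpow_of_exponent_le (by exact_mod_cast Int.one_le_abs h)
        (by linarith [hs.1])
  · simp only [AA, BB, if_neg h, zero_add]
    refine (hC _ ?_ s hs).trans (mul_le_mul_of_nonneg_right (le_abs_self C) p)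
    rw [add_im, intCast_im, add_zero, im_eq, abs_mul, abs_of_pos τ.im_pos]
    exact le_mul_of_one_le_left τ.im_pos.le (by exact_mod_cast Int.one_le_abs h)

theorem cont_AA (τ : ℍ) (x : ℤ × ℤ) : ContinuousAt (fun s => AA τ s x) 1 := by
  refine .sub ((Real.continuousAt_const_rpow' (by norm_num)).comp (f := fun s : ℝ => -(2 * s))
    (by fun_prop)) ?_
  unfold BB
  split_ifs with h
  · exact continuousAt_const
  · exact (intervalIntegral.continuous_parametric_intervalIntegral_of_continuous'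
      (cont_fz (by simpa only [add_im, intCast_im, add_zero] using im_ne h τ)) 0 1).continuousAt

theorem sum_BB (τ : ℍ) (hs : 1 ≤ s) (m : ℤ) :
    HasSum (fun n => BB τ s (m, n)) (|m * τ.im| ^ (1 - 2 * s) * II s) := by
  rcases eq_or_ne m 0 with rfl | h
  · simp [BB, Real.zero_rpow (show 1 - 2 * s ≠ 0 by linarith)]
  · simpa only [BB, if_neg h, im_eq] using sum_fz (im_ne h τ) hs

theorem Ze_eq (τ : ℍ) (hs : s ∈ Ioo (1 : ℝ) 2) :
    Ze τ s - 2 * II s * ZZ (2 * s - 1) * τ.im ^ (1 - s) = τ.im ^ s * ∑' x, AA τ s x := by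
  obtain ⟨b, b1, b2⟩ := dom τ
  have a := (sum_gg τ (k := 2 * s) (by linarith [hs.1])).hasSum.sub
    (b1.of_norm_bounded (b2 s (Ioo_subset_Icc_self hs))).hasSum
  simp only [AA, sub_sub_cancel] at a
  have z := ((Real.summable_one_div_nat_rpow.2 (show 1 < 2 * s - 1 by
    linarith [hs.1])).hasSum.mul_right (τ.im ^ (1 - 2 * s))).mul_right (II s)
  have e : ∀ n : ℕ, |(n : ℝ) * τ.im| ^ (1 - 2 * s) = 1 / (n : ℝ) ^ (2 * s - 1) * τ.im ^ (1 - 2 * s) :=
    fun n => by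
      rw [abs_of_nonneg (mul_nonneg n.cast_nonneg τ.im_pos.le), Real.mul_rpow n.cast_nonneg
        τ.im_pos.le, one_div, ← Real.rpow_neg n.cast_nonneg, neg_sub]
  have k := (a.prod_fiberwise (sum_BB τ hs.1.le)).unique (.of_nat_of_neg
    (z.congr_fun fun n => by rw [Int.cast_natCast, e])
    (z.congr_fun fun n => by rw [Int.cast_neg, neg_mul, abs_neg, Int.cast_natCast, e]))
  rw [Int.cast_zero, zero_mul, abs_zero, Real.zero_rpow (by linarith [hs.1]), ← ZZ] at k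
  have g : Ze τ s = τ.im ^ s * ∑' x, gg τ (2 * s) x := by
    simp only [Ze, gg, ← tsum_mul_left, Real.rpow_neg (norm_nonneg _), div_eq_mul_inv]
  rw [g, show 1 - s = s + (1 - 2 * s) by ring, Real.rpow_add τ.im_pos]
  simp only [AA]
  linear_combination τ.im ^ s * k

theorem val_one (τ : ℍ) :
    τ.im * ∑' x, AA τ 1 x = -(π / 6) * Real.log ‖ModularForm.discriminant τ‖ := by
  obtain ⟨b, b1, b2⟩ := dom τ
  obtain ⟨L, l1, l2⟩ := lam τ
  have S := b1.of_norm_bounded (b2 1 ⟨le_rfl, one_le_two⟩)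
  have y0 := τ.im_pos.ne'
  have f : ∀ m, HasSum (fun n => gg τ (2 * 1) (m, n))
      (∑' n, AA τ 1 (m, n) + π / |m * τ.im|) := fun m => by
    have k := (S.prod_factor m).hasSum.add (sum_BB τ le_rfl m)
    rw [II_one, show (1 : ℝ) - 2 * 1 = -1 by norm_num, Real.rpow_neg_one, inv_mul_eq_div] at k
    simpa only [AA, sub_add_cancel] using k
  have f0 : ∑' n, AA τ 1 (0, n) = π ^ 2 / 3 := by
    have e : ∀ n : ℕ, |(n : ℝ)| ^ (-(2 * 1) : ℝ) = 1 / (n : ℝ) ^ 2 := fun n => by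
      rw [mul_one, Real.rpow_neg (abs_nonneg _), Real.rpow_two, sq_abs, one_div]
    have k := (f 0).unique (.of_nat_of_neg
      (hasSum_zeta_two.congr_fun fun n => by rw [gg_zero, Int.cast_natCast, e])
      (hasSum_zeta_two.congr_fun fun n => by rw [gg_zero, Int.cast_neg, abs_neg, Int.cast_natCast, e]))
    rw [gg_zero, Int.cast_zero, zero_mul, abs_zero, div_zero, Real.zero_rpow (by norm_num)] at k
    linear_combination k
  have f1 : ∀ m, ∑' n, AA τ 1 (-m, n) = ∑' n, AA τ 1 (m, n) := fun m => by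
    have k := (f (-m)).unique (((Equiv.neg ℤ).hasSum_iff.2 (f m)).congr_fun fun n => by
      simp only [gg, Function.comp, Equiv.neg_apply, Int.cast_neg]
      rw [← norm_neg, neg_mul, neg_add, neg_neg])
    rwa [Int.cast_neg, neg_mul, abs_neg, add_left_inj] at k
  have f2 : ∀ m : ℕ, ∑' n, AA τ 1 ((m + 1 : ℕ), n) = 2 * π / τ.im * ((cexp (2 * π * I * τ) ^ (m + 1) /
      (1 - cexp (2 * π * I * τ) ^ (m + 1))).re / (m + 1)) := fun m => by
    have p : 0 < (((m + 1 : ℕ) : ℤ) : ℝ) * τ.im := mul_pos (by positivity) τ.im_pos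
    have k := cot_sum ⟨((m + 1 : ℕ) : ℤ) * τ, by rwa [im_eq]⟩ (f (m + 1 : ℕ))
    simp only [mk_im, im_eq, abs_of_pos p, add_sub_cancel_right] at k
    rw [mul_left_comm _ (_ : ℂ), Int.cast_natCast, Int.cast_natCast, Complex.exp_nat_mul] at k
    rw [k]
    push_cast
    field_simp
  have k := ((hasSum_nat_add_iff' 1).2 (S.hasSum.prod_fiberwise fun m =>
    (S.prod_factor m).hasSum).nat_add_neg).unique ((l1.mul_left (4 * π / τ.im)).congr_fun fun m => by
      rw [f1, f2]; ring)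
  rw [Finset.sum_range_one, Nat.cast_zero, neg_zero, f0] at k
  rw [l2, show ∑' x, AA τ 1 x = π ^ 2 / 3 + 4 * π / τ.im * L by linear_combination k]
  field_simp
  ring

theorem one (τ : ℍ) : Tendsto (fun s => Ze τ s - 2 * II s * ZZ (2 * s - 1) * τ.im ^ (1 - s)) (𝓝[>] 1)
    (𝓝 (-(π / 6) * Real.log ‖ModularForm.discriminant τ‖)) := by
  obtain ⟨b, b1, b2⟩ := dom τ
  have e : ∀ᶠ s in 𝓝[>] (1 : ℝ), s ∈ Ioo (1 : ℝ) 2 := Ioo_mem_nhdsGT one_lt_two
  have k := (((Real.continuousAt_const_rpow (b := 1) τ.im_pos.ne').tendsto.mono_left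
    nhdsWithin_le_nhds).mul (tendsto_tsum_of_dominated_convergence b1
      (fun x => (cont_AA τ x).tendsto.mono_left nhdsWithin_le_nhds)
      (e.mono fun s hs => b2 s (Ioo_subset_Icc_self hs))))
  rw [Real.rpow_one, val_one] at k
  exact k.congr' (e.mono fun s hs => (Ze_eq τ hs).symm)

theorem two {y : ℝ} (hy : 0 < y) : Tendsto (fun s => 2 * II s * ZZ (2 * s - 1) * (y ^ (1 - s) - 1))
    (𝓝[>] 1) (𝓝 (-π * Real.log y)) := by
  have a : Tendsto (fun s : ℝ => 2 * s - 1) (𝓝[>] 1) (𝓝[>] 1) :=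
    tendsto_nhdsWithin_iff.2 ⟨(Continuous.tendsto' (by fun_prop) 1 1 (by norm_num)).mono_left
      nhdsWithin_le_nhds, eventually_nhdsWithin_of_forall fun s (h : 1 < s) =>
        show 1 < 2 * s - 1 by linarith⟩
  have b := (((hasDerivAt_id (1 : ℝ)).const_sub 1).const_rpow hy).tendsto_slope.mono_left
    (nhdsGT_le_nhdsNE 1)
  have k := (II_lim.mul (tendsto_sub_mul_tsum_nat_rpow.comp a)).mul b
  simp only [id, sub_self, Real.rpow_zero, mul_one, mul_neg, ← neg_mul] at k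
  refine k.congr' (eventually_nhdsWithin_of_forall fun s (h : 1 < s) => ?_)
  have := (sub_pos.2 h).ne'
  simp only [Function.comp, slope_def_field, sub_self, Real.rpow_zero, ZZ]
  field_simp
  ring

theorem DL_eq (τ : ℍ) : DL (lat τ) = (2 * π) ^ 12 * ModularForm.discriminant τ := by
  have e : lat τ = (P014G.mkPP 1 one_ne_zero τ).lattice := by
    simp [lat, pp, P014G.mkPP, PeriodPair.lattice]
  rw [DL, e, g2_lat, g3_lat, P014G.g2_mk, P014G.g3_mk,
    ModularForm.discriminant_eq_E₄_cube_sub_E₆_sq]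
  ring

theorem Gl_eq (τ : ℍ) : Gl τ = 6 * Real.log τ.im + (Real.log ‖(2 * π : ℂ) ^ 12‖ +
    Real.log ‖ModularForm.discriminant τ‖) := by
  have a : ‖(2 * π : ℂ) ^ 12‖ ≠ 0 := by simp [Real.pi_ne_zero]
  have b := norm_ne_zero_iff.2 (ModularForm.discriminant_ne_zero τ)
  rw [Gl, DL_eq, norm_mul, Real.log_mul (pow_pos τ.im_pos 6).ne' (mul_ne_zero a b),
    Real.log_mul a b, Real.log_pow, Nat.cast_ofNat]

end Kl

open Kl

/-- **KLF** -/
theorem klf : KLF := fun τ τ' => by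
  have k := ((one τ).add (two τ.im_pos)).sub ((one τ').add (two τ'.im_pos))
  rw [Gl_eq, Gl_eq]
  convert k using 2 <;> ring

end Vale.Agent.P004R
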