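import Vale.Agent.P004R.St0

/-!
# P004R: the index of the group of units
-/

set_option autoImplicit false

open NumberField NumberField.InfinitePlace Module Matrix Set
open NumberField.Units (regulator torsion fundSystem rank)

namespace Vale.Agent.P004R

open P027M.M

namespace Rg

/-- the index of a family of units, indexed by the places -/
theorem key (K : Type) [Field K] [NumberField K] {ι : Type} [Fintype ι] [DecidableEq ι]
    (p : ι ≃ InfinitePlace K) (i₀ : ι) (U : ι → (𝓞 K)ˣ) (h : U i₀ = 1) :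
    finrank ℚ K * (((Subgroup.closure (range U) ⊔ torsion K).index : ℝ) * regulator K) =
      |(of fun i j => if i = i₀ then ((p j).mult : ℝ) else (p j).mult * (p j (U i)).log).det| := by
  classical
  have e : {w // w ≠ p i₀} ≃ Fin (rank K) := Fintype.equivOfCardEq <| by
    rw [Fintype.card_subtype_compl, Fintype.card_subtype_eq, Fintype.card_fin, Units.rank]
  have c : Subgroup.closure (range fun k => U (p.symm (e.symm k))) = Subgroup.closure (range U) :=
    le_antisymm (Subgroup.closure_mono (range_subset_iff.2 fun _ => mem_range_self _))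
      ((Subgroup.closure_le _).2 (range_subset_iff.2 fun i => by
        rcases eq_or_ne i i₀ with rfl | hi
        · exact h ▸ one_mem _
        · exact Subgroup.subset_closure ⟨e ⟨p i, p.injective.ne hi⟩, by simp⟩))
  rw [← c, ← Units.regOfFamily_div_regulator, div_mul_cancel₀ _ (Units.regulator_ne_zero K),
    Units.finrank_mul_regOfFamily_eq_det _ (p i₀) e, ← det_submatrix_equiv_self p]
  congr 2
  ext i j
  simp

theorem ex_fund (K : Type) [Field K] [NumberField K] {ι : Type} (p : ι ≃ InfinitePlace K) (i₀ : ι) :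
    ∃ U : ι → (𝓞 K)ˣ, U i₀ = 1 ∧ Subgroup.closure (range U) ⊔ torsion K = ⊤ := by
  classical
  have e : {w // w ≠ p i₀} ≃ Fin (rank K) := Fintype.equivOfCardEq <| by
    rw [Fintype.card_subtype_compl, Fintype.card_subtype_eq, Fintype.card_fin, Units.rank]
  refine ⟨fun i => if h : p i = p i₀ then 1 else fundSystem K (e ⟨p i, h⟩), dif_pos rfl, ?_⟩
  rw [eq_top_iff, ← Units.closure_fundSystem_sup_torsion_eq_top]
  refine sup_le_sup_right (Subgroup.closure_mono ?_) _
  rintro _ ⟨k, rfl⟩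
  exact ⟨p.symm (e.symm k), by simp [(e.symm k).2]⟩

theorem det_blk {ι : Type} [Fintype ι] [DecidableEq ι] (L P Q : Matrix ι ι ℝ) :
    |(fromBlocks L L P Q).det| = |L.det| * |(P - Q).det| := by
  have : fromBlocks L L P Q = fromBlocks L 0 P (-(P - Q)) * fromBlocks 1 1 0 1 := by
    simp [fromBlocks_multiply]
  rw [this, det_mul, det_fromBlocks_zero₁₂, det_fromBlocks_zero₂₁, det_one, mul_one, mul_one,
    abs_mul, det_neg, abs_mul, abs_neg_one_pow, one_mul]

theorem sum_shift {f : ℕ → ℂ} {N : ℕ} (h : ∀ n, f (n + N) = f n) (i : ℕ) :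
    ∑ j ∈ Finset.range N, f (i + j) = ∑ j ∈ Finset.range N, f j := by
  induction i with
  | zero => simp
  | succ i ih =>
    have a := Finset.sum_range_succ (fun j => f (i + j)) N
    rw [Finset.sum_range_succ', h, add_zero, add_left_inj] at a
    rw [← ih, ← a]
    exact Finset.sum_congr rfl fun j _ => by rw [add_assoc, add_comm 1]

/-- the determinant of an antiperiodic circulant matrix -/
theorem det_circ {M : ℕ} {ζ : ℂ} (hζ : IsPrimitiveRoot ζ (2 * M)) {x : ℕ → ℝ}
    (h : ∀ n, x (n + 2 * M) = x n) :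
    |(of fun i j : Fin M => x (i + j) - x (i + (j + M))).det| =
      ‖∏ k ∈ Finset.range M, ∑ i ∈ Finset.range (2 * M), ζ ^ ((2 * k + 1) * i) * x i‖ := by
  rcases Nat.eq_zero_or_pos M with rfl | M0
  · simp
  have n1 : ‖ζ‖ = 1 := hζ.norm'_eq_one (by omega)
  have z0 : ζ ≠ 0 := hζ.ne_zero (by omega)
  have zM : ζ ^ M = -1 := (hζ.pow (by omega) (mul_comm _ _)).eq_neg_one_of_two_right
  set V : Matrix (Fin M) (Fin M) ℂ := (vandermonde fun k : Fin M => ζ ^ (2 * k + 1 : ℕ))ᵀ with hV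
  have V0 : V.det ≠ 0 := by
    rw [hV, det_transpose, det_vandermonde_ne_zero_iff]
    exact fun k l e => Fin.ext (by have := hζ.pow_inj (by omega) (by omega) e; omega)
  have E : (of fun i j : Fin M => x (i + j) - x (i + (j + M))).map Complex.ofRealHom * V =
      of fun i k : Fin M => (∑ i ∈ Finset.range (2 * M), ζ ^ ((2 * k + 1) * i) * x i) *
        V.map (starRingEnd ℂ) i k := by
    ext i k
    have c : (starRingEnd ℂ) (ζ ^ ((2 * k + 1) * i : ℕ)) * ζ ^ ((2 * k + 1) * i : ℕ) = 1 := by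
      rw [Complex.conj_mul', norm_pow, n1]; simp
    have s := sum_shift (f := fun n => ζ ^ ((2 * k + 1) * n) * x n) (N := 2 * M) (fun n => by
      rw [h, mul_add, pow_add, mul_comm _ (2 * M), pow_mul ζ (2 * M), hζ.pow_eq_one, one_pow,
        mul_one]) i
    simp only [mul_apply, map_apply, of_apply, hV, transpose_apply, vandermonde_apply, ← pow_mul]
    rw [← s, two_mul M, Finset.sum_range_add, ← Finset.sum_add_distrib, Finset.sum_mul,
      Finset.sum_range]
    refine Finset.sum_congr rfl fun j _ => ?_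
    have d : ζ ^ ((2 * k + 1) * M : ℕ) = -1 := by
      rw [mul_comm, pow_mul, zM, Odd.neg_one_pow ⟨k, rfl⟩]
    rw [mul_add _ (i : ℕ), mul_add _ (i : ℕ), mul_add _ M, pow_add, pow_add, pow_add, d, add_comm M]
    simp only [Complex.ofRealHom_eq_coe, Complex.ofReal_sub]
    linear_combination (-(ζ ^ ((2 * k + 1) * j : ℕ)) * (x (i + j) - x (i + (j + M)))) * c
  have D := congrArg (fun A => ‖det A‖) E
  simp only [det_mul, det_mul_row, norm_mul] at D
  rw [← RingHom.mapMatrix_apply, ← RingHom.mapMatrix_apply, ← RingHom.map_det, ← RingHom.map_det,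
    Complex.norm_conj, mul_left_inj' (norm_ne_zero_iff.2 V0)] at D
  rw [Finset.prod_range, ← D]
  simp

variable {F H : Type} [Field F] [NumberField F] [Field H] [NumberField H] [Algebra F H]
  {σ : H ≃ₐ[ℚ] H} {M : ℕ}

/-- the conjugates of a place -/
noncomputable def pl (σ : H ≃ₐ[ℚ] H) (w : InfinitePlace H) (i : ℕ) : InfinitePlace H :=
  w.comap (σ ^ i : H ≃ₐ[ℚ] H)

theorem pl_ap (w : InfinitePlace H) (i : ℕ) (x : H) : pl σ w i x = w ((σ ^ i) x) := rfl

theorem coe_ua (τ : H ≃ₐ[ℚ] H) (u : (𝓞 H)ˣ) : ((ua τ u : 𝓞 H) : H) = τ (u : 𝓞 H) := rfl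

theorem ua_mul (τ τ' : H ≃ₐ[ℚ] H) (u : (𝓞 H)ˣ) : ua (τ * τ') u = ua τ (ua τ' u) := rfl

theorem card_pl (K : Type) [Field K] [NumberField K] [IsTotallyComplex K] {n : ℕ}
    (h : finrank ℚ K = 2 * n) : Fintype.card (InfinitePlace K) = n := by
  have := IsTotallyComplex.finrank K
  rw [card_eq_nrRealPlaces_add_nrComplexPlaces, IsTotallyComplex.nrRealPlaces_eq_zero]
  omega

variable (c : Cp F σ M)
include c

theorem M_pos : 0 < M := by obtain ⟨m, h⟩ := c.pow; rw [h]; positivity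

theorem ex_pl (w w' : InfinitePlace H) : ∃ i < 2 * M, pl σ w i = w' := by
  obtain ⟨i, h⟩ := c.inf w w'
  refine ⟨i % (2 * M), Nat.mod_lt _ (by linarith [M_pos c]), InfinitePlace.ext _ _ fun x => ?_⟩
  rw [h, pl_ap, ← pow_eq_pow_mod i c.ord]

theorem pl_F (w : InfinitePlace H) (i : ℕ) (y : F) :
    pl σ w (i + M) (algebraMap F H y) = pl σ w i (algebraMap F H y) := by
  rw [pl_ap, pow_add, AlgEquiv.mul_apply, (c.fix _).2 ⟨y, rfl⟩, pl_ap]

theorem bij_H (w : InfinitePlace H) : Function.Bijective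
    (Sum.elim (fun j : Fin M => pl σ w j) fun j : Fin M => pl σ w (j + M)) := by
  have := c.cx
  have := isTotallyComplex_of_algebra F H
  refine (Fintype.bijective_iff_surjective_and_card _).2 ⟨fun w' => ?_, ?_⟩
  · obtain ⟨i, hi, rfl⟩ := ex_pl c w w'
    rcases lt_or_ge i M with a | a
    · exact ⟨.inl ⟨i, a⟩, rfl⟩
    · exact ⟨.inr ⟨i - M, by omega⟩, by simp [Nat.sub_add_cancel a]⟩
  · rw [card_pl H (n := 2 * M) (by rw [c.deg]; ring)]
    simp [two_mul]

theorem bij_F (w : InfinitePlace H) :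
    Function.Bijective fun j : Fin M => (pl σ w j).comap (algebraMap F H) := by
  have := c.cx
  refine (Fintype.bijective_iff_surjective_and_card _).2 ⟨fun v => ?_, ?_⟩
  · obtain ⟨w', rfl⟩ := comap_surjective (K := H) v
    obtain ⟨j | j, rfl⟩ := (bij_H c w).2 w'
    · exact ⟨j, rfl⟩
    · exact ⟨j, InfinitePlace.ext _ _ fun y => (pl_F c w j y).symm⟩
  · rw [card_pl F c.deg', Fintype.card_fin]

theorem fix_int {x : 𝓞 H} (h : (σ ^ M) x = x) : ∃ a : 𝓞 F, algebraMap (𝓞 F) (𝓞 H) a = x := by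
  obtain ⟨y, hy⟩ := (c.fix _).1 h
  exact ⟨⟨y, (isIntegral_algebraMap_iff (algebraMap F H).injective).1 (hy ▸ x.isIntegral_coe)⟩,
    RingOfIntegers.ext hy⟩

theorem fix_unit {v : (𝓞 H)ˣ} (h : ua (σ ^ M) v = v) :
    v ∈ (Units.map (algebraMap (𝓞 F) (𝓞 H) : 𝓞 F →* 𝓞 H)).range := by
  obtain ⟨a, ha⟩ := fix_int c (x := v) (by rw [← coe_ua, h])
  obtain ⟨b, hb⟩ := fix_int c (x := (v⁻¹ : (𝓞 H)ˣ)) (by rw [← coe_ua, map_inv, h])
  exact ⟨Units.mkOfMulEqOne a b (FaithfulSMul.algebraMap_injective (𝓞 F) (𝓞 H)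
    (by rw [map_mul, ha, hb, map_one, v.mul_inv])), Units.ext ha⟩

theorem cu_eq {U : Fin M → (𝓞 F)ˣ} (hU : Subgroup.closure (range U) ⊔ torsion F = ⊤)
    (u : (𝓞 H)ˣ) : Subgroup.closure (range (Sum.elim
      (fun i => Units.map (algebraMap (𝓞 F) (𝓞 H) : 𝓞 F →* 𝓞 H) (U i))
        fun i : Fin M => ua (σ ^ (i : ℕ)) u)) ⊔ torsion H = CU F σ u := by
  refine le_antisymm (sup_le ((Subgroup.closure_le _).2 (range_subset_iff.2 ?_)) fun v hv => ?_) ?_
  · rintro (i | i)
    · exact Subgroup.mem_sup_left ⟨_, rfl⟩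
    · exact Subgroup.mem_sup_right (Subgroup.subset_closure ⟨_, rfl⟩)
  · rcases c.tor v hv with rfl | rfl
    · exact one_mem _
    · exact Subgroup.mem_sup_left ⟨-1, Units.ext (by simp)⟩
  generalize hG : Subgroup.closure _ ⊔ torsion H = G
  have a : (Units.map (algebraMap (𝓞 F) (𝓞 H) : 𝓞 F →* 𝓞 H)).range ≤ G := by
    rw [MonoidHom.range_eq_map, ← hU, Subgroup.map_sup, MonoidHom.map_closure, ← hG]
    refine sup_le_sup (Subgroup.closure_mono ?_) ?_
    · rintro _ ⟨_, ⟨i, rfl⟩, rfl⟩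
      exact ⟨.inl i, rfl⟩
    · rintro _ ⟨v, hv, rfl⟩
      exact MonoidHom.isOfFinOrder _ hv
  refine sup_le a ((Subgroup.closure_le _).2 (range_subset_iff.2 fun i => ?_))
  induction i using Nat.strong_induction_on with
  | _ i ih =>
  rcases lt_or_ge i M with b | b
  · exact hG ▸ Subgroup.mem_sup_left (Subgroup.subset_closure ⟨.inr ⟨i, b⟩, rfl⟩)
  · obtain ⟨j, rfl⟩ := Nat.exists_eq_add_of_le b
    refine (G.mul_mem_cancel_right (ih j (by linarith [M_pos c]))).1 (a (fix_unit c ?_))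
    rw [map_mul, ← ua_mul, ← ua_mul, ← pow_add, ← pow_add, ← add_assoc, ← two_mul, pow_add σ (2 * M),
      c.ord, one_mul, mul_comm]

end Rg

open Rg in
theorem reg : REG := by
  intro F H _ _ _ _ _ σ M c w u
  have := c.cx
  have := isTotallyComplex_of_algebra F H
  have M0 := M_pos c
  obtain ⟨U, U0, hU⟩ := ex_fund F (Equiv.ofBijective _ (bij_F c w)) ⟨0, M0⟩
  have a := key F (Equiv.ofBijective _ (bij_F c w)) _ U U0
  have b := key H (Equiv.ofBijective _ (bij_H c w)) (.inl ⟨0, M0⟩) (Sum.elim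
    (fun i => Units.map (algebraMap (𝓞 F) (𝓞 H) : 𝓞 F →* 𝓞 H) (U i))
      fun i : Fin M => ua (σ ^ (i : ℕ)) u) (by simp [U0])
  have d := det_circ (Complex.isPrimitiveRoot_exp (2 * M) (by omega))
    (x := fun n => 2 * Real.log (w ((σ ^ n) (u : 𝓞 H)))) fun n => by rw [pow_add, c.ord, mul_one]
  rw [hU, c.deg', Subgroup.index_top] at a
  rw [cu_eq c hU, c.deg] at b
  generalize hL : (of fun i j : Fin M => _ : Matrix _ _ ℝ) = L at a
  generalize hA : (of fun i j : Fin M ⊕ Fin M => _ : Matrix _ _ ℝ) = A at b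
  have e : A = fromBlocks L L (of fun i j : Fin M => 2 * Real.log (w ((σ ^ (i + j : ℕ)) (u : 𝓞 H))))
      (of fun i j : Fin M => 2 * Real.log (w ((σ ^ (i + (j + M) : ℕ)) (u : 𝓞 H)))) := by
    rw [← hA, ← hL]
    ext (i | i) (j | j)
    · simp only [of_apply, fromBlocks_apply₁₁, IsTotallyComplex.mult_eq, Sum.inl.injEq]; rfl
    · simp only [of_apply, fromBlocks_apply₁₂, IsTotallyComplex.mult_eq, Sum.inl.injEq]
      exact congrArg (fun t => ite _ _ (_ * Real.log t)) (pl_F c w j (U i : 𝓞 F))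
    · simp only [of_apply, fromBlocks_apply₂₁, IsTotallyComplex.mult_eq, reduceCtorEq, if_false]
      rw [add_comm, pow_add]; rfl
    · simp only [of_apply, fromBlocks_apply₂₂, IsTotallyComplex.mult_eq, reduceCtorEq, if_false,
        add_comm (i : ℕ), pow_add σ (j + M)]; rfl
  have f : ∀ k : ℕ, Lg σ M w (u : 𝓞 H) (2 * k + 1) = ∑ i ∈ Finset.range (2 * M),
      Complex.exp (2 * Real.pi * Complex.I / (2 * M : ℕ)) ^ ((2 * k + 1) * i) *
        (2 * Real.log (w ((σ ^ i) (u : 𝓞 H))) : ℝ) := fun k => Finset.sum_congr rfl fun i _ => by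
    rw [ze, ← Complex.exp_nat_mul]
    congr 2; push_cast; ring
  rw [e, det_blk, ← a] at b
  simp only [f]
  rw [← d]
  refine mul_left_cancel₀ (show (2 * M : ℝ) ≠ 0 by positivity) ?_
  push_cast at b
  calc _ = 4 * M * ((CU F σ u).index * regulator H : ℝ) := by ring
    _ = _ := by rw [b, one_mul, mul_assoc]; rfl

end Vale.Agent.P004R
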