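import Vale.Agent.P004R.St
import Vale.Agent.P004R.Reg
import Vale.Agent.P004R.Klf
import Vale.Agent.P004K.Lt
import Vale.Agent.P004K.Rc.Cyc
import Vale.Agent.P022K.G2.Tr

/-!
# P004R: the index formula for the elliptic units
-/

set_option autoImplicit false

open ZMod Finset UpperHalfPlane NumberField Filter Topology
open NumberField.Units (torsion torsionOrder regulator)
open scoped Real

noncomputable section

namespace Vale.Agent.P004R

open Vale.Agent.P022 (Qb GQ GK)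
open P027H P027M.M P004K
open Vale.Agent.P022K.G2 (Tv Nz)

namespace Cf

section grp

variable {G : Type} [Group G] {Γ U : Subgroup G} {R : Finset G} {N : ℕ} [NeZero N]
  {e : G → ZMod N} {φ : G} {f : G → ℂ}

/-- the character sums -/
def SS (R : Finset G) (e : G → ZMod N) (f : G → ℂ) (a : ZMod N) : ℂ :=
  ∑ g ∈ R, stdAddChar (a * e g) * f g

/-- functions on the cosets -/
def Iv (Γ U : Subgroup G) (f : G → ℂ) : Prop := ∀ y ∈ Γ, ∀ u ∈ Γ, u ∈ U → f (y * u) = f y

/-- the data -/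
structure Dt (Γ U : Subgroup G) (R : Finset G) (e : G → ZMod N) (φ : G) : Prop where
  tv : Tv Γ U R
  nz : Nz Γ U
  add : ∀ g ∈ Γ, ∀ h ∈ Γ, e (g * h) = e g + e h
  ker : ∀ g ∈ U, e g = 0
  mem : φ ∈ Γ

variable (d : Dt Γ U R e φ) (hf : Iv Γ U f)
include d hf

theorem Dt.left (a : ZMod N) :
    SS R e (fun g => f (φ * g)) a = stdAddChar (-(a * e φ)) * SS R e f a := by
  rw [SS, SS, ← d.tv.sum_mul d.mem (fun g => stdAddChar (a * e g) * f g) fun y hy u hu m => by
    rw [hf y hy u hu m, d.add y hy u hu, d.ker u m, add_zero], mul_sum]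
  refine sum_congr rfl fun g hg => ?_
  rw [d.add _ d.mem _ (d.tv.mem g hg), ← mul_assoc, ← AddChar.map_add_eq_mul]
  congr 2
  ring

theorem Dt.right (a : ZMod N) :
    SS R e (fun g => f (g * φ)) a = stdAddChar (-(a * e φ)) * SS R e f a := by
  rw [SS, SS, ← d.tv.sum_mul' d.nz d.mem (fun g => stdAddChar (a * e g) * f g)
    fun y hy u hu m => by rw [hf y hy u hu m, d.add y hy u hu, d.ker u m, add_zero], mul_sum]
  refine sum_congr rfl fun g hg => ?_
  rw [d.add _ (d.tv.mem g hg) _ d.mem, ← mul_assoc, ← AddChar.map_add_eq_mul]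
  congr 2
  ring

omit hf in
theorem Dt.zero {a : ZMod N} (h : a * e φ ≠ 0) : ∑ g ∈ R, stdAddChar (a * e g) = 0 := by
  have k := d.left (f := fun _ => 1) (fun _ _ _ _ _ => rfl) a
  simp only [SS, mul_one] at k
  refine (mul_left_eq_self₀.1 k.symm).resolve_left fun b => h ?_
  rwa [← (stdAddChar (N := N)).map_zero_eq_one, injective_stdAddChar.eq_iff, neg_eq_zero] at b

open Classical in
theorem Dt.fib {η : ZMod N} (h : η * e φ = 1) (k : ZMod N) :
    ∑ i ∈ range N, stdAddChar (N := N) (k * i) * ∑ g ∈ R with e g = 0, f (φ ^ i * g) =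
      SS R e f (k * η) := by
  have p : ∀ i : ℕ, e (φ ^ i) = i * e φ := fun i => by
    induction i with
    | zero => rw [pow_zero, d.ker 1 (one_mem _), Nat.cast_zero, zero_mul]
    | succ i ih => rw [pow_succ, d.add _ (pow_mem d.mem i) _ d.mem, ih]; push_cast; ring
  have q : ∀ i : ℕ, ∑ g ∈ R with e g = 0, f (φ ^ i * g) =
      ∑ g ∈ R, if η * e g = i then f g else 0 := fun i => by
    rw [sum_filter, ← d.tv.sum_mul (pow_mem d.mem i) (fun g => if η * e g = i then f g else 0)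
      fun y hy u hu m => by rw [hf y hy u hu m, d.add y hy u hu, d.ker u m, add_zero]]
    refine sum_congr rfl fun g hg => if_congr ?_ rfl rfl
    rw [d.add _ (pow_mem d.mem i) _ (d.tv.mem g hg), p]
    exact ⟨fun a => by linear_combination η * a + i * h, fun a => by
      linear_combination e φ * a - (e g + i * e φ) * h⟩
  simp only [q, mul_sum]
  rw [sum_comm]
  refine sum_congr rfl fun g _ => ?_
  rw [sum_eq_single_of_mem (η * e g).val (mem_range.2 (val_lt _)) fun i hi a => by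
    rw [if_neg fun b => a (by rw [b, val_cast_of_lt (mem_range.1 hi)]), mul_zero],
    natCast_zmod_val, if_pos rfl, mul_assoc k]

open Classical in
theorem Dt.lg {f' : G → ℂ} (hf' : Iv Γ U f') {η k : ZMod N} (h : η * e φ = 1) (n : k ≠ 0) {C : ℂ}
    (hl : ∀ g ∈ R, f g = f' g - f' (g * φ) + C) : ∑ i ∈ range N, stdAddChar (N := N) (k * i) *
      (∑ g ∈ R with e g = 0, f (φ * (φ ^ i * g)) - ∑ g ∈ R with e g = 0, f (φ ^ i * g)) =
      -((1 - stdAddChar (-k)) ^ 2 * SS R e f' (k * η)) := by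
  have h' : k * η * e φ = k := by rw [mul_assoc, h, mul_one]
  have a : SS R e f (k * η) = SS R e f' (k * η) - SS R e (fun g => f' (g * φ)) (k * η) +
      (∑ g ∈ R, stdAddChar (k * η * e g)) * C := by
    rw [SS, SS, SS, sum_mul, ← sum_sub_distrib, ← sum_add_distrib]
    exact sum_congr rfl fun g hg => by rw [hl g hg]; ring
  simp only [mul_sub, sum_sub_distrib]
  rw [d.fib hf h, d.fib (f := fun g => f (φ * g)) (fun y hy u hu m => by
    simpa only [mul_assoc] using hf _ (mul_mem d.mem hy) u hu m) h, d.left hf, a, d.right hf', h',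
    d.zero (h'.symm ▸ n)]
  ring

end grp

theorem prod_odd {M : ℕ} [NeZero (2 * M)] (f : ZMod (2 * M) → ℝ) :
    ∏ k ∈ range M, f (2 * k + 1 : ℕ) =
      ∏ a ∈ univ.filter fun a => castHom (dvd_mul_right 2 M) (ZMod 2) a = 1, f a := by
  refine prod_bij' (fun k _ => (2 * k + 1 : ℕ)) (fun a _ => a.val / 2) (fun k _ => ?_)
    (fun a _ => mem_range.2 (by have := a.val_lt; omega)) (fun k hk => ?_) (fun a ha => ?_)
    fun _ _ => rfl
  · rw [mem_filter, map_natCast]
    exact ⟨mem_univ _, natCast_eq_one_iff_odd.2 ⟨k, rfl⟩⟩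
  · rw [val_cast_of_lt (by have := mem_range.1 hk; omega)]
    omega
  · rw [mem_filter, ← natCast_zmod_val a, map_natCast, natCast_eq_one_iff_odd] at ha
    rw [Nat.two_mul_div_two_add_one_of_odd ha.2, natCast_zmod_val]

theorem prod_unit {M : ℕ} [NeZero (2 * M)] (f : ZMod (2 * M) → ℝ) (η : (ZMod (2 * M))ˣ) :
    ∏ k ∈ range M, f ((2 * k + 1 : ℕ) * η) = ∏ k ∈ range M, f (2 * k + 1 : ℕ) := by
  rw [prod_odd f, prod_odd fun a : ZMod (2 * M) => f (a * η)]
  refine prod_equiv η.mulRight (fun a => ?_) fun _ _ => rfl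
  have : ∀ x : ZMod 2, IsUnit x → x = 1 := by decide
  simp only [mem_filter, Units.mulRight_apply, map_mul, this _ (η.isUnit.map _), mul_one, mem_univ]

theorem prod_one_sub {M : ℕ} [NeZero (2 * M)] :
    ∏ k ∈ range M, ‖1 - stdAddChar (-((2 * k + 1 : ℕ) : ZMod (2 * M)))‖ = 2 := by
  have M0 : 0 < M := Nat.pos_of_mul_pos_left (NeZero.pos (2 * M))
  have h := (Complex.isPrimitiveRoot_exp (2 * M) (by omega)).inv
  have k := congrArg (fun p => ‖Polynomial.eval 1 p‖) (X_pow_sub_C_eq_prod (h.pow (by omega) rfl) M0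
    (h.pow (by omega) (mul_comm _ _)).eq_neg_one_of_two_right)
  simp only [Polynomial.eval_prod, norm_prod, Polynomial.eval_sub, Polynomial.eval_pow,
    Polynomial.eval_X, Polynomial.eval_C] at k
  rw [one_pow, sub_neg_eq_add, one_add_one_eq_two, Complex.norm_two] at k
  refine (prod_congr rfl fun i _ => ?_).trans k.symm
  rw [← Int.cast_natCast, ← Int.cast_neg, stdAddChar_coe, ← pow_mul, ← pow_succ, inv_pow,
    ← Complex.exp_nat_mul, ← Complex.exp_neg]
  congr 3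
  push_cast
  ring

theorem ze_st {N : ℕ} [NeZero N] (b : ℤ) : ze N b = stdAddChar (b : ZMod N) :=
  (stdAddChar_coe b).symm

theorem lim {G : Type} {A : ℝ} (hA : 0 < A) (R : Finset G) (χ : G → ℂ) (h : ∑ g ∈ R, χ g = 0)
    (τ : G → ℍ) : Tendsto (fun s : ℝ => 1 / 2 * (A ^ (-s) : ℝ) * ∑ g ∈ R, χ g * Ze (τ g) s)
      (𝓝[>] 1) (𝓝 (-(π / (12 * A) : ℝ) * ∑ g ∈ R, χ g * Gl (τ g))) := by
  have a : Tendsto (fun s : ℝ => ((A ^ (-s) : ℝ) : ℂ)) (𝓝[>] 1) (𝓝 (A ^ (-1 : ℝ) : ℝ)) :=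
    ((Complex.continuous_ofReal.comp ((Real.continuous_const_rpow hA.ne').comp
      continuous_neg)).tendsto 1).mono_left nhdsWithin_le_nhds
  have b := tendsto_finsetSum R fun g _ => (klf (τ g) I).ofReal.const_mul (χ g)
  convert (a.const_mul (1 / 2)).mul b using 2
  · simp only [Complex.ofReal_sub, mul_sub, sum_sub_distrib, ← sum_mul, h, zero_mul, sub_zero]
  · simp only [Complex.ofReal_mul, Complex.ofReal_sub, mul_left_comm (χ _), ← mul_sum, mul_sub,
      sum_sub_distrib, ← sum_mul, h, zero_mul, mul_zero, sub_zero, Real.rpow_neg_one]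
    push_cast
    ring

theorem tor2 (K : Type) [Field K] [NumberField K] (h : ∀ u ∈ torsion K, u = 1 ∨ u = -1) :
    torsionOrder K = 2 := Nat.card_eq_two_iff.2 ⟨1, ⟨-1, neg_one_mem_torsion⟩,
  by simp [← Subtype.coe_ne_coe], Set.eq_univ_of_forall fun x => (h x x.2).imp Subtype.ext
    Subtype.ext⟩

theorem res (K : Type) [Field K] [NumberField K] [IsTotallyComplex K] {n : ℕ}
    (h : Module.finrank ℚ K = 2 * n) (t : ∀ u ∈ torsion K, u = 1 ∨ u = -1) :
    dedekindZeta_residue K * (2 * √|(discr K : ℝ)|) = (2 * π) ^ n * regulator K * classNumber K := by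
  have := IsTotallyComplex.finrank K
  rw [dedekindZeta_residue_def, tor2 K t, IsTotallyComplex.nrRealPlaces_eq_zero,
    show InfinitePlace.nrComplexPlaces K = n by omega, pow_zero, one_mul, Nat.cast_ofNat,
    div_mul_cancel₀]
  exact mul_ne_zero two_ne_zero (Real.sqrt_pos.2 (abs_pos.2 (Int.cast_ne_zero.2
    (discr_ne_zero K)))).ne'

theorem val2 {x h a o n : ℕ} (h0 : h ≠ 0) (ha : Odd a) (ho : Odd o)
    (e : x ^ 2 * a = (h * 2 ^ n) ^ 2 * o) : x ≠ 0 ∧ padicValNat 2 x = padicValNat 2 h + n := by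
  have := ho.pos
  have x0 : x ≠ 0 := by
    rintro rfl
    exact absurd e (by rw [zero_pow two_ne_zero, zero_mul]; positivity)
  have k := congrArg (padicValNat 2) e
  rw [padicValNat.mul (by positivity) ha.pos.ne', padicValNat.mul (by positivity) ho.pos.ne',
    padicValNat.pow, padicValNat.pow, padicValNat.mul h0 (by positivity),
    padicValNat.prime_pow, padicValNat.eq_zero_of_not_dvd ha.not_two_dvd_nat,
    padicValNat.eq_zero_of_not_dvd ho.not_two_dvd_nat] at k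
  exact ⟨x0, by omega⟩

theorem arith {x h h' c M : ℕ} {a b D : ℤ} {R R' r r' P : ℝ} (h0 : R ≠ 0) (hc : 0 < c) (hD : D ≠ 0)
    (e3 : 2 * x * R = R' * (2 ^ M * 2 ^ 2 * P)) (e4 : r = r' * ((π / (12 * (c * √|(D : ℝ)| / 2))) ^ M * P))
    (e5 : r * (2 * √|(a : ℝ)|) = (2 * π) ^ (2 * M) * R * h)
    (e6 : r' * (2 * √|(b : ℝ)|) = (2 * π) ^ M * R' * h') :
    (x * h') ^ 2 * a.natAbs = (h * 2 ^ (3 * M + 1)) ^ 2 * (((3 * c) ^ 2 * D.natAbs) ^ M * b.natAbs) := by
  have k : ∀ n : ℤ, (n.natAbs : ℝ) = √|(n : ℝ)| ^ 2 := fun n => by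
    rw [Real.sq_sqrt (abs_nonneg _), Nat.cast_natAbs, Int.cast_abs]
  have n : 0 < √|(D : ℝ)| := Real.sqrt_pos.2 (abs_pos.2 (Int.cast_ne_zero.2 hD))
  have e : r * (2 ^ M * (3 * c * √|(D : ℝ)|) ^ M) = r' * π ^ M * P := by
    rw [e4, div_pow, ← mul_pow, show 12 * (c * √|(D : ℝ)| / 2) = 2 * (3 * c * √|(D : ℝ)|) by ring]
    field_simp
  have f : x * h' * √|(a : ℝ)| = h * (2 * (2 ^ M) ^ 3) * ((3 * c * √|(D : ℝ)|) ^ M * √|(b : ℝ)|) := by
    refine mul_left_cancel₀ (show 2 * R * 2 ^ M * (π ^ M) ^ 2 ≠ 0 by positivity) ?_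
    rw [mul_comm 2 M, pow_mul, mul_pow] at e5
    rw [mul_pow] at e6
    generalize (3 * c * √|(D : ℝ)|) ^ M = Z, π ^ M = Y, (2 : ℝ) ^ M = X, √|(a : ℝ)| = a,
      √|(b : ℝ)| = b at *
    linear_combination (h' * a * X * Y ^ 2) * e3 - (4 * X * P * a * Y) * e6 - (8 * X * a * b) * e +
      (4 * X ^ 2 * b * Z) * e5
  refine Nat.cast_injective (R := ℝ) ?_
  push_cast
  rw [k, k, k, ← mul_pow, f, ← mul_pow, pow_right_comm _ 2 M]
  generalize (3 * c * √|(D : ℝ)|) ^ M = Z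
  ring

theorem ex_T (h1 : P004K.RC1) {K : Type} [Field K] [NumberField K] (j : K →+* Qb) (q : Iq K) {c : ℕ}
    (hc : 0 < c) : ∃ T : Qb → ℍ, ∀ g : GQ, jL (lat (T (g (jc j c)))) = io (g (jc j c)) := by
  obtain ⟨ω, a, b⟩ := Rc.iq0 j q
  obtain ⟨s, Q⟩ := Rc.ex_qd (Rc.JJ_inj j) a b
  have : ∀ a : Qb, ∃ τ, ∀ g : GQ, a = g (jc j c) → jL (lat τ) = io a := fun a => by
    by_cases h : ∃ g : GQ, a = g (jc j c)
    · obtain ⟨g, rfl⟩ := h
      obtain ⟨σ, e⟩ := ex_ex g
      obtain ⟨Λ, ψ, t⟩ := ex_tp (Q.kl_Oc hc).lat σ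
      obtain ⟨μ, τ, k⟩ := ex_lat t.lat'
      exact ⟨τ, fun _ _ => by rw [← jL_hom k (isLat τ), t.jL, ← (h1 K j q c hc).1, e]⟩
    · exact ⟨I, fun g e => absurd ⟨g, e⟩ h⟩
  choose T hT using this
  exact ⟨T, fun g => hT _ g rfl⟩

theorem odd_c {K : Type} [Field K] [NumberField K] {j : K →+* Qb} {c M : ℕ} {e : GQ → ZMod (2 * M)}
    (y : Ly j c M e) : Odd c := Nat.not_even_iff_odd.1 fun a => by
  have := (Ideal.span_singleton_prime two_ne_zero).2 Int.prime_two
  obtain ⟨P, h1, h2⟩ := Ideal.exists_ideal_over_prime_of_isIntegral_of_isDomain (S := 𝓞 Qb)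
    (Ideal.span {(2 : ℤ)}) (by
      rw [(RingHom.injective_iff_ker_eq_bot _).1 (algebraMap ℤ (𝓞 Qb)).injective_int]
      exact bot_le)
  have : (2 : ℤ) ∈ P.comap (algebraMap ℤ (𝓞 Qb)) := h2 ▸ Ideal.mem_span_singleton_self _
  exact (y.ram 2 P ⟨Nat.prime_two, h1, this⟩ a.two_dvd).1 rfl

end Cf

open Cf in
/-- **CNF** -/
theorem cnf (ha : LFA) (hb : LFB) (h1 : P004K.RC1) : CNF := by
  intro K _ _ j c M e y F H _ _ _ _ _ jH φ σ l p oK oF oH P s us R t u hu
  have M0 := Rg.M_pos p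
  have : NeZero (2 * M) := ⟨by omega⟩
  have oc := odd_c y
  have d : Dt (GK j) (Hc j c) R e φ :=
    ⟨t, fun g _ u hu => (h1 K j y.iq c oc.pos).2.2.1.conj_mem u hu g, y.add, y.ker, l.mem⟩
  obtain ⟨T, hT⟩ := ex_T h1 j y.iq oc.pos
  obtain ⟨ε, hε⟩ := l.gen
  have ne : ∀ k : ℕ, ((2 * k + 1 : ℕ) : ZMod (2 * M)) ≠ 0 := fun k a =>
    Odd.not_two_dvd_nat ⟨k, rfl⟩ ((dvd_mul_right 2 M).trans ((natCast_eq_zero_iff _ _).1 a))
  set G : GQ → ℂ := fun g => Gl (T (g (jc j c))) with hG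
  set L : GQ → ℂ := fun g => Real.log ‖io (g (s : Qb))‖ with hL
  have iG : Iv (GK j) (Hc j c) G := fun y _ u _ m => by
    simp only [hG, AlgEquiv.mul_apply, show u (jc j c) = jc j c from m.2]
  have iL : Iv (GK j) (Hc j c) L := fun y _ u _ m => by
    simp only [hL, AlgEquiv.mul_apply,
      show u (s : Qb) = s from congrArg (fun x : 𝓞 Qb => (x : Qb)) (us.fix u m)]
  have s0 : (s : Qb) ≠ 0 := fun a => (us.unit 1 (one_mem _)).1 (by
    rw [one_smul, RingOfIntegers.coe_eq_zero_iff.1 a]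
    exact P.zero_mem)
  have ac : ∀ (i : ℕ) x, jH ((σ ^ i) x) = (φ ^ i) (jH x) := fun i => by
    induction i with
    | zero => exact fun _ => rfl
    | succ i ih => intro x; rw [pow_succ, pow_succ, AlgEquiv.mul_apply, ih, l.act]; rfl
  have lg : ∀ g : GQ, (Real.log ‖io (g (∏ r ∈ R with e r = 0, r (s : Qb)))‖ : ℂ) =
      ∑ r ∈ R with e r = 0, L (g * r) := fun g => by
    rw [map_prod, map_prod, norm_prod, Real.log_prod fun r _ => by simpa using s0,
      Complex.ofReal_sum]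
    rfl
  set w := InfinitePlace.mk ((io : Qb →+* ℂ).comp jH) with hw
  have lw : ∀ i : ℕ, (Real.log (w ((σ ^ i) (u : 𝓞 H))) : ℂ) =
      ∑ r ∈ R with e r = 0, L (φ * (φ ^ i * r)) - ∑ r ∈ R with e r = 0, L (φ ^ i * r) := fun i => by
    have a := congrArg (fun x => Real.log ‖io ((φ ^ i) x)‖) hu
    have n : ‖io ((φ ^ i) (∏ r ∈ R with e r = 0, r (s : Qb)))‖ ≠ 0 := by
      simpa only [norm_ne_zero_iff, map_ne_zero, Finset.prod_ne_zero_iff] using fun _ _ => s0
    simp only [map_mul, norm_mul] at a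
    rw [Real.log_mul (by simp [-AlgEquiv.coe_pow]) n, ← ac, ← AlgEquiv.mul_apply, ← pow_succ, pow_succ'] at a
    simp only [← mul_assoc]
    rw [← lg, ← lg, ← a, Complex.ofReal_add, add_sub_cancel_right]
    rfl
  have e1 : ∀ k : ℕ, ‖Lg σ M w (u : 𝓞 H) (2 * k + 1)‖ =
      2 * ‖1 - stdAddChar (-((2 * k + 1 : ℕ) : ZMod (2 * M)))‖ ^ 2 *
        ‖SS R e G ((2 * k + 1 : ℕ) * ↑ε⁻¹)‖ := fun k => by
    simp only [Lg, ze_st, Complex.ofReal_mul, lw, Int.cast_mul, Int.cast_natCast,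
      mul_left_comm (stdAddChar _ : ℂ), ← mul_sum]
    rw [d.lg iL iG (hε ▸ ε.inv_mul) (ne k) (C := (6 * Real.log 2 : ℝ)) fun g hg => by
      simp only [hL, hG, us.lg g (t.mem g hg) _ _ (hT g) (hT (g * φ)), Complex.ofReal_add,
        Complex.ofReal_sub], norm_mul, norm_neg, norm_mul, norm_pow, mul_assoc]
    simp
  have dK := Real.sqrt_pos.2 (abs_pos.2 (Int.cast_ne_zero.2 (discr_ne_zero K) : (discr K : ℝ) ≠ 0))
  have c0 : (0 : ℝ) < c := Nat.cast_pos.2 oc.pos
  have e2 := tendsto_nhds_unique (tendsto_sub_one_mul_dedekindZeta_nhdsGT H)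
    (((tendsto_sub_one_mul_dedekindZeta_nhdsGT F).mul (tendsto_finsetProd (range M) fun k _ =>
      lim (A := c * √|(discr K : ℝ)| / 2) (by positivity) R _ (d.zero (a := (2 * k + 1 : ℕ))
        (hε ▸ ε.mul_left_eq_zero.not.2 (ne k))) fun g => T (g (jc j c)))).congr'
      (eventually_mem_nhdsWithin.mono fun x hx => by
        beta_reduce
        rw [ha K j c M e y F H jH φ σ l x hx, mul_assoc]
        refine congrArg (fun z => _ * (_ * z)) (prod_congr rfl fun k _ => ?_)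
        rw [hb K j c M e y R t _ (fun g _ => hT g) _ ⟨k, rfl⟩ x hx]
        simp only [ze_st, Int.cast_mul, Int.cast_natCast, natCast_zmod_val]))
  have e3 := reg F H σ M p w u
  rw [norm_prod, prod_congr rfl fun k _ => e1 k, prod_mul_distrib, prod_mul_distrib, prod_pow,
    prod_one_sub, prod_unit fun a => ‖SS R e G a‖, prod_const, card_range] at e3
  have e4 := congrArg norm e2
  rw [norm_mul, norm_prod, Complex.norm_real, Complex.norm_real] at e4
  simp only [norm_mul, norm_neg, Complex.norm_real, prod_mul_distrib, prod_const, card_range] at e4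
  rw [Real.norm_of_nonneg (dedekindZeta_residue_pos H).le,
    Real.norm_of_nonneg (dedekindZeta_residue_pos F).le, Real.norm_of_nonneg (by positivity)] at e4
  have := p.cx
  have := isTotallyComplex_of_algebra F H
  have e5 := res H (n := 2 * M) (by rw [p.deg]; ring) p.tor
  have inj := Units.map_injective (f := (algebraMap (𝓞 F) (𝓞 H) : 𝓞 F →* 𝓞 H))
    (FaithfulSMul.algebraMap_injective (𝓞 F) (𝓞 H))
  have e6 := res F p.deg' fun v hv => (p.tor _ ((Units.map (algebraMap (𝓞 F) (𝓞 H) :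
    𝓞 F →* 𝓞 H)).isOfFinOrder hv)).imp (fun a => inj (a.trans (map_one _).symm)) fun a =>
      inj (a.trans (Units.ext (by simp)))
  exact (val2 (classNumber_ne_zero H) (Int.natAbs_odd.2 oH) ((((by decide : Odd 3).mul oc).pow.mul
    (Int.natAbs_odd.2 oK)).pow.mul (Int.natAbs_odd.2 oF)) (arith (Units.regulator_ne_zero H) oc.pos
      (discr_ne_zero K) e3 e4 e5 e6)).imp_left left_ne_zero_of_mul

end Vale.Agent.P004R
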