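import Vale.Agent.P004R.St2
import Vale.Agent.P004R.Dbl0
import Vale.Agent.P004F.Pr.All

/-!
# P004R: the row `DBL`
-/

set_option autoImplicit false

open NumberField Matrix TrivSqZeroExt
open scoped Pointwise PowerSeries

noncomputable section

namespace Vale.Agent.P004R.Db

open Vale.Agent.P022 P004F.Pr
open Vale.Agent.P022D.W (dec)
open Vale.Agent.P022E.GW (Ov)

variable {R R' n n' M M' : Type} [CommRing R] [CommRing R'] [Fintype n] [Fintype n']
  [AddCommGroup M] [Module R M] [AddCommGroup M'] [Module R' M'] {Γ : Subgroup GQ} {T : Finset ℕ}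

/-- a presentation counts the cocycles of every isomorphic module -/
theorem pr [DecidableEq n] {π : R →+* ZMod 2} {a : GQ → Matrix n n R} {a' : GQ → Matrix n' n' R'}
    {P : Unit → Ideal (𝓞 Qb)} {g r : ℕ} {Q : Matrix (Fin r) (Fin g) R} {u w}
    (h : Pres π Γ T a P (fun _ _ => (0 : Matrix n Empty R)) (0 : Matrix Empty Empty R) Q u w)
    (Φ : (n → M) ≃+ (n' → M')) (e : ∀ g ∈ Γ, ∀ z, ac (a' g) (Φ z) = Φ (ac (a g) z)) :
    Nonempty ({y : Fin g → M // ac Q y = 0} ≃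
      Zs M' Γ T a' P fun _ _ => (0 : Matrix n' Empty R')) := by
  refine ⟨((Equiv.subtypeEquivRight fun y => (and_iff_left (Subsingleton.elim _ _)).symm).trans
    (h.bij M).equiv).trans (((Equiv.piCongrRight fun _ => Φ.toEquiv).prodCongr
      (Equiv.ofUnique _ _)).subtypeEquiv fun x => (and_iff_left (Subsingleton.elim _ _)).trans ?_)⟩
  have z (g) : x.1 g = 0 ↔ Φ (x.1 g) = 0 := Φ.map_eq_zero_iff.symm
  refine and_congr (forall₂_congr fun g hg => forall₂_congr fun j _ => ?_) (and_congr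
    (forall₂_congr fun g _ => z g) (and_congr (exists_congr fun W => and_congr_right' <|
      forall₂_congr fun g _ => z g) (and_congr (forall₂_congr fun g _ => z g)
        (forall₃_congr fun i g _ => ?_))))
  · change _ ↔ Φ _ = Φ _ + ac _ (Φ _)
    rw [e g hg, ← map_add, Φ.apply_eq_iff_eq]
  · rw [zero_ac, zero_ac]; exact z g

theorem r1_eq (χ : GQ → R) (g : GQ) : r1 χ g = scalar (Fin 1) (χ g) := smul_one_eq_diagonal _

theorem r1_one {χ : GQ → R} {g : GQ} : r1 χ g = 1 ↔ χ g = 1 := by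
  rw [r1_eq, ← map_one (scalar (Fin 1)), scalar_inj]

theorem r1_mul {χ : GQ → R} {g h k : GQ} : r1 χ k = r1 χ g * r1 χ h ↔ χ k = χ g * χ h := by
  rw [r1_eq, r1_eq, r1_eq, ← map_mul, scalar_inj]

/-- the unipotent normal form -/
theorem nf {b : GQ → Matrix (Fin 2) (Fin 2) (ZMod 2)} (h : Gd Γ T b)
    (t : ∀ g ∈ Γ, (b g).trace = 0) : ∃ C : Matrix (Fin 2) (Fin 2) (ZMod 2), C * C = 1 ∧
      ∀ g ∈ Γ, C * b g * C = !![1, 0; (C * b g * C) 1 0, 1] := by
  have d (g) (hg : g ∈ Γ) : (b g).det ≠ 0 := left_ne_zero_of_mul_eq_one (b := (b g⁻¹).det) (by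
    rw [← det_mul, ← h.mul g hg _ (inv_mem hg), mul_inv_cancel, h.one, det_one])
  by_cases c : ∀ g ∈ Γ, b g = 1
  · exact ⟨1, mul_one _, fun g hg => by rw [c g hg]; decide⟩
  push Not at c
  obtain ⟨s, hs, c⟩ := c
  exact (cls _ (t s hs) (d s hs) c).imp fun C k => ⟨k.1, fun g hg => k.2 _ (t g hg) (d g hg)
    (h.mul s hs g hg ▸ t _ (mul_mem hs hg))⟩

theorem dbl : DBL := by
  intro R _ ρ J ⟨hs, hk⟩ J0 Γ T χ b P hχ hb tr oP dP ⟨l, hl, l2, Q₀, oQ, dQ⟩
  have := Finite.of_equiv _ (P004F.Alg.ps_equiv ρ hs hk).some.symm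
  have : Finite (DualNumber R) := inferInstanceAs (Finite (R × R))
  let π : R →+* ZMod 2 := ρ.liftOfSurjective hs ⟨PowerSeries.constantCoeff, fun x hx =>
    PowerSeries.X_dvd_iff.1 ((dvd_pow_self _ J0.ne').trans ((hk x).1 hx))⟩
  have := π.domain_nontrivial
  have := IsLocalRing.of_surjective' ρ hs
  have : IsLocalRing (DualNumber R) := .of_isUnit_or_isUnit_one_sub_self fun x => by
    simpa only [isUnit_iff_isUnit_fst, fst_sub, fst_one] using
      IsLocalRing.isUnit_or_isUnit_one_sub_self x.fst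
  obtain ⟨C, hC, k⟩ := nf hb tr
  set τ := ρ.comp PowerSeries.C
  obtain ⟨a, a0, a2⟩ : ∃ a : GQ → DualNumber R, (∀ g, (a g).fst = χ g) ∧
    ∀ g, (a g).snd = χ g * τ ((C * b g * C) 1 0) := ⟨fun g => (_, _), fun _ => rfl, fun _ => rfl⟩
  have a1 (g) (c : r1 χ g = 1) (c' : b g = 1) : r1 a g = 1 := r1_one.2 (by
    ext <;> simp [a0, a2, r1_one.1 c, c', hC])
  have ha : Gd Γ T (r1 a) := by
    obtain ⟨W, oW, w⟩ := hχ.lc
    obtain ⟨V, oV, v⟩ := hb.lc
    refine ⟨hb.opn, hb.idx, hb.cx, hb.two, hb.pr, a1 1 hχ.one hb.one, fun g hg h hh => r1_mul.2 ?_,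
      ⟨W ⊓ V, oW.inter oV, fun g hg m => a1 g (w g hg m.1) (v g hg m.2)⟩,
      fun g hg m => a1 g (hχ.unr g hg m) (hb.unr g hg m)⟩
    have : C * b (g * h) * C = C * b g * C * (C * b h * C) := by
      rw [hb.mul g hg h hh]
      simp only [← mul_assoc]
      rw [mul_assoc _ C C, hC, mul_one]
    rw [k g hg, k h hh] at this
    ext <;> simp [a0, a2, this, r1_mul.1 (hχ.mul g hg h hh)]
    ring
  have lo : Lo (π.comp (fstHom R R R).toRingHom) Γ T (r1 a) (fun _ : Unit => P)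
      (fun _ _ => (0 : Matrix _ Empty _)) (0 : Matrix Empty _ _) := by
    refine ⟨fun _ => ⟨2, hb.two, oP⟩, fun _ _ _ _ _ => rfl, fun _ _ => dP, fun _ _ _ _ => rfl,
      fun _ _ _ _ _ => ⟨0, Subsingleton.elim _ _⟩, fun _ => ⟨⊤, isOpen_univ, fun _ _ _ _ _ => rfl⟩,
      Subsingleton.elim _ _, .inr ⟨l, hl, l2, Q₀, oQ, dQ, fun g hg => ?_, fun _ g _ c => ?_⟩⟩
    · have : π (χ g) * π (χ g⁻¹) = 1 := by
        rw [← map_mul, ← r1_mul.1 (hχ.mul g (dQ hg) _ (inv_mem (dQ hg))), mul_inv_cancel,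
          r1_one.1 hχ.one, map_one]
      ext i j
      obtain rfl := Subsingleton.elim i j
      simpa [r1, a0, Subsingleton.elim i 0] using
        (show ∀ x y : ZMod 2, x * y = 1 → x = 1 by decide) _ _ this
    have h2 : ((2 : ℕ) : 𝓞 Qb) ∈ Q₀ := by
      rw [c, Ideal.mem_pointwise_smul_iff_inv_smul_mem, ← MulSemiringAction.toRingHom_apply,
        map_natCast]
      exact oP.2.2
    obtain ⟨x, y, c⟩ := (Nat.isCoprime_iff_coprime.2
      ((Nat.coprime_primes oQ.1 Nat.prime_two).2 l2)).map (Int.castRingHom (𝓞 Qb))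
    rw [map_natCast, map_natCast] at c
    exact oQ.2.1.ne_top ((Ideal.eq_top_iff_one _).2
      (c ▸ add_mem (Q₀.mul_mem_left x oQ.2.2) (Q₀.mul_mem_left y h2)))
  obtain ⟨g, r, Q, u, w, hp, e⟩ := pres _ _ _ _ _ _ Γ T _ _ _ _ (by simp) ha lo
  obtain rfl : r = g := by simpa using e
  have c2 : C.map τ * C.map τ = 1 := by rw [← Matrix.map_mul, hC, Matrix.map_one _ τ.map_zero τ.map_one]
  obtain ⟨E⟩ := pr (M := DualNumber R) (a' := r2 ρ χ b) (M' := R) hp
    ⟨⟨fun z => C.map τ *ᵥ ![(z 0).fst, (z 0).snd], fun w _ => ((C.map τ *ᵥ w) 0, (C.map τ *ᵥ w) 1),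
      fun z => funext fun i => by
        simp only [mulVec_mulVec, c2, one_mulVec, Subsingleton.elim i 0]; rfl,
      fun w => by
        refine (congrArg _ (funext fun i => ?_)).trans
          (show C.map τ *ᵥ C.map τ *ᵥ w = w by rw [mulVec_mulVec, c2, one_mulVec])
        fin_cases i <;> rfl⟩, fun x y => by
        rw [← mulVec_add]; congr 1⟩ fun g hg z => by
      have : b g * C = C * !![1, 0; (C * b g * C) 1 0, 1] := by
        rw [← k g hg, ← mul_assoc, ← mul_assoc, hC, one_mul]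
      change (χ g • (b g).map τ) *ᵥ C.map τ *ᵥ _ = C.map τ *ᵥ _
      rw [smul_mulVec, mulVec_mulVec, ← Matrix.map_mul, this, Matrix.map_mul, ← mulVec_mulVec,
        ← mulVec_smul]
      congr 1; ext i
      fin_cases i <;> simp [ac, r1, a0, a2]
      ring
  let _ : Module (DualNumber R) R := Module.compHom R (fstHom R R R).toRingHom
  obtain ⟨E'⟩ := pr (M := R) (a' := r1 χ) (M' := R) hp (.refl _) fun g _ z => funext fun i => by
    simp only [ac, r1, Fin.sum_univ_one, Subsingleton.elim i 0, Matrix.smul_apply, one_apply_eq,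
      smul_eq_mul, mul_one, ← a0, AddEquiv.refl_apply]
    rfl
  rw [← Nat.card_congr E, ← Nat.card_congr E']
  exact ⟨Finite.of_equiv _ E, up Q, fun l => down hs hk Q⟩

end Vale.Agent.P004R.Db
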