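import Mathlib

/-! # P004R, row DPT: congruences modulo a prime above two (pure algebra) -/

set_option autoImplicit false
set_option linter.all false

open Polynomial

namespace Vale.Agent.P004R.Dt

/-- `s z = n t`, `s` prime to `P`, `t` in `P` -/
def Sm {R : Type} [CommRing R] (P : Ideal R) [hP : P.IsPrime] (n : R) : Ideal R where
  carrier := {z | ∃ s ∉ P, ∃ t ∈ P, s * z = n * t}
  zero_mem' := ⟨1, hP.one_notMem, 0, zero_mem _, by simp⟩
  add_mem' := by
    rintro z z' ⟨s, hs, t, ht, e⟩ ⟨s', hs', t', ht', e'⟩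
    exact ⟨s * s', hP.mul_notMem hs hs', s' * t + s * t',
      add_mem (P.mul_mem_left _ ht) (P.mul_mem_left _ ht'), by linear_combination s' * e + s * e'⟩
  smul_mem' := by
    rintro c z ⟨s, hs, t, ht, e⟩
    exact ⟨s, hs, c * t, P.mul_mem_left _ ht, by rw [smul_eq_mul]; linear_combination c * e⟩

section core

variable {R : Type} [CommRing R] {p p' : Ideal R}

theorem two_mem (hm : p * p' = Ideal.span {(2 : R)}) (k : ℕ) : (2 : R) ^ k ∈ p ^ k :=
  Ideal.pow_mem_pow (Ideal.mul_le_left (J := p') (by rw [hm]; exact Ideal.mem_span_singleton_self _)) k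

theorem ex_e (hc : p ⊔ p' = ⊤) (n k : ℕ) : ∃ e ∈ p' ^ k, 1 - e ∈ p ^ n := by
  have : IsCoprime (p ^ n) (p' ^ k) := (Ideal.isCoprime_iff_sup_eq.2 hc).pow
  obtain ⟨a, ha, b, hb, h⟩ := Submodule.mem_sup.1
    ((Ideal.eq_top_iff_one _).1 (Ideal.isCoprime_iff_sup_eq.1 this))
  exact ⟨b, hb, by rwa [← h, add_sub_cancel_right]⟩

theorem l1 (hm : p * p' = Ideal.span {(2 : R)}) (hc : p ⊔ p' = ⊤) (n k : ℕ) {y : R}
    (hy : y ∈ p ^ k) : ∃ w, y - 2 ^ k * w ∈ p ^ n := by
  obtain ⟨e, he, h⟩ := ex_e hc n k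
  have := Ideal.mul_mem_mul hy he
  rw [← mul_pow, hm, Ideal.span_singleton_pow, Ideal.mem_span_singleton'] at this
  obtain ⟨w, hw⟩ := this
  refine ⟨w, ?_⟩
  rw [mul_comm, hw, ← mul_one_sub]
  exact Ideal.mul_mem_left _ _ h

theorem l2 [IsDomain R] (h2 : (2 : R) ≠ 0) (hm : p * p' = Ideal.span {(2 : R)}) (hc : p ⊔ p' = ⊤)
    (k : ℕ) {w : R} (hw : 2 ^ k * w ∈ p ^ (k + 1)) : w ∈ p := by
  obtain ⟨e, he, h⟩ := ex_e hc 1 (k + 1)
  have := Ideal.mul_mem_mul hw he
  rw [← mul_pow, hm, Ideal.span_singleton_pow, Ideal.mem_span_singleton'] at this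
  obtain ⟨a, ha⟩ := this
  have e1 : w * e = 2 ^ 1 * a := mul_left_cancel₀ (pow_ne_zero k h2) (by linear_combination -ha)
  have : w = w * (1 - e) + 2 ^ 1 * a := by linear_combination e1
  rw [this, ← pow_one p]
  exact add_mem (Ideal.mul_mem_left _ _ h) (Ideal.mul_mem_right _ _ (two_mem hm 1))

theorem core [IsDomain R] (h2 : (2 : R) ≠ 0) (hm : p * p' = Ideal.span {(2 : R)})
    (hc : p ⊔ p' = ⊤) (f : R →+* R) (hf : ∀ k y, f y ∈ p ^ k ↔ y ∈ p ^ k) {S x u : R} {o : ℕ}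
    (ho : Odd o) (h1 : S ^ o - 1 ∈ p) (hS : f S - S ^ 2 * (1 + 16 * x) ∈ p ^ 5)
    (hu : u * S = f S) : ∃ w, u ^ o - 1 - 16 * (f w - w) ∈ p ^ 5 ∧ f w - x ∈ p := by
  have t5 : ∀ a : R, 32 * a ∈ p ^ 5 := fun a => by
    convert Ideal.mul_mem_right a _ (two_mem hm 5) using 2; norm_num
  have t4 : (16 : R) ∈ p ^ 4 := by convert two_mem hm 4 using 1; norm_num
  have t1 : (2 : R) ∈ p := by simpa using two_mem hm 1
  set T := S ^ o with hT
  have hT1 : f T - T ^ 2 * (1 + 16 * x) ∈ p ^ 5 := by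
    obtain ⟨n, rfl⟩ := ho
    rw [← Ideal.Quotient.eq] at hS ⊢
    have : Ideal.Quotient.mk (p ^ 5) ((1 + 16 * x) ^ 2) = 1 := by
      rw [← map_one (Ideal.Quotient.mk (p ^ 5)), Ideal.Quotient.eq]
      convert t5 (x + 8 * x ^ 2) using 1; ring
    rw [hT, map_pow f, map_pow, hS, map_mul, mul_pow, map_mul, pow_succ _ (2 * n), pow_succ _ (2 * n), pow_mul (Ideal.Quotient.mk _ (1 + 16 * x)),
      ← map_pow _ _ 2, this]
    simp only [map_pow]; ring
  have key : ∀ k, T - 1 ∈ p ^ k → T - 1 ∈ p → f T - 1 - 16 * x ∈ p ^ 5 ⊔ p ^ (k + 1) := fun k hk h => by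
    have : f T - 1 - 16 * x = (f T - T ^ 2 * (1 + 16 * x)) + (T - 1) * ((T - 1 + 2) * (1 + 16 * x)) := by
      ring
    rw [this, pow_succ p k]
    exact add_mem (Ideal.mem_sup_left hT1) (Ideal.mem_sup_right
      (Ideal.mul_mem_mul hk (Ideal.mul_mem_right _ _ (add_mem h t1))))
  have st : ∀ k ≤ 4, T - 1 ∈ p ^ k := fun k => by
    induction k with
    | zero => simp
    | succ k ih =>
      intro hk
      have := (sup_le (Ideal.pow_le_pow_right (by omega)) le_rfl : p ^ 5 ⊔ p ^ (k + 1) ≤ p ^ (k + 1))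
        (key k (ih (by omega)) h1)
      rw [← hf, map_sub, map_one, ← sub_add_cancel (f T - 1) (16 * x)]
      exact add_mem this (Ideal.mul_mem_right _ _ (Ideal.pow_le_pow_right hk t4))
  obtain ⟨w, hw⟩ := l1 hm hc 5 4 (st 4 le_rfl)
  have hw' := (hf 5 _).2 hw
  have k5 := key 4 (st 4 le_rfl) h1
  rw [sup_idem] at k5
  simp only [map_sub, map_mul, map_pow, map_one, map_ofNat] at hw'
  refine ⟨w, ?_, l2 h2 hm hc 4 ?_⟩
  · have e : u ^ o * T = f T := by rw [hT, ← mul_pow, hu, map_pow]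
    have : u ^ o - 1 - 16 * (f w - w) = (f T - 1 - 2 ^ 4 * f w) * (1 - 16 * w) -
        (T - 1 - 2 ^ 4 * w) * (u ^ o * (1 - 16 * w)) + 32 * (8 * w * (u ^ o * w - f w)) := by
      linear_combination (1 - 16 * w) * e
    rw [this]
    exact add_mem (sub_mem (Ideal.mul_mem_right _ _ hw') (Ideal.mul_mem_right _ _ hw)) (t5 _)
  · convert sub_mem k5 hw' using 1; ring

theorem l3 {R' : Type} [CommRing R'] [IsDomain R'] (h2 : (2 : R') ≠ 0) (f : R →+* R') (P : Ideal R')
    [hP : P.IsPrime] (hm : P.comap f * p' = Ideal.span {(2 : R)}) (hc : P.comap f ⊔ p' = ⊤) (k : ℕ)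
    {z : R} (hz : f z ∈ Sm P (2 ^ k)) : z ∈ P.comap f ^ (k + 1) := by
  obtain ⟨s, hs, t, ht, e⟩ := hz
  induction k generalizing t with
  | zero => simpa using (hP.mem_or_mem (show s * f z ∈ P by simpa [e] using ht)).resolve_left hs
  | succ k ih =>
    have h1 := ih (2 * t) (P.mul_mem_left _ ht) (by linear_combination e)
    obtain ⟨e', he, h⟩ := ex_e hc (k + 1 + 1) (k + 1)
    have := Ideal.mul_mem_mul h1 he
    rw [← mul_pow, hm, Ideal.span_singleton_pow, Ideal.mem_span_singleton'] at this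
    obtain ⟨a, ha⟩ := this
    have e1 := congrArg f ha
    simp only [map_mul, map_pow, map_ofNat] at e1
    have e2 : s * f a = t * f e' :=
      mul_left_cancel₀ (pow_ne_zero (k + 1) h2) (by linear_combination s * e1 + f e' * e)
    have a1 : a ∈ P.comap f :=
      (hP.mem_or_mem (show s * f a ∈ P from e2 ▸ P.mul_mem_right _ ht)).resolve_left hs
    rw [show z = 2 ^ (k + 1) * a + z * (1 - e') by linear_combination -ha]
    exact add_mem (pow_succ (P.comap f) (k + 1) ▸ Ideal.mul_mem_mul (two_mem hm _) a1)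
      (Ideal.mul_mem_left _ _ h)

theorem one (P : Ideal R) [hP : P.IsPrime] (h2 : (2 : R) ∈ P) {a b h : R} (ha : a ∉ P) (hb : b ∉ P)
    (e : a * (b + 256) ^ 3 = b ^ 2 * (a + 16) ^ 3) (hh : a * h - 1 ∈ P) :
    b - a ^ 2 * (1 + 16 * h) ∈ Sm P (2 ^ 4) :=
  ⟨a * (b * b), hP.mul_notMem ha (hP.mul_notMem hb hb),
    2 * (8 * (16 * b ^ 2 - 768 * a * b - 65536 * a) + a ^ 2 * b ^ 2) - a ^ 2 * b ^ 2 * (a * h - 1),
    sub_mem (P.mul_mem_right _ h2) (P.mul_mem_left _ hh), by linear_combination e⟩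

theorem prod (P : Ideal R) [hP : P.IsPrime] (h2 : (2 : R) ∈ P) {ι : Type} (s : Finset ι)
    (a b x : ι → R) (h : ∀ i ∈ s, b i - a i ^ 2 * (1 + 16 * x i) ∈ Sm P (2 ^ 4)) :
    ∏ i ∈ s, b i - (∏ i ∈ s, a i) ^ 2 * (1 + 16 * ∑ i ∈ s, x i) ∈ Sm P (2 ^ 4) := by
  classical
  induction s using Finset.induction_on with
  | empty => simp
  | insert i s hi ih =>
    have h1 := ih fun k hk => h k (Finset.mem_insert_of_mem hk)
    have h3 : (32 : R) ∈ Sm P (2 ^ 4) := ⟨1, hP.one_notMem, 2, h2, by norm_num⟩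
    rw [Finset.prod_insert hi, Finset.prod_insert hi, Finset.sum_insert hi]
    convert add_mem (add_mem (Ideal.mul_mem_left _ (b i) h1) (Ideal.mul_mem_left _
      ((∏ i ∈ s, a i) ^ 2 * (1 + 16 * ∑ i ∈ s, x i)) (h i (Finset.mem_insert_self _ _))))
      (Ideal.mul_mem_left _ (8 * (a i * ∏ i ∈ s, a i) ^ 2 * x i * ∑ i ∈ s, x i) h3) using 1
    ring

end core

theorem bin (n i : ℕ) (hi : i < 2 ^ n) : ∑ a ∈ Finset.range (2 ^ n), (a.choose i : (ZMod 2)[X]) * X ^ a =
    X ^ i * (X - 1) ^ (2 ^ n - 1 - i) := by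
  have x0 : (X - 1 : (ZMod 2)[X]) ≠ 0 := by simpa using X_sub_C_ne_zero (1 : ZMod 2)
  induction i with
  | zero =>
    refine mul_right_cancel₀ x0 ?_
    simp only [Nat.choose_zero_right, Nat.cast_one, one_mul, geom_sum_mul, pow_zero, Nat.sub_zero]
    rw [← pow_succ, Nat.sub_add_cancel hi, sub_pow_char_pow, one_pow]
  | succ i ih =>
    have key : ∀ N, (∑ a ∈ Finset.range N, (a.choose (i + 1) : (ZMod 2)[X]) * X ^ a) * (X - 1) =
        (N.choose (i + 1) : (ZMod 2)[X]) * X ^ N -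
          X * ∑ a ∈ Finset.range N, (a.choose i : (ZMod 2)[X]) * X ^ a := fun N => by
      induction N with
      | zero => simp
      | succ N h =>
        rw [Finset.sum_range_succ, Finset.sum_range_succ, add_mul, h, Nat.choose_succ_succ' N i]
        push_cast; ring
    refine mul_right_cancel₀ x0 ?_
    rw [key, ih (by omega), (CharP.cast_eq_zero_iff _ 2 _).2
      (Nat.prime_two.dvd_choose_pow (by omega) hi.ne), show 2 ^ n - 1 - i = 2 ^ n - 1 - (i + 1) + 1 by omega,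
      zero_mul, zero_sub, CharTwo.neg_eq]
    ring

section res

variable {V : Type} [AddCommGroup V] [Module (ZMod 2) V] (S : Module.End (ZMod 2) V)

theorem sub_pw (n : ℕ) : (S - 1) ^ 2 ^ n = S ^ 2 ^ n - 1 := by
  have := congrArg (aeval S) (sub_pow_char_pow (p := 2) (n := n) (X : (ZMod 2)[X]) 1)
  simpa using this

theorem kill {N n a b l : ℕ} (hN : N = 2 ^ n) (hS : S ^ N = 1) (hab : a * b ≡ 1 [MOD N]) (hl : l ≤ N)
    {x : V} (h : ∀ i < l, ∑ k ∈ Finset.range N, k.choose i • (S ^ (a * k)) x = 0) :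
    ((S - 1) ^ (N - l)) x = 0 := by
  subst hN
  rcases l with _ | l
  · simp [sub_pw, hS]
  have e := congrArg (fun p => aeval (S ^ a) p x) (bin n l hl)
  simp only [map_sum, map_mul, map_natCast, map_pow, aeval_X, map_sub, map_one, LinearMap.sum_apply,
    Module.End.mul_apply, Module.End.natCast_apply, ← pow_mul] at e
  rw [h l l.lt_succ_self, Nat.sub_sub, add_comm 1] at e
  have u : IsUnit S := IsUnit.of_pow_eq_one hS (by positivity)
  have e1 : ((S ^ a - 1) ^ (2 ^ n - (l + 1))) x = 0 :=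
    ((Module.End.isUnit_iff _).1 (u.pow (a * l))).1 (e.symm.trans (map_zero _).symm)
  have e2 : S - 1 = (∑ k ∈ Finset.range b, (S ^ a) ^ k) * (S ^ a - 1) := by
    rw [geom_sum_mul, ← pow_mul, pow_eq_pow_of_modEq hab hS, pow_one]
  rw [e2, Commute.mul_pow, Module.End.mul_apply, e1, map_zero]
  exact Commute.sum_left _ _ _ fun k _ =>
    ((Commute.refl _).pow_left k).sub_right (Commute.one_right _)

theorem kill2 {M m a b l : ℕ} (hM : M = 2 ^ m) (hS : S ^ (2 * M) = 1) (hab : a * b ≡ 1 [MOD 2 * M])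
    (hl : l + 1 ≤ M) {w : V}
    (h : ∀ i < l, ∑ k ∈ Finset.range (2 * M), k.choose i • (S ^ (a * k)) (S w) = 0) :
    (S ^ M) (((S - 1) ^ (M - l - 1)) (S w - w)) = ((S - 1) ^ (M - l - 1)) (S w - w) := by
  have e := kill S (n := m + 1) (by rw [hM, pow_succ']) hS hab (by omega) h
  have u : IsUnit S := IsUnit.of_pow_eq_one hS (by omega)
  rw [← Module.End.mul_apply, ← (((Commute.refl S).sub_right (Commute.one_right S)).pow_right _).eq,
    Module.End.mul_apply] at e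
  have e1 := ((Module.End.isUnit_iff _).1 u).1 (e.trans (map_zero _).symm)
  have e2 : (S - 1) ^ M = S ^ M - 1 := hM ▸ sub_pw S m
  rw [show 2 * M - l = M + (M - l - 1) + 1 by omega, pow_succ, pow_add, e2] at e1
  simpa [sub_eq_zero] using e1

end res

theorem root {A B : Type} [CommRing A] [CommRing B] (f : A →+* B) (p : Ideal B) [p.IsPrime] {q : ℕ}
    (hq : Nat.card (A ⧸ p.comap f) = q) (q0 : q ≠ 0) {z : B}
    (h : Ideal.Quotient.mk p z ^ q = Ideal.Quotient.mk p z) : ∃ y, z - f y ∈ p := by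
  classical
  have : Finite (A ⧸ p.comap f) := Nat.finite_of_card_ne_zero (hq ▸ q0)
  let _ := Fintype.ofFinite (A ⧸ p.comap f)
  let _ := Fintype.fieldOfDomain (A ⧸ p.comap f)
  rw [← hq, Nat.card_eq_fintype_card] at h
  have m : (X ^ Fintype.card (A ⧸ p.comap f) - X : (A ⧸ p.comap f)[X]).Monic :=
    monic_X_pow_sub (by simpa using Fintype.one_lt_card)
  have e := prod_multiset_X_sub_C_of_monic_of_roots_card_eq m (by
    rw [FiniteField.roots_X_pow_card_sub_X,
      FiniteField.X_pow_card_sub_X_natDegree_eq _ Fintype.one_lt_card]; rfl)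
  rw [FiniteField.roots_X_pow_card_sub_X] at e
  have := congrArg (eval₂RingHom (Ideal.quotientMap p f le_rfl) (Ideal.Quotient.mk p z)) e
  simp only [map_multiset_prod, Multiset.map_map, map_sub, map_pow, coe_eval₂RingHom, eval₂_X, h,
    sub_self, Multiset.prod_eq_zero_iff, Multiset.mem_map, Function.comp] at this
  obtain ⟨y, -, hy⟩ := this
  obtain ⟨y, rfl⟩ := Ideal.Quotient.mk_surjective y
  refine ⟨y, Ideal.Quotient.eq.1 ?_⟩
  simpa [sub_eq_zero] using hy

section act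

variable {G R : Type} [Group G] [CommRing R] [MulSemiringAction G R] {σ : G} {p : Ideal R}

theorem stab (pp : p.IsPrime) (fr : ∀ y, σ • y - y ^ 2 ∈ p) (k : ℕ) (y : R) :
    σ • y ∈ p ^ k ↔ y ∈ p ^ k := by
  let τ := MulSemiringAction.toRingEquiv G R σ
  have st : p.comap τ = p := Ideal.ext fun y =>
    ⟨fun h => pp.mem_of_pow_mem 2 (by simpa using sub_mem (show σ • y ∈ _ from h) (fr y)),
      fun h => show σ • y ∈ p by simpa using add_mem (fr y) (Ideal.pow_mem_of_mem _ h 2 two_pos)⟩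
  have : p.map τ = p := by rw [← st, Ideal.map_comap_of_surjective _ τ.surjective, st]
  rw [← Ideal.apply_mem_of_equiv_iff (f := τ) (x := y), Ideal.map_pow, this]; rfl

theorem resid (pp : p.IsPrime) (h2 : (2 : R) ∈ p) (fr : ∀ y, σ • y - y ^ 2 ∈ p) {M m a b l : ℕ}
    (hM : M = 2 ^ m) (ord : σ ^ (2 * M) = 1) (hab : a * b ≡ 1 [MOD 2 * M]) (hl : l + 1 ≤ M)
    {ω x : R} (k2 : σ • ω - x ∈ p)
    (h : ∀ i < l, ∑ k ∈ Finset.range (2 * M), k.choose i • σ ^ (a * k) • x ∈ p) :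
    Ideal.Quotient.mk p ((fun z : R => σ • z - z)^[M - l - 1] (σ • ω - ω)) ^ 2 ^ M =
      Ideal.Quotient.mk p ((fun z : R => σ • z - z)^[M - l - 1] (σ • ω - ω)) := by
  set q := Ideal.Quotient.mk p
  have : CharP (R ⧸ p) 2 := CharTwo.of_one_ne_zero_of_two_eq_zero one_ne_zero
    (Ideal.Quotient.eq_zero_iff_mem.2 h2)
  let _ : Algebra (ZMod 2) (R ⧸ p) := ZMod.algebra _ 2
  let S : Module.End (ZMod 2) (R ⧸ p) := (FiniteField.frobeniusAlgHom (ZMod 2) _).toLinearMap
  have S1 : ∀ y, S y = y ^ 2 := fun y => by simp [S]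
  have S2 : ∀ y, q (σ • y) = S (q y) := fun y => by
    rw [S1, ← map_pow]; exact Ideal.Quotient.eq.2 (fr y)
  have S3 : ∀ (k : ℕ) y, q (σ ^ k • y) = (S ^ k) (q y) := fun k y => by
    induction k with
    | zero => simp
    | succ k ih => rw [pow_succ', pow_succ', mul_smul, S2, ih, Module.End.mul_apply]
  have S4 : ∀ (k : ℕ) y, (S ^ k) y = y ^ 2 ^ k := fun k y => by
    induction k with
    | zero => simp
    | succ k ih => rw [pow_succ', Module.End.mul_apply, ih, S1, ← pow_mul, pow_succ]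
  have S5 : ∀ (k : ℕ) y, q ((fun z : R => σ • z - z)^[k] y) = ((S - 1) ^ k) (q y) := fun k y => by
    induction k with
    | zero => simp
    | succ k ih =>
      rw [Function.iterate_succ_apply', map_sub, S2, ih, pow_succ', Module.End.mul_apply]; rfl
  have := kill2 S (w := q ω) hM (LinearMap.ext fun y => by
      obtain ⟨y, rfl⟩ := Ideal.Quotient.mk_surjective y
      rw [← S3, ord, one_smul]; rfl) hab hl fun i hi => by
      rw [← S2, show q (σ • ω) = q x from Ideal.Quotient.eq.2 k2]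
      simp only [← S3, ← map_nsmul, ← map_sum]
      exact Ideal.Quotient.eq_zero_iff_mem.2 (h i hi)
  rwa [← S2, ← map_sub, ← S5, S4] at this

end act

theorem odd_o {f : ℕ} (h : 0 < f) : Odd (2 ^ f - 2 + 1) := Even.add_one (by
  rw [Nat.even_sub (Nat.le_self_pow h.ne' 2)]; simp [Nat.even_pow, h.ne'])

end Vale.Agent.P004R.Dt
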