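import Vale.Agent.P004R.St2
import Vale.Agent.P004R.Dpt0
import Vale.Agent.P022K.G2.Tr
import Vale.Agent.P022D.Sel.Kill

/-! # P004R, row DPT: the depth of the elliptic unit -/

set_option autoImplicit false
set_option linter.all false

open NumberField

noncomputable section

namespace Vale.Agent.P004R

open Vale.Agent.P022 P027H P027M.M P004K
open Vale.Agent.P022E.GW (Ov Fb)
open Vale.Agent.P022K.G2 (Tv)

namespace Dt

theorem coe_smul (g : GQ) (x : 𝓞 Qb) : ((g • x : 𝓞 Qb) : Qb) = g x := rfl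

theorem desc {H : Type} [Field H] [NumberField H] (jH : H →+* Qb) (z : 𝓞 Qb)
    (hz : ∀ g ∈ GK jH, g • z = z) : ∃ y : 𝓞 H, RingOfIntegers.mapRingHom jH y = z := by
  obtain ⟨y, hy⟩ := P022D.Sel.KillAux.fix_range jH z fun g hg => congrArg (fun x : 𝓞 Qb => (x : Qb)) (hz g hg)
  have : IsIntegral ℤ y := by
    rw [← isIntegral_algHom_iff jH.toIntAlgHom jH.injective]
    exact (show jH.toIntAlgHom y = z from hy) ▸ z.isIntegral_coe
  exact ⟨⟨y, this⟩, RingOfIntegers.ext hy⟩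

theorem fb_pow {P : Ideal (𝓞 Qb)} {φ : GQ} (h : Fb 2 P φ) (k : ℕ) (x : 𝓞 Qb) :
    φ ^ k • x - x ^ 2 ^ k ∈ P := by
  induction k with
  | zero => simp
  | succ k ih =>
    rw [pow_succ', mul_smul, pow_succ, pow_mul]
    convert add_mem (h (φ ^ k • x)) (P.mul_mem_right (φ ^ k • x + x ^ 2 ^ k) ih) using 1
    ring

theorem fb_inv {P : Ideal (𝓞 Qb)} (hP : P.IsPrime) {φ : GQ} (h : Fb 2 P φ) {k : ℕ} (hk : 0 < k)
    {x : 𝓞 Qb} (hx : x ∉ P) (e : φ ^ k • x = x) : x * x ^ (2 ^ k - 2) - 1 ∈ P := by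
  have := neg_mem (fb_pow h k x)
  have h2 : 2 ^ k = 2 ^ k - 2 + 2 := (Nat.sub_add_cancel (Nat.le_self_pow hk.ne' 2)).symm
  rw [e, h2] at this
  refine (hP.mem_or_mem (show x * _ ∈ P from ?_)).resolve_left hx
  convert this using 1
  ring

theorem zp_sum {P : Ideal (𝓞 Qb)} (hP : P.IsPrime) {ι : Type} (s : Finset ι) (n : ι → ℕ)
    (a : ι → Qb) (b : ι → 𝓞 Qb) (h : ∀ i ∈ s, Zp P (a i - b i)) (hs : Zp P (∑ i ∈ s, n i * a i)) :
    ∑ i ∈ s, n i • b i ∈ P := by
  classical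
  have : Zp P (∑ i ∈ s, n i * a i - (∑ i ∈ s, n i • b i : 𝓞 Qb)) := by
    clear hs
    induction s using Finset.induction_on with
    | empty => exact ⟨1, 0, hP.one_notMem, zero_mem _, by simp⟩
    | insert i s hi ih =>
      obtain ⟨u, t, hu, ht, e⟩ := ih fun k hk => h k (Finset.mem_insert_of_mem hk)
      obtain ⟨u', t', hu', ht', e'⟩ := h i (Finset.mem_insert_self _ _)
      refine ⟨u * u', u' * t + u * n i * t', hP.mul_notMem hu hu',
        add_mem (P.mul_mem_left _ ht) (P.mul_mem_left _ ht'), ?_⟩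
      rw [Finset.sum_insert hi, Finset.sum_insert hi, nsmul_eq_mul]
      simp only [map_add, map_mul, map_natCast]
      linear_combination (u' : Qb) * e + (u : Qb) * n i * e'
  obtain ⟨u, t, hu, ht, e⟩ := this
  obtain ⟨u', t', hu', ht', e'⟩ := hs
  refine (hP.mem_or_mem (show u * u' * _ ∈ P from ?_)).resolve_left (hP.mul_notMem hu hu')
  convert sub_mem (P.mul_mem_left u ht') (P.mul_mem_left u' ht) using 1
  refine RingOfIntegers.ext ?_
  simp only [map_sub, map_mul]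
  linear_combination (u : Qb) * e' - (u' : Qb) * e

theorem shift {Γ U : Subgroup GQ} {R : Finset GQ} (hR : Tv Γ U R) {A B : Type} [AddCommGroup A]
    [DecidableEq A] [AddCommMonoid B] (e : GQ → A) (ad : ∀ g ∈ Γ, ∀ h ∈ Γ, e (g * h) = e g + e h)
    (ke : ∀ g ∈ U, e g = 0) (F : GQ → B) (hF : ∀ g, ∀ u ∈ U, F (g * u) = F g) {γ : GQ} (hγ : γ ∈ Γ)
    (a : A) : ∑ g ∈ R with e g = a, F (γ * g) = ∑ g ∈ R with e g = e γ + a, F g := by
  rw [Finset.sum_filter, Finset.sum_filter, ← hR.sum_mul hγ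
    (fun g => if e g = e γ + a then F g else 0) fun y hy u hu m => by
      rw [ad y hy u hu, ke u m, add_zero, hF y u m]]
  refine Finset.sum_congr rfl fun g hg => ?_
  simp only [ad γ hγ g (hR.mem g hg), add_right_inj]

section us

variable {K : Type} [Field K] [NumberField K] {j : K →+* Qb} {c : ℕ} {P : Ideal (𝓞 Qb)} {φ : GQ}
  {s : 𝓞 Qb} (us : Us j c P φ s) (hp : P.IsPrime) (h2 : (2 : 𝓞 Qb) ∈ P)
include us

theorem e1 (g : GQ) : g (jc j c) * g (s : Qb) ^ 2 = (g (s : Qb) + 256) ^ 3 := by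
  simpa [map_ofNat] using congrArg g us.e1

theorem e2 (g : GQ) : (g * φ) (jc j c) * g (s : Qb) = (g (s : Qb) + 16) ^ 3 := by
  simpa [map_ofNat] using congrArg g us.e2

theorem e4 (g : GQ) : g • s * ((g * φ) • s + 256) ^ 3 = ((g * φ) • s) ^ 2 * (g • s + 16) ^ 3 := by
  refine RingOfIntegers.ext ?_
  simp only [map_pow, map_add, map_mul, map_ofNat]
  change g s * ((g * φ) s + 256) ^ 3 = (g * φ) s ^ 2 * (g s + 16) ^ 3
  linear_combination (g * φ) (s : Qb) ^ 2 * e2 us g - g (s : Qb) * e1 us (g * φ)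

include h2

theorem n256 {g : GQ} (hg : g ∈ GK j) : g • s + 256 ∉ P := fun h => (us.unit g hg).1 (by
  convert sub_mem h (P.mul_mem_right 128 h2) using 1; ring)

theorem e3 {g : GQ} (hg : g ∈ GK j) :
    (((g • s + 256) ^ 3 : 𝓞 Qb) : Qb) * ij j c g = ((g • s) ^ 2 : 𝓞 Qb) := by
  have : g (jc j c) ≠ 0 := fun h => n256 us h2 hg (by
    have := e1 us g
    rw [h, zero_mul, eq_comm, pow_eq_zero_iff three_ne_zero] at this
    rw [show g • s + 256 = 0 from RingOfIntegers.ext (by simpa [coe_smul, map_ofNat] using this)]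
    exact zero_mem _)
  simp only [map_pow, map_add, map_ofNat, ij]
  rw [mul_inv_eq_iff_eq_mul₀ this]
  change (g s + 256) ^ 3 = g s ^ 2 * _
  linear_combination -e1 us g

include hp

theorem jc_ne : jc j c ≠ 0 := fun h => by
  have := e3 us h2 (one_mem _)
  rw [ij, h, map_zero, inv_zero, mul_zero, eq_comm, RingOfIntegers.coe_eq_zero_iff] at this
  exact (us.unit 1 (one_mem _)).1 (hp.mem_of_pow_mem 2 (this ▸ zero_mem _))

theorem zp_ij {g : GQ} (hg : g ∈ GK j) {t : 𝓞 Qb} (ht : g • s * t - 1 ∈ P) : Zp P (ij j c g - t) := by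
  refine ⟨(g • s + 256) ^ 3, (g • s) ^ 2 - (g • s + 256) ^ 3 * t,
    fun h => n256 us h2 hg (hp.mem_of_pow_mem _ h), ?_, ?_⟩
  · convert sub_mem (P.mul_mem_left (-(g • s) ^ 2) ht) (P.mul_mem_right
      (128 * (3 * (g • s) ^ 2 + 768 * g • s + 65536) * t) h2) using 1
    ring
  · rw [mul_sub, e3 us h2 hg]
    exact ((map_sub (algebraMap _ Qb) _ _).trans (congrArg _ (map_mul _ _ _))).symm

end us

section fld

variable {H : Type} [Field H] [NumberField H] (jH : H →+* Qb)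

theorem inj : Function.Injective (RingOfIntegers.mapRingHom jH) := fun a b h =>
  RingOfIntegers.ext (jH.injective (congrArg (fun x : 𝓞 Qb => (x : Qb)) h))

theorem ex_u {w w' : 𝓞 Qb} (w0 : w ≠ 0) (h : Associated w w') (f1 : ∀ γ ∈ GK jH, γ • w = w)
    (f2 : ∀ γ ∈ GK jH, γ • w' = w') :
    ∃ u : (𝓞 H)ˣ, RingOfIntegers.mapRingHom jH u * w = w' := by
  obtain ⟨U, hU⟩ := h
  have Uf : ∀ γ ∈ GK jH, γ • (U : 𝓞 Qb) = U := fun γ hγ => mul_left_cancel₀ w0 (by
    rw [hU, ← f2 γ hγ, ← hU, smul_mul', f1 γ hγ])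
  obtain ⟨u1, hu1⟩ := desc jH U Uf
  obtain ⟨u2, hu2⟩ := desc jH (U⁻¹ : (𝓞 Qb)ˣ) fun γ hγ => mul_left_cancel₀ U.ne_zero (by
    rw [U.mul_inv, ← Uf γ hγ, ← smul_mul', U.mul_inv, smul_one])
  exact ⟨Units.mkOfMulEqOne u1 u2 (inj jH (by rw [map_mul, hu1, hu2, U.mul_inv, map_one])),
    by rw [Units.val_mkOfMulEqOne, hu1, mul_comm, hU]⟩

end fld

theorem fib {N : ℕ} [NeZero N] (R : Finset GQ) (e : GQ → ZMod N) (h : GQ → 𝓞 Qb) (i : ℕ) :
    ∑ k ∈ Finset.range N, k.choose i • ∑ g ∈ R with e g = k, h g =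
      ∑ g ∈ R, (e g).val.choose i • h g := by
  rw [← Finset.sum_fiberwise_of_maps_to (t := Finset.range N) (g := fun g => (e g).val)
    fun g _ => Finset.mem_range.2 (ZMod.val_lt _)]
  refine Finset.sum_congr rfl fun k hk => ?_
  rw [Finset.smul_sum]
  refine Finset.sum_congr (Finset.filter_congr fun g _ => ?_) fun g hg => by
    rw [(Finset.mem_filter.1 hg).2]
  rw [← (ZMod.val_injective _).eq_iff, ZMod.val_cast_of_lt (Finset.mem_range.1 hk)]

end Dt

open Dt in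
theorem dpt (rc1 : P004K.RC1) : DPT := by
  intro K _ _ j c M e ly F H _ _ _ _ _ jH φ σ fl cp P hP hφ v' ip hup s us R hR
  obtain ⟨-, hp, h2⟩ := hP
  replace h2 : (2 : 𝓞 Qb) ∈ P := by simpa using h2
  obtain ⟨-, -, nrm, com, -⟩ := rc1 K j ly.iq c (Nat.pos_of_ne_zero ly.sq.ne_zero)
  refine ⟨jc_ne us hp h2, fun g hg =>
    ⟨_, _, fun h => n256 us h2 hg (hp.mem_of_pow_mem _ h), e3 us h2 hg⟩, ?_⟩
  obtain ⟨f, f0, -, hf, -⟩ := Subgroup.exists_pow_mem_of_relIndex_ne_zero hR.ne fl.mem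
  obtain ⟨t, ht⟩ : ∃ t, t = s ^ (2 ^ f - 2) := ⟨_, rfl⟩
  have hin : ∀ g ∈ GK j, g • s * g • t - 1 ∈ P := fun g hg => by
    rw [ht, smul_pow']
    refine fb_inv hp hφ f0 (us.unit g hg).1 ?_
    rw [← mul_smul, show φ ^ f * g = g * (g⁻¹ * φ ^ f * g⁻¹⁻¹) by group, mul_smul,
      us.fix _ (nrm.conj_mem _ hf _)]
  have cg : ∀ g ∈ GK j, (φ * g) • s - (g • s) ^ 2 * (1 + 16 * g • t) ∈ Sm P (2 ^ 4) := fun g hg => by
    rw [show φ * g = g * φ * (φ⁻¹ * g⁻¹ * φ⁻¹⁻¹ * g⁻¹⁻¹) by group, mul_smul,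
      us.fix _ (com _ (inv_mem fl.mem) _ (inv_mem hg))]
    exact one P h2 (us.unit g hg).1 (us.unit _ (mul_mem hg fl.mem)).1 (e4 us g) (hin g hg)
  obtain ⟨w, hw⟩ : ∃ w : 𝓞 Qb, w = ∏ g ∈ R with e g = 0, g • s := ⟨_, rfl⟩
  obtain ⟨X, hX0⟩ : ∃ X : ZMod (2 * M) → 𝓞 Qb, ∀ a, X a = ∑ g ∈ R with e g = a, g • t :=
    ⟨_, fun _ => rfl⟩
  have hX : ∀ γ ∈ GK j, ∀ a, γ • X a = X (e γ + a) := fun γ hγ a => by
    rw [hX0, hX0, Finset.smul_sum]
    simp only [← mul_smul]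
    exact shift hR e ly.add ly.ker (· • t)
      (fun g u hu => by rw [mul_smul, ht, smul_pow' u, us.fix u hu]) hγ a
  have w1 : ∀ γ : GQ, γ • w = ∏ g ∈ R with e g = 0, (γ * g) • s := fun γ => by
    simp only [hw, Finset.smul_prod', mul_smul]
  have wf : ∀ γ ∈ GK jH, γ • w = w := fun γ hγ => by
    obtain ⟨h1, h0⟩ := (fl.gH γ).1 hγ
    have := shift (B := Additive (𝓞 Qb)) hR e ly.add ly.ker (fun g => Additive.ofMul (g • s))
      (fun g u hu => by rw [mul_smul, us.fix u hu]) h1 0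
    rw [h0, add_zero, ← ofMul_prod, ← ofMul_prod, ← hw] at this
    exact (w1 γ).trans (Additive.ofMul.injective this)
  have wP : w ∉ P := fun h => by
    obtain ⟨g, hg, h⟩ := (Ideal.IsPrime.prod_mem_iff).1 (hw ▸ h)
    exact (us.unit g (hR.mem g (Finset.mem_filter.1 hg).1)).1 h
  set ι := RingOfIntegers.mapRingHom jH with hι
  have act : ∀ y, ι (σ • y) = φ • ι y := fun y => RingOfIntegers.ext (fl.act y)
  have actk : ∀ (k : ℕ) y, ι (σ ^ k • y) = φ ^ k • ι y := fun k y => by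
    induction k with
    | zero => simp
    | succ k ih => rw [pow_succ', pow_succ', mul_smul, mul_smul, act, ih]
  obtain ⟨W, hW⟩ := desc jH w wf
  obtain ⟨x, hx⟩ := desc jH (X 0) fun γ hγ => by
    rw [hX γ ((fl.gH γ).1 hγ).1, ((fl.gH γ).1 hγ).2, add_zero]
  change ι W = w at hW
  change ι x = X 0 at hx
  obtain ⟨u, hu⟩ := ex_u jH (w := w) (w' := φ • w) (fun h => wP (h ▸ zero_mem _)) (by
      rw [w1, hw]
      refine Associated.prod _ _ _ fun g hg => ?_
      have hg := hR.mem g (Finset.mem_filter.1 hg).1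
      exact (us.unit g hg).2.trans (us.unit _ (mul_mem fl.mem hg)).2.symm) wf
    fun γ hγ => by rw [← hW, ← act]; exact RingOfIntegers.ext (hγ _)
  refine ⟨u, ?_, fun l hl vn => ?_⟩
  · have wc : (w : Qb) = ∏ g ∈ R with e g = 0, g (s : Qb) := hw ▸ map_prod (algebraMap _ Qb) _ _
    have := congrArg (algebraMap _ Qb) hu
    rw [map_mul] at this
    change jH (u : 𝓞 H) * (w : Qb) = φ w at this
    rw [wc] at this
    convert this
  replace hup : up H (below (jH.comp (algebraMap F H)) P) = P.comap ι := hup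
  have hm : P.comap ι * up H v' = Ideal.span {(2 : 𝓞 H)} := by
    rw [← hup, ← Ideal.map_mul, ip.mul, Ideal.map_span]
    simp [map_ofNat]
  have hc : P.comap ι ⊔ up H v' = ⊤ := by rw [← hup, ← Ideal.map_sup, ip.cop, Ideal.map_top]
  have fr : ∀ y, σ • y - y ^ 2 ∈ P.comap ι := fun y => by
    rw [Ideal.mem_comap, map_sub, map_pow, act]; exact hφ _
  have pp : (P.comap ι).IsPrime := inferInstance
  obtain ⟨ω, k1, k2⟩ := core (S := W) (x := x) (u := u) two_ne_zero hm hc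
    (MulSemiringAction.toRingHom _ (𝓞 H) σ) (stab pp fr) (odd_o f0)
    (by
      rw [Ideal.mem_comap, map_sub, map_pow, map_one, hW, pow_succ']
      exact fb_inv hp hφ f0 wP (wf _ ((fl.gH _).2 ⟨hf.1, ly.ker _ hf⟩)))
    (l3 two_ne_zero ι P hm hc 4 (by
      rw [MulSemiringAction.toRingHom_apply]
      simp only [map_sub, map_mul, map_pow, map_add, map_one, map_ofNat, act, hW, hx]
      rw [w1, hw, hX0]
      exact prod P h2 _ _ _ _ fun g hg => cg g (hR.mem g (Finset.mem_filter.1 hg).1)))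
    (inj jH (by rw [map_mul, hW, hu, ← hW]; exact (act W).symm))
  obtain ⟨m, hM⟩ := ly.pow
  have : NeZero (2 * M) := ⟨by rw [hM]; positivity⟩
  obtain ⟨ε, hε⟩ := fl.gen
  have ek : ∀ k : ℕ, e (φ ^ k) = k * ε := fun k => by
    induction k with
    | zero => simpa using ly.ker 1 (one_mem _)
    | succ k ih => rw [pow_succ, ly.add _ (pow_mem fl.mem k) _ fl.mem, ih, hε]; push_cast; ring
  have := resid (a := ((ε⁻¹ : (ZMod (2 * M))ˣ) : ZMod (2 * M)).val) (b := (ε : ZMod (2 * M)).val)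
    pp (by simpa using two_mem hm 1) fr hM cp.ord ((ZMod.natCast_eq_natCast_iff _ _ _).1 (by simp))
    hl k2 fun i hi => by
      have := zp_sum hp R (fun g => (e g).val.choose i) (ij j c) (· • t)
        (fun g hg => zp_ij us hp h2 (hR.mem g hg) (hin g (hR.mem g hg))) (vn i hi)
      rw [← fib R e (· • t) i] at this
      rw [Ideal.mem_comap, map_sum]
      convert this using 2 with k
      rw [map_nsmul, actk, hx, hX _ (pow_mem fl.mem _), ek, Nat.cast_mul, ZMod.natCast_zmod_val,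
        mul_right_comm, Units.inv_mul, one_mul, add_zero, hX0]
  obtain ⟨y, hy⟩ := root (algebraMap (𝓞 F) (𝓞 H)) (P.comap ι) (q := 2 ^ M) (by
    rw [← ip.nm, Ideal.absNorm_apply, Submodule.cardQuot_apply]; rfl) (by positivity) this
  exact ⟨_, _, y, odd_o f0, hup ▸ k1, hup ▸ hy⟩

end Vale.Agent.P004R
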