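import Vale.Agent.P004R.Ly

/-!
# P004R: the fields of a layer and their primes
-/

set_option autoImplicit false
set_option linter.all false

open NumberField Module IsDedekindDomain
open scoped Pointwise

noncomputable section

namespace Vale.Agent.P004R

open Vale.Agent.P022 Vale.Agent.P022.H916 P004K Gl
open Vale.Agent.P027M.S (Inert)
open Vale.Agent.P022D.W (dec)
open Vale.Agent.P022E.GW (Ov Fb)

namespace Fd

variable {K F H : Type} [Field K] [NumberField K] [Field F] [NumberField F] [Field H]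
  [NumberField H] [Algebra F H] {j : K →+* Qb} {jH : H →+* Qb} {c M l : ℕ}
  {e : GQ → ZMod (2 * M)} {P : Ideal (𝓞 Qb)} {φ ψ γ : GQ} {σ : H ≃ₐ[ℚ] H}

theorem not_mem (hP : P.IsPrime) {a b : ℕ} (h : a.Coprime b) (m : (a : 𝓞 Qb) ∈ P) :
    (b : 𝓞 Qb) ∉ P := fun z => by
  obtain ⟨x, y, e⟩ := (Nat.Coprime.cast h : IsCoprime (a : 𝓞 Qb) (b : 𝓞 Qb))
  exact hP.ne_top ((Ideal.eq_top_iff_one P).2 (e ▸ add_mem (P.mul_mem_left _ m) (P.mul_mem_left _ z)))

theorem act_pow (hF : Fl j M e F jH φ σ) (i : ℕ) : ∀ x, jH ((σ ^ i) x) = (φ ^ i) (jH x) := by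
  induction i with
  | zero => exact fun _ => rfl
  | succ i ih => exact fun x => by rw [pow_succ, pow_succ, AlgEquiv.mul_apply, ih, hF.act]; rfl

theorem gH (hF : Fl j M e F jH φ σ) (g : GQ) : g ∈ GK jH ↔ g ∈ GK j ∧ 1 * e g = 0 := by
  rw [one_mul]; exact hF.gH g

/-- a subgroup which contains a generator -/
theorem mem_of (h : Ly j c M e) (hF : Fl j M e F jH φ σ) {S : Subgroup GQ} (le : GK jH ≤ S) {t g : GQ}
    (m : t ∈ GK j) (u : IsUnit (e t)) (k : g ∈ GK j) (a : ∀ i : ℕ, e g = e (t ^ i) → t ^ i ∈ S) :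
    g ∈ S := by
  obtain ⟨i, hi⟩ := h.gen m u k
  have b := le ((hF.gH _).2 ⟨mul_mem (inv_mem k) (pow_mem m i), hi⟩)
  rw [h.add _ (inv_mem k) _ (pow_mem m i), h.inv k, neg_add_eq_zero] at hi
  simpa using inv_mem (mul_mem b (inv_mem (a i hi)))

theorem cx (h : Iq K) : IsTotallyComplex K :=
  ⟨fun w => InfinitePlace.not_isReal_iff_isComplex.1 fun a =>
    h.im.false (InfinitePlace.embedding_of_isReal a)⟩

theorem sub_inf (h : Iq K) : Subsingleton (InfinitePlace K) := by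
  have := cx h
  have a := IsTotallyComplex.finrank K
  rw [← Fintype.card_le_one_iff_subsingleton, InfinitePlace.card_eq_nrRealPlaces_add_nrComplexPlaces,
    IsTotallyComplex.nrRealPlaces_eq_zero]
  rw [h.two] at a
  omega

theorem root (h : Ly j c M e) (hF : Fl j M e F jH φ σ) {q d : ℕ} (hq : q.Prime) (qc : q ∣ c)
    (qd : ¬ q ∣ d) {v : (𝓞 H)ˣ} (hv : v ^ d = 1) : v = 1 ∨ v = -1 := by
  obtain ⟨P, hP, m⟩ := exists_prime hq
  obtain ⟨-, b, t, i, f⟩ := h.ram q P ⟨hq, hP, m⟩ qc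
  have d0 : d ≠ 0 := fun z => qd (z ▸ dvd_zero q)
  have inj : ∀ {L : Type} [Field L] (jL : L →+* Qb),
      Function.Injective (RingOfIntegers.mapRingHom jL) := fun jL x y a =>
    RingOfIntegers.ext (jL.injective (congrArg (fun z : 𝓞 Qb => (z : Qb)) a))
  set y := RingOfIntegers.mapRingHom jH v with hy
  have y1 : y ^ d = 1 := by rw [hy, ← map_pow, ← Units.val_pow_eq_pow_val, hv, Units.val_one, map_one]
  have ty : t • y = y := root_eq hP (not_mem hP ((hq.coprime_iff_not_dvd).2 qd) m)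
    (by rw [← smul_pow', y1, smul_one]) y1 (i y)
  obtain ⟨z, hz⟩ := fixed_int j (x := y) fun g => mem_of h hF (S := MulAction.stabilizer GQ y)
    (fun g hg => RingOfIntegers.ext (hg _)) (b (inert_dec hP i)) (f ▸ isUnit_one) g.2
    fun i _ => pow_mem (show t ∈ MulAction.stabilizer GQ y from ty) i
  have z1 : z ^ d = 1 := inj j (by rw [map_pow, hz, y1, map_one])
  obtain ⟨w, rfl⟩ := IsUnit.of_pow_eq_one z1 d0
  refine (h.upm w).imp (fun a => Units.ext (inj jH ?_)) fun a => Units.ext (inj jH ?_)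
  · rw [← hy, ← hz, a, Units.val_one, Units.val_one, map_one, map_one]
  · rw [← hy, ← hz, a, Units.val_neg, Units.val_neg, Units.val_one, Units.val_one, map_neg, map_neg,
      map_one, map_one]

theorem cp (h : Ly j c M e) (hF : Fl j M e F jH φ σ) : Cp F σ M := by
  obtain ⟨_, _, ρH, DH, nH, cH⟩ := h.dict (gH hF) fun t m u i => by
    rw [one_mul]; exact (h.dvd m u i).1
  obtain ⟨_, _, ρF, DF, nF, cF⟩ := h.dict hF.gF fun t m u i => (h.dvd m u i).2
  have := cx h.iq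
  have := sub_inf h.iq
  refine ⟨h.pow, AlgEquiv.ext fun x => jH.injective ?_, fun x => ⟨fun a => ?_, ?_⟩, ?_, ?_,
    isTotallyComplex_of_algebra K F, fun w w' => ?_, fun u hu => ?_⟩
  · rw [act_pow hF]
    exact (hF.gH _).2 ⟨pow_mem hF.mem _, (h.dvd hF.mem hF.gen _).1.2 dvd_rfl⟩ x
  · obtain ⟨y, hy⟩ := fixed (jH.comp (algebraMap F H)) (x := jH x) fun g =>
      mem_of h hF (S := MulAction.stabilizer GQ (jH x)) (fun g hg => hg x) hF.mem hF.gen
        ((hF.gF g).1 g.2).1 fun i hi => by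
          obtain ⟨k, rfl⟩ := (h.dvd hF.mem hF.gen i).2.1 (hi ▸ ((hF.gF g).1 g.2).2)
          rw [pow_mul]
          exact pow_mem (show (φ ^ M) (jH x) = jH x by rw [← act_pow hF, a]) k
    exact ⟨y, jH.injective hy⟩
  · rintro ⟨y, rfl⟩
    refine jH.injective ?_
    rw [act_pow hF]
    exact (hF.gF _).2 ⟨pow_mem hF.mem _, (h.dvd hF.mem hF.gen _).2.2 dvd_rfl⟩ y
  · rw [← finrank_mul_finrank ℚ K H, h.iq.two, ← IsGalois.card_aut_eq_finrank, nH]
    ring
  · rw [← finrank_mul_finrank ℚ K F, h.iq.two, ← IsGalois.card_aut_eq_finrank, nF]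
  · obtain ⟨τ, rfl⟩ := InfinitePlace.exists_smul_eq_of_comap_eq (k := K) (w := w) (w' := w')
      (Subsingleton.elim _ _)
    obtain ⟨i, hi⟩ := cH ⟨φ, hF.mem⟩ hF.gen τ⁻¹
    refine ⟨i, fun x => ?_⟩
    rw [InfinitePlace.smul_apply]
    refine congrArg w (jH.injective ?_)
    rw [act_pow hF, show τ.symm x = τ⁻¹ x from rfl, ← hi]
    show jH ((ρH ⟨φ, hF.mem⟩ ^ i) x) = _
    rw [← map_pow, ← DH.act]
    rfl
  · obtain ⟨m, m0, hm⟩ := isOfFinOrder_iff_pow_eq_one.1 hu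
    obtain ⟨q, q', a, a', b, d⟩ := h.two
    obtain ⟨n, k, f, rfl⟩ := Nat.exists_eq_pow_mul_and_not_dvd m0.ne' q a.ne_one
    obtain ⟨P, hP, o⟩ := exists_prime a'
    have d' := (dvd_mul_left q' q).trans d
    refine root h hF a' d' (d := q ^ n * 2) (fun z => ?_) ?_
    · rcases (Nat.Prime.dvd_mul a').1 z with z | z
      · exact b ((Nat.prime_dvd_prime_iff_eq a' a).1 (a'.dvd_of_dvd_pow z)).symm
      · exact (h.ram q' P ⟨a', hP, o⟩ d').1 ((Nat.prime_dvd_prime_iff_eq a' Nat.prime_two).1 z)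
    · rw [pow_mul]
      rcases root h hF a ((dvd_mul_right q q').trans d) f (by rw [← pow_mul]; exact hm) with z | z
      · rw [z, one_pow]
      · rw [z, neg_one_sq]

theorem rank (h : Ly j c M e) (C : Cp F σ M) : finrank (𝓞 F) (𝓞 H) = 2 := by
  have a := Ideal.absNorm_algebraMap (S := 𝓞 H) (I := Ideal.span {((2 : ℕ) : 𝓞 F)})
  rw [Ideal.map_span, Set.image_singleton, map_natCast, Ideal.absNorm_span_natCast,
    Ideal.absNorm_span_natCast, RingOfIntegers.rank, RingOfIntegers.rank, C.deg, C.deg',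
    ← pow_mul] at a
  have b : 4 * M = 2 * M * finrank (𝓞 F) (𝓞 H) := Nat.pow_right_injective le_rfl a
  have := h.M0
  exact Nat.eq_of_mul_eq_mul_left (show 0 < 2 * M by omega) (b.symm.trans (by ring))

theorem half (r1 : RC1) (r : RC2) (h : Ly j c M e) (hF : Fl j M e F jH φ σ) (o : Ov l P)
    (lc : ¬ l ∣ c) (le : dec P ≤ GK j) (f : Fb l P ψ) (u : IsUnit (e ψ)) :
    Ideal.absNorm (below (jH.comp (algebraMap F H)) P) = l ^ M ∧
    up H (below (jH.comp (algebraMap F H)) P) = below jH P ∧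
    ¬ (l : ℤ) ∣ discr K ∧ ¬ (l : ℤ) ∣ discr F ∧ ¬ (l : ℤ) ∣ discr H := by
  obtain ⟨hl, hP, m⟩ := o
  have P0 : P ≠ ⊥ := fun z => by
    rw [z, Ideal.mem_bot] at m
    exact hl.ne_zero (by exact_mod_cast m)
  have I : ∀ g : GQ, Inert P g → g ∈ GK j ∧ e g = 0 := fun g i => ⟨le (inert_dec hP i),
    h.unr r hP P0 (not_mem hP (hl.coprime_iff_not_dvd.2 lc) m) (le (inert_dec hP i)) i⟩
  have IH : ∀ g : GQ, Inert P g → g ∈ GK jH := fun g i => (hF.gH g).2 (I g i)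
  have IF : ∀ g : GQ, Inert P g → g ∈ GK (jH.comp (algebraMap F H)) := fun g i =>
    (hF.gF g).2 ⟨(I g i).1, by rw [(I g i).2, mul_zero]⟩
  have nH := h.nor r1 (gH hF)
  have nF := h.nor r1 hF.gF
  have nK := h.nor r1 (U := GK j) (a := 0) fun g => by simp
  obtain ⟨-, ρH, DH⟩ := ex_Q nH
  obtain ⟨-, ρF, DF⟩ := ex_Q nF
  have k : ψ ∈ GK j := le (mem_of_frob hP hl.ne_zero f)
  have f' : ∀ x : 𝓞 Qb, ψ • x - x ^ Ideal.absNorm (below jQ P) ∈ P := by rwa [norm_Q hP hl m]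
  have a := nrm DF hP hl.ne_zero m (fun g _ => IF g) (mem_Q ψ) f' (f := M) fun i => by
    rw [hF.gF, (h.dvd k u i).2, and_iff_right (pow_mem k i)]
  have b := nrm DH hP hl.ne_zero m (fun g _ => IH g) (mem_Q ψ) f' (f := 2 * M) fun i => by
    rw [hF.gH, (h.dvd k u i).1, and_iff_right (pow_mem k i)]
  rw [norm_Q hP hl m] at a b
  refine ⟨a, eq_of_norm (Ideal.map_le_iff_le_comap.2 fun x hx => hx) ?_ (below_ne jH hl.ne_zero m),
    ndisc nK hP hl m fun g i => (I g i).1, ndisc nF hP hl m IF, ndisc nH hP hl m IH⟩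
  rw [Ideal.absNorm_algebraMap, rank h (cp h hF), a, b, ← pow_mul, mul_comm]

theorem dec_smul {g : GQ} : g ∈ dec (γ • P) → γ⁻¹ * g * γ ∈ dec P := fun a x => by
  have := a (γ • x)
  rw [Ideal.mem_pointwise_smul_iff_inv_smul_mem, Ideal.mem_pointwise_smul_iff_inv_smul_mem,
    inv_smul_smul] at this
  rwa [mul_smul, mul_smul]

theorem ov_smul (o : Ov l P) (g : GQ) : Ov l (g • P) := by
  have := o.2.1
  refine ⟨o.1, inferInstance, ?_⟩
  rw [Ideal.mem_pointwise_smul_iff_inv_smul_mem,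
    show g⁻¹ • (l : 𝓞 Qb) = l from map_natCast (MulSemiringAction.toRingHom GQ (𝓞 Qb) g⁻¹) l]
  exact o.2.2

theorem fb_smul (f : Fb l P ψ) (g : GQ) : Fb l (g • P) (g * ψ * g⁻¹) := fun x => by
  rw [Ideal.mem_pointwise_smul_iff_inv_smul_mem, smul_sub, mul_smul, mul_smul, inv_smul_smul,
    smul_pow']
  exact f _

theorem prm (r1 : RC1) (r : RC2) (h : Ly j c M e) (hF : Fl j M e F jH φ σ) (o : Ov l P)
    (lc : ¬ l ∣ c) (le : dec P ≤ GK j) (f : Fb l P ψ) (u : IsUnit (e ψ)) (hγ : γ ∉ GK j) :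
    Ip σ M l (below (jH.comp (algebraMap F H)) P) (below (jH.comp (algebraMap F H)) (γ • P)) ∧
      up H (below (jH.comp (algebraMap F H)) P) = below jH P ∧
      up H (below (jH.comp (algebraMap F H)) (γ • P)) = below jH (γ • P) ∧
      ¬ (l : ℤ) ∣ discr K ∧ ¬ (l : ℤ) ∣ discr F ∧ ¬ (l : ℤ) ∣ discr H := by
  have nK := h.nor r1 (U := GK j) (a := 0) fun g => by simp
  have p : ψ ∈ dec P := mem_of_frob o.2.1 o.1.ne_zero f
  have o' := ov_smul o γ
  obtain ⟨a, b, d⟩ := half r1 r h hF o lc le f u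
  obtain ⟨a', b', -⟩ := half r1 r h hF o' lc (fun g hg => by
    simpa [mul_assoc] using nK.conj_mem _ (le (dec_smul hg)) γ) (fb_smul f γ)
    (by rw [(h.cj' r1 hγ (le p)).2]; exact u.neg)
  set jF := jH.comp (algebraMap F H)
  have ne : below jF P ≠ below jF (γ • P) := fun z => hγ (by
    obtain ⟨g, hg⟩ := exists_smul jF o.2.1 o'.2.1 z
    have : (g : GQ)⁻¹ * γ ∈ dec P := fun x => by
      rw [mul_smul, ← Ideal.mem_pointwise_smul_iff_inv_smul_mem, ← hg,
        Ideal.smul_mem_pointwise_smul_iff]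
    simpa using mul_mem ((hF.gF g).1 g.2).1 (le this))
  have cop : below jF P ⊔ below jF (γ • P) = ⊤ :=
    ((below_pr jF o.2.1).isMaximal (below_ne jF o.1.ne_zero o.2.2)).coprime_of_ne
      ((below_pr jF o'.2.1).isMaximal (below_ne jF o.1.ne_zero o'.2.2)) ne
  refine ⟨⟨o.1, (eq_of_norm ?_ ?_ (mul_ne_zero (below_ne jF o.1.ne_zero o.2.2)
    (below_ne jF o.1.ne_zero o'.2.2))).symm, cop, a, b ▸ below_pr jH o.2.1, b' ▸ below_pr jH o'.2.1,
    fun x hx => ?_⟩, b, b', d⟩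
  · rw [Ideal.mul_eq_inf_of_coprime cop, Ideal.span_singleton_le_iff_mem]
    exact ⟨(mem_below l).2 o.2.2, (mem_below l).2 o'.2.2⟩
  · rw [map_mul, a, a', Ideal.absNorm_span_natCast, RingOfIntegers.rank, (cp h hF).deg', two_mul,
      pow_add]
  · rw [b] at hx ⊢
    obtain ⟨i, hi⟩ := h.gen (le p) u (inv_mem hF.mem) |>.imp fun i hi =>
      (hF.gH _).2 ⟨mul_mem (inv_mem (inv_mem hF.mem)) (pow_mem (le p) i), hi⟩
    have n := (h.nor r1 (gH hF)).conj_mem _ hi (ψ ^ i)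
    have q : (ψ ^ i) • RingOfIntegers.mapRingHom jH (σ • x) = RingOfIntegers.mapRingHom jH x := by
      refine RingOfIntegers.ext ?_
      show (ψ ^ i) (jH (σ x)) = jH x
      rw [hF.act]
      simpa [mul_assoc] using n x
    exact (pow_mem p i _).1 (q ▸ hx)

end Fd

open Fd in
/-- **FLD** -/
theorem fld (r1 : RC1) (r : RC2) : FLD := by
  intro K _ _ j c M e h φ m u
  let U : ZMod (2 * M) → Subgroup GQ := fun a =>
    { carrier := {g | g ∈ GK j ∧ a * e g = 0}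
      mul_mem' := fun {g t} x y => ⟨mul_mem x.1 y.1, by
        rw [h.add _ x.1 _ y.1, mul_add, x.2, y.2, add_zero]⟩
      one_mem' := ⟨one_mem _, by rw [h.one, mul_zero]⟩
      inv_mem' := fun {g} x => ⟨inv_mem x.1, by rw [h.inv x.1, mul_neg, x.2, neg_zero]⟩ }
  have op : ∀ a, IsOpen (U a : Set GQ) := fun a => Subgroup.isOpen_mono (H₁ := Hc j c)
    (fun g x => ⟨x.1, by rw [h.ker g x, mul_zero]⟩) (r1 K j h.iq c h.c0).2.1
  have nr : ∀ a, (U a).Normal := fun a => h.nor r1 fun _ => Iff.rfl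
  obtain ⟨F, _, _, jF, eF⟩ := H853.exists_fix _ (op 2)
  obtain ⟨H, _, _, _, -, jH, ρ, D, eH, -⟩ := exists_fld jF _ (op 1) (fun g x => eF ▸ ⟨x.1, by
    rw [← one_mul (e g), x.2, mul_zero]⟩) fun g _ t x => (nr 1).conj_mem t x g
  obtain rfl : jH.comp (algebraMap F H) = jF := RingHom.ext D.comp
  obtain ⟨-, ρQ, DQ⟩ := ex_Q (jL := jH) (eH ▸ nr 1)
  have hF : Fl j M e F jH φ (ρQ ⟨φ, mem_Q φ⟩) :=
    ⟨fun g => by rw [eH, ← one_mul (e g)]; rfl, fun g => by rw [eF]; rfl, m, u,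
      fun x => (DQ.act ⟨φ, mem_Q φ⟩ x).symm⟩
  exact ⟨F, H, _, inferInstance, _, inferInstance, _, jH, _, hF, cp h hF,
    fun l P ψ o lc le f u' γ hγ => prm r1 r h hF o lc le f u' hγ⟩

end Vale.Agent.P004R
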