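import Vale.Agent.P004R.Ly
import Vale.Agent.P027M.S.Eul

/-!
# P004R: the factorisation of the zeta functions
-/

set_option autoImplicit false
set_option linter.all false

open NumberField Module IsDedekindDomain Polynomial
open scoped Pointwise

noncomputable section

namespace Vale.Agent.P004R

open Vale.Agent.P022 Vale.Agent.P022.H916 P004K Gl P027M.M
open Vale.Agent.P027M.S (Inert LI Pr)
open Vale.Agent.P027M.S.Eul (fv)
open Vale.Agent.P016Z.EP (Nv)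

namespace La

theorem prod_root {ω : ℂ} {f : ℕ} (h : IsPrimitiveRoot ω f) (f0 : 0 < f) (x : ℂ) (g : ℕ) :
    ∏ k ∈ Finset.range (g * f), (1 - ω ^ k * x) = (1 - x ^ f) ^ g := by
  induction g with
  | zero => simp
  | succ g ih =>
    have a := congrArg (eval 1) (X_pow_sub_C_eq_prod h f0 (rfl : x ^ f = _))
    simp only [eval_prod, eval_sub, eval_pow, eval_X, eval_C, one_pow] at a
    rw [Nat.succ_mul, Finset.prod_range_add, ih, pow_succ, a]
    simp only [pow_add, mul_comm g, pow_mul, h.pow_eq_one, one_pow, one_mul]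

theorem prod_two (h : ℕ → ℂ) (M : ℕ) : ∏ k ∈ Finset.range (2 * M), h k =
    (∏ k ∈ Finset.range M, h (2 * k)) * ∏ k ∈ Finset.range M, h (2 * k + 1) := by
  induction M with
  | zero => simp
  | succ M ih =>
    rw [Nat.mul_succ, Finset.prod_range_succ, Finset.prod_range_succ, Finset.prod_range_succ,
      Finset.prod_range_succ, ih]
    ring

theorem cpow_pow (N f : ℕ) (s : ℂ) : ((N ^ f : ℕ) : ℂ) ^ s = ((N : ℂ) ^ s) ^ f := by
  induction f with
  | zero => simp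
  | succ f ih => rw [pow_succ, Nat.cast_mul, Complex.natCast_mul_natCast_cpow, ih, pow_succ]

variable {K L : Type} [Field K] [NumberField K] [Field L] [NumberField L]
  {j : K →+* Qb} {jL : L →+* Qb} {P : Ideal (𝓞 Qb)} {l : ℕ}

/-- the Euler product -/
theorem euler {θ : Ideal (𝓞 K) →* ℂ} (hθ : ∀ I, ‖θ I‖ ≤ 1) {s : ℝ} (hs : 1 < s) :
    HasProd (fun v : Pr K => 1 - fv θ s v) (LI θ s)⁻¹ := by
  classical
  rw [P027M.S.Eul.LI_eq]
  exact P016Z.EP.tendsto_prod (P027M.S.Eul.summable_gw_fv hθ hs)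

section

variable [Algebra K L]

/-- the local factor above a prime -/
def Lo (L : Type) [Field L] [NumberField L] [Algebra K L] (s : ℝ) (v : Pr K) (a : ℂ) : Prop :=
  HasProd (fun w : {w : Pr L // w.under (𝓞 K) = v} => 1 - fv 1 s w.1) a

theorem zeta {s : ℝ} (hs : 1 < s) {a : Pr K → ℂ} (h : ∀ v, Lo L s v (a v)) :
    HasProd a (dedekindZeta L s)⁻¹ := by
  rw [← P027M.S.Eul.LI_one hs]
  exact ((Equiv.sigmaFiberEquiv fun w : Pr L => w.under (𝓞 K)).hasProd_iff.2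
    (euler (θ := 1) (fun _ => by simp) hs)).sigma h

variable {ρ : GK j →* (L ≃ₐ[K] L)} [IsGalois K L] {v : Pr K}

theorem lo (D : Dict j jL ρ) (hP : P.IsPrime) (hv : below j P = v.asIdeal) (s : ℝ) : ∃ g : ℕ,
    g * Nat.card ((below jL P).inertia (L ≃ₐ[K] L)) * (below jL P).inertiaDeg (𝓞 K) =
      Nat.card (L ≃ₐ[K] L) ∧
    Lo L s v ((1 - ((Nv v : ℂ) ^ (-(s : ℂ))) ^ (below jL P).inertiaDeg (𝓞 K)) ^ g) := by
  obtain ⟨a, b, d⟩ := fib D hP hv
  have := Fintype.ofFinite {w : Pr L // w.under (𝓞 K) = v}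
  refine ⟨_, b, ?_⟩
  have k := hasProd_fintype fun w : {w : Pr L // w.under (𝓞 K) = v} => 1 - fv 1 s w.1
  rwa [Finset.prod_congr rfl (g := fun _ =>
    1 - ((Nv v : ℂ) ^ (-(s : ℂ))) ^ (below jL P).inertiaDeg (𝓞 K)) fun w _ => by
      rw [fv, MonoidHom.one_apply, one_mul, Nv, d w w.2, cpow_pow, Nv],
    Finset.prod_const, Finset.card_univ, ← Nat.card_eq_fintype_card] at k

theorem lo_ram (D : Dict j jL ρ) (hP : P.IsPrime) (hv : below j P = v.asIdeal) (s : ℝ) {t : GK j}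
    (i : Inert P t) (h : ∀ τ, τ ∈ Submonoid.powers (ρ t)) :
    Lo L s v (1 - (Nv v : ℂ) ^ (-(s : ℂ))) := by
  obtain ⟨g, a, b⟩ := lo D hP hv s
  have e : (below jL P).inertia (L ≃ₐ[K] L) = ⊤ := eq_top_iff.2 fun τ _ => by
    obtain ⟨n, rfl⟩ := h τ
    exact pow_mem (show ρ t ∈ (below jL P).inertia (L ≃ₐ[K] L) from D.inertia_push i) n
  rw [e, Subgroup.card_top, mul_right_comm, mul_eq_right₀ Nat.card_pos.ne', mul_eq_one] at a
  rwa [a.1, a.2, pow_one, pow_one] at b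

theorem lo_unr (D : Dict j jL ρ) (hP : P.IsPrime) (hv : below j P = v.asIdeal) (s : ℝ) (hl : l ≠ 0)
    (m : (l : 𝓞 Qb) ∈ P) (hI : ∀ g ∈ GK j, (∀ x : 𝓞 Qb, g • x - x ∈ P) → g ∈ GK jL) {ψ : GK j}
    (hψ : ∀ x : 𝓞 Qb, (ψ : GQ) • x - x ^ Ideal.absNorm (below j P) ∈ P) {ω : ℂ}
    (h : ∀ i : ℕ, (ψ : GQ) ^ i ∈ GK jL ↔ ω ^ i = 1) :
    Lo L s v (∏ k ∈ Finset.range (Nat.card (L ≃ₐ[K] L)), (1 - ω ^ k * (Nv v : ℂ) ^ (-(s : ℂ)))) := by
  obtain ⟨g, a, b⟩ := lo D hP hv s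
  have e : (below jL P).inertia (L ≃ₐ[K] L) = ⊥ := eq_bot_iff.2 fun τ hτ =>
    D.inertia_eq_bot hP (fun g hg => (D.ker g).2 (hI g g.2 hg)) hτ
  rw [e, Subgroup.card_bot, mul_one] at a
  rw [← ord D hP hl m hI hψ] at a b
  have k : ∀ i, ω ^ i = 1 ↔ orderOf (ρ ψ) ∣ i := fun i => by
    rw [orderOf_dvd_iff_pow_eq_one, ← map_pow, D.ker]
    exact (h i).symm
  rwa [← a, prod_root ⟨(k _).2 dvd_rfl, fun i => (k i).1⟩ (orderOf_pos _)]

end

/-- the standard character -/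
def om {N : ℕ} (a : ZMod N) : ℂ := ze N 1 ^ a.val

theorem prim {N : ℕ} (h : 0 < N) : IsPrimitiveRoot (ze N 1) N := by
  simpa [ze] using Complex.isPrimitiveRoot_exp N h.ne'

theorem ze_om {N : ℕ} (k : ℕ) (a : ZMod N) : ze N (k * a.val) = om a ^ k := by
  rw [om, ← pow_mul, ze, ze, ← Complex.exp_nat_mul]
  congr 1
  push_cast
  ring

theorem om_cast {N : ℕ} (h : 0 < N) (n : ℕ) : om (n : ZMod N) = ze N 1 ^ n := by
  rw [om, ZMod.val_natCast, ← pow_eq_pow_mod _ (prim h).pow_eq_one]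

theorem om_add {N : ℕ} (h : 0 < N) (a b : ZMod N) : om (a + b) = om a * om b := by
  have : NeZero N := ⟨h.ne'⟩
  show _ = ze N 1 ^ a.val * ze N 1 ^ b.val
  rw [← pow_add, ← om_cast h, Nat.cast_add, ZMod.natCast_zmod_val, ZMod.natCast_zmod_val]

theorem om_pow {N : ℕ} (h : 0 < N) (a : ZMod N) (i : ℕ) : om a ^ i = 1 ↔ i * a = 0 := by
  have : NeZero N := ⟨h.ne'⟩
  rw [om, ← pow_mul, (prim h).pow_eq_one_iff_dvd, ← ZMod.natCast_eq_zero_iff, Nat.cast_mul,
    ZMod.natCast_zmod_val, mul_comm]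

theorem norm_om {N : ℕ} (h : 0 < N) (a : ZMod N) : ‖om a‖ = 1 := by
  rw [om, norm_pow, (prim h).norm'_eq_one h.ne', one_pow]

variable {c M : ℕ} {e : GQ → ZMod (2 * M)}

theorem th_eq (h : Ly j c M e) (r : RC2) (k : ℕ) {I : Ideal (𝓞 K)} {g : GQ} (a : Cop c I)
    (b : Ar j c I g) : th j c M e k I = om (e g) ^ k := by
  have x : Cop c I ∧ ∃ g, Ar j c I g := ⟨a, g, b⟩
  have y := x.2.choose_spec
  have z := h.ker _ (((r K j h.iq c h.c0).2.2.2.1 I g _ b).1 y)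
  rw [h.add _ (inv_mem b.1) _ y.1, h.inv b.1, neg_add_eq_zero] at z
  rw [th, dif_pos x, ze_om, z]

theorem th_zero (k : ℕ) {I : Ideal (𝓞 K)} (a : ¬ Cop c I) : th j c M e k I = 0 :=
  dif_neg fun x => a x.1

theorem cop_mul {I I' : Ideal (𝓞 K)} : Cop c (I * I') ↔ Cop c I ∧ Cop c I' := by
  simp only [Cop, ← Ideal.isCoprime_iff_sup_eq, IsCoprime.mul_left_iff, Ne, Ideal.mul_eq_bot, not_or]
  tauto

/-- the character as a homomorphism -/
theorem ex_th (h : Ly j c M e) (r : RC2) (k : ℕ) : ∃ θ : Ideal (𝓞 K) →* ℂ,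
    (θ : Ideal (𝓞 K) → ℂ) = th j c M e k ∧ ∀ I, ‖θ I‖ ≤ 1 := by
  obtain ⟨a, -, b, -, d, -⟩ := r K j h.iq c h.c0
  have N0 : 0 < 2 * M := by have := h.M0; omega
  refine ⟨⟨⟨th j c M e k, ?_⟩, fun I I' => ?_⟩, rfl, fun I => ?_⟩
  · obtain ⟨g, hg⟩ := a _ (cop_top c)
    rw [Ideal.one_eq_top, th_eq h r k (cop_top c) hg,
      h.ker g ((d _ g (cop_top c) hg).2 ⟨1, 0, by simp⟩), om, ZMod.val_zero, pow_zero, one_pow]
  · show th j c M e k (I * I') = th j c M e k I * th j c M e k I'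
    by_cases x : Cop c I
    · by_cases y : Cop c I'
      · obtain ⟨g, hg⟩ := a _ x
        obtain ⟨g', hg'⟩ := a _ y
        rw [th_eq h r k (cop_mul.2 ⟨x, y⟩) (b _ _ _ _ x y hg hg'), th_eq h r k x hg,
          th_eq h r k y hg', h.add _ hg.1 _ hg'.1, om_add N0, mul_pow]
      · rw [th_zero k y, th_zero k fun z => y (cop_mul.1 z).2, mul_zero]
    · rw [th_zero k x, th_zero k fun z => x (cop_mul.1 z).1, zero_mul]
  · show ‖th j c M e k I‖ ≤ 1
    by_cases x : Cop c I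
    · obtain ⟨g, hg⟩ := a _ x
      rw [th_eq h r k x hg, norm_pow, norm_om N0, one_pow]
    · rw [th_zero k x, norm_zero]
      exact zero_le_one

end La

open La in
/-- **LFA** -/
theorem lfa (r : RC2) : LFA := by
  intro K _ _ j c M e h F H _ _ _ _ _ jH φ σ hF s hs
  have N0 : 0 < 2 * M := by have := h.M0; omega
  have gH : ∀ g, g ∈ GK jH ↔ g ∈ GK j ∧ 1 * e g = 0 := fun g => by rw [one_mul]; exact hF.gH g
  obtain ⟨_, _, ρH, DH, nH, cH⟩ := h.dict gH fun t m u i => by rw [one_mul]; exact (h.dvd m u i).1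
  obtain ⟨_, _, ρF, DF, nF, cF⟩ := h.dict hF.gF fun t m u i => (h.dvd m u i).2
  choose θ t1 t2 using fun k => ex_th h r (2 * k + 1)
  have key : ∀ v : Pr K, ∃ b, Lo F s v b ∧
      Lo H s v (b * ∏ k ∈ Finset.range M, (1 - fv (θ k) s v)) := fun v => by
    obtain ⟨P, hP, hv⟩ := exists_above j v.asIdeal v.isPrime
    have l0 := (P016Z.EP.rc_prime v).ne_zero
    have m := (mem_below (j := j) (P := P) _).1 (hv ▸ P016Z.EP.rc_mem v)
    by_cases x : (c : 𝓞 Qb) ∈ P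
    · obtain ⟨t, a, b, d⟩ := h.tot hP x
      have u : IsUnit (e t) := d ▸ isUnit_one
      refine ⟨_, lo_ram DF hP hv s (t := ⟨t, a⟩) b (cF _ u), ?_⟩
      rw [Finset.prod_eq_one fun k _ => ?_, mul_one]
      · exact lo_ram DH hP hv s (t := ⟨t, a⟩) b (cH _ u)
      · rw [fv, t1, th_zero _ fun z => v.isPrime.ne_top ?_, zero_mul, sub_zero]
        rw [← z.2, sup_eq_left.2]
        rw [Ideal.span_singleton_le_iff_mem, ← hv]
        exact (mem_below c).2 x
    · have P0 : P ≠ ⊥ := fun z => by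
        rw [z, Ideal.mem_bot] at m
        exact l0 (by exact_mod_cast m)
      obtain ⟨ψ, hψ⟩ := exists_frob j hP (P016Z.EP.rc_prime v) m
      have ar := (r K j h.iq c h.c0).2.2.2.2.2.2 P hP P0 x ψ ψ.2 1 (by simpa using hψ)
      rw [pow_one, hv] at ar
      have cp : Cop c v.asIdeal := ⟨v.ne_bot, v.isMaximal.out.2 _ (lt_of_le_of_ne le_sup_left
        fun z => x ((mem_below (j := j) c).1 (by
          rw [hv, z]; exact Ideal.mem_sup_right (Ideal.mem_span_singleton_self _))))⟩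
      have a := lo_unr DF hP hv s l0 m (fun g k i => (hF.gF g).2 ⟨k, by
        rw [h.unr r hP P0 x k i, mul_zero]⟩) hψ (ω := om (e ψ) ^ 2) fun i => by
          rw [hF.gF, and_iff_right (pow_mem ψ.2 i), h.epow ψ.2, ← pow_mul, om_pow N0, Nat.cast_mul,
            mul_assoc, Nat.cast_ofNat]
      have b := lo_unr DH hP hv s l0 m (fun g k i => (hF.gH g).2 ⟨k, h.unr r hP P0 x k i⟩) hψ
        (ω := om (e ψ)) fun i => by rw [hF.gH, and_iff_right (pow_mem ψ.2 i), h.epow ψ.2, om_pow N0]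
      rw [nH, prod_two] at b
      rw [nF] at a
      refine ⟨_, a, ?_⟩
      simp only [← pow_mul, fv, t1, th_eq h r _ cp ar]
      exact b
  choose b b1 b2 using key
  have z := (zeta hs b2).unique ((zeta hs b1).mul
    (hasProd_prod fun k (_ : k ∈ Finset.range M) => euler (t2 k) hs))
  rw [Finset.prod_inv_distrib, ← mul_inv, inv_inj] at z
  simpa only [t1] using z

end Vale.Agent.P004R
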