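import Vale.Agent.P004R.St
import Vale.Agent.P004K.Rc.Q
import Vale.Agent.P004K.Gm.Jh
import Vale.Agent.P004K.Lt
import Vale.Agent.P022K.G2.Tr
import Vale.Agent.P027M.S.Eul

/-!
# P004R, row LFB: the series of a primitive ring class character and Epstein zeta functions
-/

set_option autoImplicit false
set_option linter.all false

open UpperHalfPlane NumberField Set

noncomputable section

namespace Vale.Agent.P004R

open Vale.Agent.P022 (Qb GQ GK below)
open P027H P027M.M P004K P004K.Rc P004K.Gm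
open Vale.Agent.P027M.S (Inert LI)
open Vale.Agent.P022K.G2 (Tv)

namespace Lb

section lat

variable {O : Type} [CommRing O] {J : O →+* ℂ} {ω : O} {σ : O →+* O} {c : ℕ} {B I : Ideal O}
  {a x w : O}

variable (O) in
/-- the order as a group -/
def Og (c : ℕ) : AddSubgroup O where
  carrier := {a | Rc c a}
  add_mem' := by
    rintro _ _ ⟨k, a, rfl⟩ ⟨m, b, rfl⟩
    exact ⟨k + m, a + b, by push_cast; ring⟩
  zero_mem' := ⟨0, 0, by simp⟩
  neg_mem' := Rc.neg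

/-- the intersection of `B` with the order -/
def LL (J : O →+* ℂ) (c : ℕ) (B : Ideal O) : Submodule ℤ ℂ :=
  AddSubgroup.toIntSubmodule ((B.toAddSubgroup ⊓ Og O c).map (J : O →+ ℂ))

theorem mem_LL {z : ℂ} : z ∈ LL J c B ↔ ∃ a, (a ∈ B ∧ Rc c a) ∧ J a = z := Iff.rfl

theorem rc_one (a : O) : Rc 1 a := ⟨0, a, by simp⟩

theorem cop_one (h : B ≠ ⊥) : Cop 1 B := cop_of h B.zero_mem (b := 1) (by simp)

theorem ar_lat : ∃ κ : ℝ, 0 < κ ∧ ∀ τ : ℍ, ar (lat τ) = τ.im * κ := by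
  have e (τ : ℍ) : ar (lat τ) =
      τ.im * MeasureTheory.volume.real (ZSpan.fundamentalDomain Complex.basisOneI) := by
    rw [lat, ar_eq]
    simp [pp, abs_of_pos τ.im_pos]
  exact ⟨_, pos_of_mul_pos_right (e UpperHalfPlane.I ▸ ar_pos (isLat _)) (im_pos _).le, e⟩

/-- the elements which are prime to the conductor -/
def Gp (c : ℕ) (B : Ideal O) : Set O := {a | a ∈ B ∧ Rc c a ∧ Cop c (Ideal.span {a})}

variable (q : Qd J ω σ)
include q

theorem idx (h : Cop c B) :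
    (LL J c B).toAddSubgroup.relIndex (Oc J c).toAddSubgroup = B.toAddSubgroup.index := by
  have e : (Oc J c).toAddSubgroup = (Og O c).map (J : O →+ ℂ) := AddSubgroup.ext fun z => mem_Oc
  have t : Og O c ⊔ B.toAddSubgroup = ⊤ := eq_top_iff.2 fun a _ => by
    obtain ⟨u, hu, b, k⟩ := cop_ex h
    exact AddSubgroup.mem_sup.2 ⟨c * (b * a), Rc.cm c _, a * u, B.mul_mem_left a hu,
      by linear_combination a * k⟩
  rw [e, LL, AddSubgroup.toIntSubmodule_toAddSubgroup,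
    AddSubgroup.relIndex_map_map_of_injective _ _ q.inj, AddSubgroup.inf_relIndex_right,
    ← AddSubgroup.relIndex_sup_right, t, AddSubgroup.relIndex_top_right]

theorem ar_LL (hc : 0 < c) (h : Cop c B) (l : IsLat (LL J c B)) :
    ar (LL J c B) = B.toAddSubgroup.index * ar (Oc J c) := by
  rw [← idx q h, ← ar_div l (q.kl_Oc hc).lat fun _ ⟨a, ha, e⟩ => mem_Oc.2 ⟨a, ha.2, e⟩,
    div_mul_cancel₀ _ (ar_pos (q.kl_Oc hc).lat).ne']

theorem nm_span (ha : a ≠ 0) :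
    ((Ideal.span {a}).toAddSubgroup.index : ℝ) = Complex.normSq (J a) := by
  have l := (q.kl_Oc one_pos).lat
  have H : Hom (J a) (Oc J 1) (LL J 1 (Ideal.span {a})) := ⟨q.J_ne ha, fun z => by
    rw [mem_Oc, mem_LL]
    constructor
    · rintro ⟨b, -, rfl⟩
      exact ⟨a * b, ⟨Ideal.mul_mem_right _ _ (Ideal.mem_span_singleton_self a), rc_one _⟩,
        map_mul _ _ _⟩
    · rintro ⟨b, ⟨hb, -⟩, e⟩
      obtain ⟨d, rfl⟩ := Ideal.mem_span_singleton.1 hb
      exact ⟨d, rc_one d, mul_left_cancel₀ (q.J_ne ha) (by rw [← e, map_mul])⟩⟩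
  exact mul_right_cancel₀ (ar_pos l).ne' ((ar_LL q one_pos
    (cop_one (Ideal.span_singleton_eq_bot.not.2 ha)) (H.isLat l)).symm.trans (ar_hom H l))

theorem scale (hc : 0 < c) (h : Cop c B) {τ : ℍ} {μ : ℂ} (H : Hom μ (lat τ) (LL J c B)) :
    Complex.normSq μ * τ.im = B.toAddSubgroup.index * (c * (J ω).im) := by
  obtain ⟨κ, k0, e⟩ := ar_lat
  obtain ⟨τ', e1, e2⟩ := q.oc_eq hc
  have k := (ar_hom H (isLat τ)).symm.trans (ar_LL q hc h (H.isLat (isLat τ)))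
  have i : τ'.im = c * (J ω).im := by simpa using congrArg Complex.im e1
  rw [e2, e, e, i] at k
  exact mul_right_cancel₀ k0.ne' (by linear_combination k)

theorem rc_cancel (hx : Rc c x) (h : Cop c (Ideal.span {x})) (k : Rc c (x * w)) : Rc c w := by
  obtain ⟨l, b, rfl⟩ := hx
  obtain ⟨u, v, e⟩ := q.cop_int h
  obtain ⟨m, d, k⟩ := k
  have e' : (u : O) * l + v * c = 1 := by exact_mod_cast congrArg (Int.cast : ℤ → O) e
  exact ⟨u * m, u * d - u * b * w + v * w, by push_cast; linear_combination u * k - w * e'⟩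

theorem dvd_of {c' m m' : ℕ} (h : Cop c' (Ideal.span {a})) (d : m' ∣ c' * m)
    (e : (m : O) * a = m' * x) : m' ∣ m := by
  obtain ⟨u, hu, b, k⟩ := cop_ex h
  obtain ⟨y, rfl⟩ := Ideal.mem_span_singleton.1 hu
  obtain ⟨n, d⟩ := d
  have d' : (c' : O) * m = m' * n := by exact_mod_cast congrArg (Nat.cast : ℕ → O) d
  exact Int.natCast_dvd_natCast.1 (q.dvd_int ⟨x * y + n * b, by
    push_cast; linear_combination y * e + b * d' - m * k⟩)

omit q in
theorem ex_gd (hc : 0 < c) (h : Cop c B) (hB : a ∈ B) (r : Rc c a) (a0 : a ≠ 0) :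
    ∃ p ∈ c.divisorsAntidiagonal, ∃ x ∈ Gp p.1 B, (p.2 : O) * x = a := by
  obtain ⟨k, b, rfl⟩ := r
  obtain ⟨m, k', c', m0, co, e1, e2⟩ :=
    Int.exists_gcd_one' (Int.gcd_pos_of_ne_zero_right k (show (c : ℤ) ≠ 0 by omega))
  lift c' to ℕ using nonneg_of_mul_nonneg_left (e2 ▸ Int.natCast_nonneg c) (by omega)
  obtain rfl : c = c' * m := by exact_mod_cast e2
  have e : (m : O) * (k' + c' * b) = k + (c' * m : ℕ) * b := by rw [e1]; push_cast; ring
  obtain ⟨u, hu, d, s⟩ := cop_ex h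
  obtain ⟨i, j, t⟩ := Int.isCoprime_iff_gcd_eq_one.2 co
  have t' : (i : O) * k' + j * c' = 1 := by exact_mod_cast congrArg (Int.cast : ℤ → O) t
  refine ⟨(c', m), Nat.mem_divisorsAntidiagonal.2 ⟨rfl, hc.ne'⟩, k' + c' * b, ⟨?_, ⟨k', b, rfl⟩,
    cop_of (Ideal.span_singleton_eq_bot.not.2 fun z => a0 (by rw [← e, z, mul_zero]))
      (Ideal.mul_mem_left _ (i : O) (Ideal.mem_span_singleton_self _)) (b := j - i * b)
      (by linear_combination t')⟩, e⟩
  have := B.add_mem (B.mul_mem_left (k' + c' * b) hu) (B.mul_mem_left (c' * d) (e ▸ hB))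
  push_cast at s
  rwa [show (k' + c' * b) * u + c' * d * (m * (k' + c' * b)) = (k' : O) + c' * b by
    linear_combination (k' + c' * b) * s] at this

theorem hom_LL [IsDedekindDomain O] (hI : Cop c I) (hB : Cop c B) (hx : Rc c x)
    (e : I * B = Ideal.span {x}) : Hom (J x) (st J I (Oc J c)) (LL J c B) := by
  have co : Cop c (Ideal.span {x}) := e ▸ cop_mul hI hB
  have x0 : J x ≠ 0 := q.J_ne (Ideal.span_singleton_eq_bot.not.1 co.1)
  have xm : x ∈ I * B := e ▸ Ideal.mem_span_singleton_self x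
  refine ⟨x0, fun z => ⟨fun hz => ?_, ?_⟩⟩
  · obtain ⟨y, hy, k⟩ := mem_Oc.1 (hz x (Ideal.mul_le_left xm) (q.end_Oc.2 hx))
    refine ⟨y, ⟨?_, hy⟩, k⟩
    have : Ideal.span {y} * I ≤ B * I := by
      rw [mul_comm B, e, Ideal.span_singleton_mul_le_iff]
      refine fun a => sp_le hI fun a ha r => ?_
      obtain ⟨v, -, k'⟩ := mem_Oc.1 (hz a ha (q.end_Oc.2 r))
      exact Ideal.mem_span_singleton'.2 ⟨v, q.inj (by rw [map_mul, map_mul, k, k']; ring)⟩
    rw [← Ideal.dvd_iff_le, mul_dvd_mul_iff_right hI.1, Ideal.dvd_iff_le] at this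
    exact this (Ideal.mem_span_singleton_self y)
  · intro hz a ha ea
    obtain ⟨y, ⟨hy, r⟩, k⟩ := mem_LL.1 hz
    obtain ⟨v, t⟩ := Ideal.mem_span_singleton.1 (e ▸ Ideal.mul_mem_mul ha hy)
    refine mem_Oc.2 ⟨v, rc_cancel q hx co (t ▸ (q.end_Oc.1 ea).mul r), mul_left_cancel₀ x0 ?_⟩
    rw [← map_mul, ← t, map_mul, k, mul_left_comm]

end lat

section sums

variable {K : Type} [Field K] [NumberField K] {J : 𝓞 K →+* ℂ} {ω : 𝓞 K} {σ : 𝓞 K →+* 𝓞 K} {c : ℕ}
  {B : Ideal (𝓞 K)} {s : ℝ}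

theorem sm_N (hs : 1 < s) : Summable fun I : Ideal (𝓞 K) => (Ideal.absNorm I : ℝ) ^ (-s) := by
  refine (Subtype.val_injective (p := fun I : Ideal (𝓞 K) => I ≠ ⊥)).summable_iff
    (fun I hI => ?_) |>.1 ((P016Z.EP.idealEquiv K).summable_iff.1
      ((P027M.S.Eul.summable_Nm hs).congr fun m => ?_))
  · rw [not_not.1 fun h => hI ⟨⟨I, h⟩, rfl⟩, Ideal.absNorm_bot, Nat.cast_zero,
      Real.zero_rpow (by linarith)]
  · rw [← P016Z.EP.absNorm_idealEquiv]
    rfl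

/-- sums over sets of ideals -/
def TT (S : Set (Ideal (𝓞 K))) (s : ℝ) : ℝ := ∑' I : S, (Ideal.absNorm I.1 : ℝ) ^ (-s)

theorem hs_TT (hs : 1 < s) (S : Set (Ideal (𝓞 K))) :
    HasSum (fun I : S => (Ideal.absNorm I.1 : ℝ) ^ (-s)) (TT S s) := ((sm_N hs).subtype S).hasSum

/-- the terms -/
def FF (J : 𝓞 K →+* ℂ) (B : Ideal (𝓞 K)) (s : ℝ) (a : 𝓞 K) : ℝ :=
  (Complex.normSq (J a) / Ideal.absNorm B) ^ (-s)

theorem hs_inj {ι α : Type} {φ : ι → α} (i : Function.Injective φ) {u : ι → ℝ} {F : α → ℝ}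
    (e : ∀ i, F (φ i) = u i) {T : ℝ} (h : HasSum u T) : HasSum ((range φ).indicator F) T := by
  rw [← i.hasSum_iff fun x hx => indicator_of_notMem hx _]
  simpa only [Function.comp_def, indicator_of_mem (mem_range_self _), e] using h

variable (q : Qd J ω σ)
include q

theorem two_one (up : Upm K) (hs : 1 < s) (B0 : B ≠ ⊥) {S : Set (Ideal (𝓞 K))} {G : Set (𝓞 K)}
    (h1 : ∀ a ∈ G, ∃ I ∈ S, Ideal.span {a} = B * I) (h2 : ∀ I ∈ S, ∃ a ∈ G, Ideal.span {a} = B * I)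
    (h3 : ∀ a ∈ G, a ≠ 0 ∧ -a ∈ G) : HasSum (G.indicator (FF J B s)) (2 * TT S s) := by
  choose f f1 f2 using fun I : S => h2 I.1 I.2
  have i : Function.Injective f := fun I I' e =>
    Subtype.ext (mul_left_cancel₀ B0 (by rw [← f2, ← f2, e]))
  have v (I : S) : FF J B s (f I) = (Ideal.absNorm I.1 : ℝ) ^ (-s) := by
    rw [FF, ← nm_span q (h3 _ (f1 I)).1]
    change (((Ideal.absNorm (Ideal.span {f I}) : ℕ) : ℝ) / _) ^ _ = _
    rw [f2, map_mul, Nat.cast_mul, mul_div_cancel_left₀ _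
      (Nat.cast_ne_zero.2 (Ideal.absNorm_eq_zero_iff.not.2 B0))]
  have e : G = range f ∪ range fun I => -f I := by
    refine Subset.antisymm (fun a ha => ?_) (union_subset (range_subset_iff.2 f1)
      (range_subset_iff.2 fun I => (h3 _ (f1 I)).2))
    obtain ⟨I, hI, e⟩ := h1 a ha
    obtain ⟨u, k⟩ := Ideal.span_singleton_eq_span_singleton.1 ((f2 ⟨I, hI⟩).trans e.symm)
    rcases up u with rfl | rfl
    exacts [.inl ⟨_, by simpa using k⟩, .inr ⟨_, by simpa using k⟩]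
  have d : Disjoint (range f) (range fun I => -f I) := disjoint_left.2 (by
    rintro _ ⟨I, rfl⟩ ⟨I', k⟩
    obtain rfl : I' = I := Subtype.ext (mul_left_cancel₀ B0 (by
      rw [← f2, ← f2, ← k, Ideal.span_singleton_neg]))
    exact (h3 _ (f1 I')).1 (CharZero.neg_eq_self_iff.1 k))
  rw [e, indicator_union_of_disjoint d, two_mul]
  exact (hs_inj i v (hs_TT hs S)).add (hs_inj (neg_injective.comp i)
    (fun I => by rw [← v]; simp [FF]) (hs_TT hs S))

theorem by_gcd (hc : 0 < c) (h : Cop c B) (hs : 1 < s) {T : ℕ → ℝ}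
    (hT : ∀ p ∈ c.divisorsAntidiagonal, HasSum ((Gp p.1 B).indicator (FF J B s)) (T p.1)) :
    HasSum ({a | a ∈ B ∧ Rc c a}.indicator (FF J B s))
      (∑ p ∈ c.divisorsAntidiagonal, ((p.2 : ℝ) ^ 2) ^ (-s) * T p.1) := by
  have k := hasSum_sum (s := c.divisorsAntidiagonal)
    (f := fun p => ((fun x => (p.2 : 𝓞 K) * x) '' Gp p.1 B).indicator (FF J B s))
    (a := fun p => ((p.2 : ℝ) ^ 2) ^ (-s) * T p.1) fun p hp => by
      have i := mul_right_injective₀ (Nat.cast_ne_zero (R := 𝓞 K).2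
        (Nat.right_ne_zero_of_mem_divisorsAntidiagonal hp))
      rw [← i.hasSum_iff fun x hx => indicator_of_notMem (s := _ '' _)
        (fun ⟨a, _, e⟩ => hx ⟨a, e⟩) _]
      refine (congrArg (HasSum · _) (funext fun a => ?_)).mpr
        ((hT p hp).mul_left (((p.2 : ℝ) ^ 2) ^ (-s)))
      by_cases ha : a ∈ Gp p.1 B
      · rw [Function.comp, indicator_of_mem (mem_image_of_mem _ ha), indicator_of_mem ha, FF, FF,
          ← Real.mul_rpow (by positivity) (div_nonneg (Complex.normSq_nonneg _) (by positivity))]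
        simp [mul_div_assoc, pow_two]
      · rw [Function.comp, indicator_of_notMem (i.mem_set_image.not.2 ha), indicator_of_notMem ha,
          mul_zero]
  convert k using 2 with a
  by_cases a0 : a = 0
  · have z : FF J B s a = 0 := by simp [FF, a0, Real.zero_rpow (show -s ≠ 0 by linarith)]
    simp [indicator, z]
  by_cases ha : a ∈ B ∧ Rc c a
  · obtain ⟨p, hp, x, hx, e⟩ := ex_gd hc h ha.1 ha.2 a0
    rw [indicator_of_mem (s := {a | a ∈ B ∧ Rc c a}) ha, Finset.sum_eq_single_of_mem p hp,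
      indicator_of_mem (s := _ '' _) ⟨x, hx, e⟩]
    refine fun p' hp' ne => indicator_of_notMem (s := _ '' _) (fun ⟨x', hx', e'⟩ => ne ?_) _
    have e1 := (Nat.mem_divisorsAntidiagonal.1 hp).1
    have e2 := (Nat.mem_divisorsAntidiagonal.1 hp').1
    have e3 : p'.2 = p.2 := Nat.dvd_antisymm
      (dvd_of q hx.2.2 (e1 ▸ e2 ▸ dvd_mul_left _ _) (e.trans e'.symm))
      (dvd_of q hx'.2.2 (e2 ▸ e1 ▸ dvd_mul_left _ _) (e'.trans e.symm))
    exact Prod.ext (mul_right_cancel₀ (Nat.right_ne_zero_of_mem_divisorsAntidiagonal hp)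
      (by rw [e1, ← e3, e2])) e3
  · rw [indicator_of_notMem (s := {a | a ∈ B ∧ Rc c a}) ha]
    refine (Finset.sum_eq_zero fun p hp => indicator_of_notMem ?_ _).symm
    rintro ⟨x, ⟨h1, ⟨k, b, rfl⟩, -⟩, rfl⟩
    refine ha ⟨B.mul_mem_left _ h1, p.2 * k, b, ?_⟩
    rw [← (Nat.mem_divisorsAntidiagonal.1 hp).1]
    push_cast
    ring

theorem ze_eq' (hc : 0 < c) (h : Cop c B) {τ : ℍ} {μ : ℂ} (H : Hom μ (lat τ) (LL J c B)) :
    Ze τ s = (c * (J ω).im) ^ s * ∑' a, {a | a ∈ B ∧ Rc c a}.indicator (FF J B s) a := by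
  choose f f1 f2 using fun x : ℤ × ℤ => mem_LL.1 ((H.2 _).1 (lin_lat τ x.1 x.2))
  have i : Function.Injective f := fun x y e =>
    have := lin_inj (mul_left_cancel₀ H.1 (by rw [← f2, ← f2, e]))
    Prod.ext this.1 this.2
  have n : (0 : ℝ) < Ideal.absNorm B :=
    Nat.cast_pos.2 (Nat.pos_of_ne_zero (Ideal.absNorm_eq_zero_iff.not.2 h.1))
  have A := mul_pos (Nat.cast_pos.2 hc) q.im
  have m := Complex.normSq_pos.2 H.1
  have e : Complex.normSq μ * τ.im = Ideal.absNorm B * (c * (J ω).im) := scale q hc h H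
  rw [← i.tsum_eq fun a ha => ?_, ← tsum_mul_left]
  · refine tsum_congr fun x => ?_
    have := Complex.normSq_nonneg ((x.1 : ℂ) * τ + x.2)
    rw [indicator_of_mem (s := {a | a ∈ B ∧ Rc c a}) (f1 x), FF, f2, map_mul,
      Real.rpow_mul (norm_nonneg _), Real.rpow_two, ← Complex.normSq_eq_norm_sq,
      Real.rpow_neg (by positivity), ← Real.inv_rpow (by positivity),
      ← Real.mul_rpow A.le (by positivity), ← Real.div_rpow τ.im_pos.le (by positivity)]
    congr 1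
    rw [inv_div, ← mul_div_assoc, mul_comm _ (Ideal.absNorm B : ℝ), ← e, mul_div_mul_left _ _ m.ne']
  · have ha := support_indicator_subset ha
    obtain ⟨u, v, k⟩ := mem_lat.1 ((H.symm.2 _).1 (mem_LL.2 ⟨a, ha, rfl⟩))
    exact ⟨(u, v), q.inj (by rw [f2, k, mul_inv_cancel_left₀ H.1])⟩

theorem disc : √|(discr K : ℝ)| = 2 * (J ω).im := by
  obtain ⟨m, t, e⟩ := q.sp (ω * ω)
  let b : Module.Basis (Fin 2) ℤ (𝓞 K) := .mk (v := ![1, ω])
    (LinearIndependent.pair_iff.2 fun u v h => q.ext (u' := 0) (v' := 0) (by simpa using h))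
    fun a _ => by
      obtain ⟨u, v, rfl⟩ := q.sp a
      rw [← zsmul_one, ← zsmul_eq_mul]
      exact add_mem (Submodule.smul_mem _ u (Submodule.subset_span ⟨0, rfl⟩))
        (Submodule.smul_mem _ v (Submodule.subset_span ⟨1, rfl⟩))
  have b0 : b 0 = 1 := by simp [b]
  have b1 : b 1 = ω := by simp [b]
  have t1 : Algebra.trace ℤ (𝓞 K) 1 = 2 := by simpa using Algebra.trace_algebraMap_of_basis b 1
  have e' : ω * ω = m • b 0 + t • b 1 := by simp [e, b0, b1]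
  have t2 : Algebra.trace ℤ (𝓞 K) ω = t := by
    rw [Algebra.trace_eq_matrix_trace b, Matrix.trace_fin_two, Algebra.leftMulMatrix_eq_repr_mul,
      Algebra.leftMulMatrix_eq_repr_mul, b0, b1, mul_one, e', ← b1, map_add, map_zsmul, map_zsmul]
    simp
  have d : discr K = 4 * m + t ^ 2 := by
    rw [← discr_eq_discr K b, Algebra.discr_def, Matrix.det_fin_two]
    simp only [Algebra.traceMatrix_apply, Algebra.traceForm_apply, b0, b1, mul_one, one_mul, t1, t2]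
    rw [e', b0, b1, map_add, map_zsmul, map_zsmul, t1, t2]
    simp
    ring
  have e1 := congrArg J e
  simp only [map_mul, map_add, map_intCast] at e1
  have i := congrArg Complex.im e1
  have r := congrArg Complex.re e1
  simp only [Complex.mul_im, Complex.add_im, Complex.intCast_im, Complex.intCast_re, zero_mul,
    add_zero, zero_add, Complex.mul_re, Complex.add_re, sub_zero] at i r
  have r2 : (t : ℝ) = 2 * (J ω).re := mul_right_cancel₀ q.im.ne' (by linear_combination -i)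
  rw [d, show ((4 * m + t ^ 2 : ℤ) : ℝ) = -(2 * (J ω).im) ^ 2 by
    push_cast; rw [r2] at r ⊢; linear_combination -4 * r, abs_neg, abs_sq,
    Real.sqrt_sq (by linarith [q.im])]

end sums

section gal

variable {K : Type} [Field K] [NumberField K] {j : K →+* Qb} {c M : ℕ} {e : GQ → ZMod (2 * M)}
  {s : ℝ} {g : GQ} {k : ℕ}

/-- the ideals with a given Artin symbol -/
def Sg (j : K →+* Qb) (c : ℕ) (g : GQ) : Set (Ideal (𝓞 K)) := {I | Cop c I ∧ Ar j c I g}

/-- the character -/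
def ch (e : GQ → ZMod (2 * M)) (k : ℕ) (g : GQ) : ℂ := ze (2 * M) (k * (e g).val)

theorem Sg_mul (r2 : RC2) (iq : Iq K) (hc : 0 < c) {u : GQ} (hu : u ∈ Hc j c) :
    Sg j c (g * u) = Sg j c g := by
  obtain ⟨-, -, -, h, -⟩ := r2 K j iq c hc
  exact Set.ext fun I => and_congr_right fun _ => ⟨fun a => (h I _ _ a).2 (by simpa using hu),
    fun a => (h I _ _ a).2 (by simpa using hu)⟩

theorem lvl (r2 : RC2) (iq : Iq K) (up : Upm K) {ω : 𝓞 K} {σ : 𝓞 K →+* 𝓞 K} (q : Qd (JJ j) ω σ)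
    (hc : 0 < c) (hs : 1 < s) {B : Ideal (𝓞 K)} (hB : Cop c B) (a : Ar j c B g⁻¹) :
    HasSum ((Gp c B).indicator (FF (JJ j) B s)) (2 * TT (Sg j c g) s) := by
  obtain ⟨h1, -, h3, h4, h5, -⟩ := r2 K j iq c hc
  refine two_one q up hs hB.1 (fun x hx => ?_) (fun I hI => ?_) fun x hx =>
    ⟨Ideal.span_singleton_eq_bot.not.1 hx.2.2.1, neg_mem hx.1, hx.2.1.neg,
      by rw [Ideal.span_singleton_neg]; exact hx.2.2⟩
  · obtain ⟨I, k⟩ := Ideal.dvd_span_singleton.2 hx.1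
    have hI : Cop c I := cop_mono hx.2.2 (k ▸ Ideal.mul_le_right)
    obtain ⟨h, b⟩ := h1 I hI
    obtain ⟨l, y, rfl⟩ := hx.2.1
    exact ⟨I, ⟨hI, (h4 I h g b).2 (by simpa using inv_mem ((h5 _ _ (cop_mul hB hI)
      (h3 _ _ _ _ hB hI a b)).2 ⟨l, y, k.symm⟩))⟩, k⟩
  · obtain ⟨l, y, k⟩ := (h5 _ _ (cop_mul hB hI.1) (h3 _ _ _ _ hB hI.1 a hI.2)).1 (by simp)
    exact ⟨_, ⟨Ideal.mul_le_left (k ▸ Ideal.mem_span_singleton_self _), ⟨l, y, rfl⟩,
      k ▸ cop_mul hB hI.1⟩, k.symm⟩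

theorem ze_sum (r2 : RC2) (iq : Iq K) (up : Upm K) {ω : 𝓞 K} {σ : 𝓞 K →+* 𝓞 K}
    (q : Qd (JJ j) ω σ) (hc : 0 < c) (hs : 1 < s) (hg : g ∈ GK j) {τ : ℍ}
    (h : jL (lat τ) = io (g (jc j c))) : Ze τ s = (c * (JJ j ω).im) ^ s *
      ∑ p ∈ c.divisorsAntidiagonal, ((p.2 : ℝ) ^ 2) ^ (-s) * (2 * TT (Sg j p.1 g) s) := by
  obtain ⟨-, h2, h3, -, h5, -⟩ := r2 K j iq c hc
  obtain ⟨I, hI, a⟩ := h2 g hg 1 one_pos
  obtain ⟨B, hB, b⟩ := h2 g⁻¹ (inv_mem hg) 1 one_pos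
  rw [mul_one] at hI hB
  obtain ⟨l, y, k⟩ := (h5 _ _ (cop_mul hI hB) (h3 _ _ _ _ hI hB a b)).1 (by simp)
  obtain ⟨μ, H⟩ := (jh _ _ (isLat τ) (q.kl_st (q.kl_Oc hc) hI.1).lat).1 (h.trans a.2)
  rw [ze_eq' q hc hB (H.trans (hom_LL q hI hB ⟨l, y, rfl⟩ k)),
    (by_gcd q hc hB hs (T := fun c' => 2 * TT (Sg j c' g) s) fun p hp => ?_).tsum_eq]
  obtain ⟨rfl, p0⟩ := Nat.mem_divisorsAntidiagonal.1 hp
  have p1 := Nat.pos_of_mul_pos_right hc
  exact lvl r2 iq up q p1 hs (cop_dvd hB)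
    ((r2 K j iq _ p1).2.2.2.2.2.1 _ _ _ (Nat.pos_of_mul_pos_left hc) hB b)

variable (L : Ly j c M e)
include L

theorem N_pos : 0 < 2 * M := by obtain ⟨m, h⟩ := L.pow; rw [h]; positivity

theorem c_pos : 0 < c := Nat.pos_of_ne_zero L.sq.ne_zero

theorem ch_mul (hg : g ∈ GK j) {u : GQ} (hu : u ∈ GK j) : ch e k (g * u) = ch e k g * ch e k u := by
  have : NeZero (2 * M) := ⟨(N_pos L).ne'⟩
  rw [ch, ch, ch, L.add g hg u hu, (ze_eq (k' := k * (e g).val + k * (e u).val) (N_pos L)).2 (by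
    rw [← ZMod.intCast_zmod_eq_zero_iff_dvd]; simp [mul_add]), ze, ze, ze, ← Complex.exp_add]
  congr 1
  push_cast
  ring

theorem ch_ker (hg : g ∈ GK j) {u : GQ} (hu : u ∈ Hc j c) : ch e k (g * u) = ch e k g := by
  rw [ch, L.add g hg u hu.1, L.ker u hu, add_zero, ch]

theorem th_eq (r2 : RC2) {I : Ideal (𝓞 K)} (h : I ∈ Sg j c g) : th j c M e k I = ch e k g := by
  have a : Cop c I ∧ ∃ g, Ar j c I g := ⟨h.1, g, h.2⟩
  rw [th, dif_pos a, ← mul_inv_cancel_left a.2.choose g, ch_ker L a.2.choose_spec.1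
    (((r2 K j L.iq c (c_pos L)).2.2.2.1 I _ _ a.2.choose_spec).1 h.2)]
  rfl

theorem li_eq (r2 : RC2) {R : Finset GQ} (t : Tv (GK j) (Hc j c) R) (hs : 1 < s) :
    LI (th j c M e k) s = ∑ g ∈ R, ch e k g * TT (Sg j c g) s := by
  obtain ⟨h1, -, -, h4, -⟩ := r2 K j L.iq c (c_pos L)
  have z {I : Ideal (𝓞 K)} (h : ¬Cop c I) : th j c M e k I = 0 := dif_neg fun a => h a.1
  have a (g : GQ) : HasSum ((Sg j c g).indicator fun I => (Ideal.absNorm I : ℝ) ^ (-s))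
      (TT (Sg j c g) s) := hasSum_subtype_iff_indicator.1 (hs_TT hs (Sg j c g))
  have := hasSum_sum (s := R) fun g _ => (Complex.hasSum_ofReal.2 (a g)).mul_left (ch e k g)
  rw [LI, (Subtype.val_injective (p := fun I : Ideal (𝓞 K) => I ≠ ⊥)).tsum_eq
    (f := fun I => th j c M e k I * (Ideal.absNorm I : ℂ) ^ (-(s : ℂ))) fun I hI =>
      ⟨⟨I, (not_not.1 fun a : ¬Cop c I => hI (by simp only [z a, zero_mul])).1⟩, rfl⟩, ← this.tsum_eq]
  refine tsum_congr fun I => ?_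
  by_cases h : Cop c I
  · obtain ⟨g, a⟩ := h1 I h
    obtain ⟨r, hr, b⟩ := t.ex g a.1
    have m : I ∈ Sg j c r := ⟨h, (h4 I g r a).2 (by simpa using inv_mem b)⟩
    rw [Finset.sum_eq_single_of_mem r hr fun r' hr' ne => by
      rw [indicator_of_notMem fun m' => ne (t.un _ hr' _ hr ((h4 I _ _ m'.2).1 m.2))]
      simp, indicator_of_mem m, th_eq L r2 m, Complex.ofReal_cpow (Nat.cast_nonneg _)]
    simp
  · rw [z h, zero_mul]
    refine (Finset.sum_eq_zero fun g _ => ?_).symm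
    rw [indicator_of_notMem fun m => h m.1]
    simp

theorem vanish (r1 : P004K.RC1) (r2 : RC2) {R : Finset GQ} (t : Tv (GK j) (Hc j c) R) (hk : Odd k)
    {c' m : ℕ} (h : c' * m = c) (m1 : m ≠ 1) : ∑ g ∈ R, ch e k g * TT (Sg j c' g) s = 0 := by
  obtain ⟨l, hl, d⟩ := Nat.exists_prime_and_dvd m1
  have c0 := c_pos L
  have p1 := Nat.pos_of_mul_pos_right (h ▸ c0 : 0 < c' * m)
  have p2 := Nat.pos_of_mul_pos_left (h ▸ c0 : 0 < c' * m)
  have hp : (Ideal.span {(l : ℤ)}).IsPrime :=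
    (Ideal.span_singleton_prime (by exact_mod_cast hl.ne_zero)).2 (Nat.prime_iff_prime_int.1 hl)
  obtain ⟨P, h1, h2⟩ := Ideal.exists_ideal_over_prime_of_isIntegral_of_isDomain (S := 𝓞 Qb)
    (Ideal.span {(l : ℤ)}) (by
      rw [(RingHom.injective_iff_ker_eq_bot _).1 (algebraMap ℤ (𝓞 Qb)).injective_int]
      exact bot_le)
  have h3 : (l : 𝓞 Qb) ∈ P := by
    have : (l : ℤ) ∈ P.comap (algebraMap ℤ (𝓞 Qb)) := h2 ▸ Ideal.mem_span_singleton_self _
    rwa [Ideal.mem_comap, map_natCast] at this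
  obtain ⟨-, le, u, hu, e1⟩ := L.ram l P ⟨hl, h1, h3⟩ (h ▸ d.mul_left _)
  have ug : u ∈ GK j := le fun x => ⟨fun a => by simpa using P.sub_mem a (hu x),
    fun a => by simpa using P.add_mem (hu x) a⟩
  have co : c'.Coprime l := (Nat.coprime_of_squarefree_mul (h ▸ L.sq)).coprime_dvd_right d
  have a := (r2 K j L.iq c' p1).2.2.2.2.2.2 P h1 (fun z => by
    rw [z, Ideal.mem_bot] at h3
    exact hl.ne_zero (Nat.cast_eq_zero.1 h3)) (fun z => h1.ne_top (by
      obtain ⟨x, y, w⟩ := (Nat.isCoprime_iff_coprime.2 co).map (Int.castRingHom (𝓞 Qb))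
      rw [Ideal.eq_top_iff_one, ← w]
      exact P.add_mem (P.mul_mem_left _ (by simpa using z)) (P.mul_mem_left _ (by simpa using h3))))
    u ug 0 fun x => by simpa using hu x
  have uc : u ∈ Hc j c' := ((r2 K j L.iq c' p1).2.2.2.2.1 _ u (by simpa using cop_top) a).2
    ⟨1, 0, by simp⟩
  have nm := (r1 K j L.iq c c0).2.2.1
  have w := t.sum_mul' (fun g _ v hv => nm.conj_mem v hv g) ug
    (fun g => ch e k g * TT (Sg j c' g) s) fun y hy v _ hv => by
      rw [ch_ker L hy hv, Sg_mul r2 L.iq p1 ((r1 K j L.iq c' p1).2.2.2.2.2 m p2 (h ▸ hv))]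
  rw [Finset.sum_congr rfl (g := fun g => ch e k u * (ch e k g * TT (Sg j c' g) s)) fun g hg => by
    rw [ch_mul L (t.mem g hg) ug, Sg_mul r2 L.iq p1 uc]; ring, ← Finset.mul_sum] at w
  refine eq_zero_of_mul_eq_self_left (fun z => ?_) w
  have : Fact (1 < 2 * M) := ⟨by have := N_pos L; omega⟩
  rw [ch, e1, ZMod.val_one, show (1 : ℂ) = ze (2 * M) 0 by simp [ze], ze_eq (N_pos L)] at z
  obtain ⟨i, rfl⟩ := hk
  obtain ⟨n, z⟩ := z
  push_cast at z
  have : (2 : ℤ) * (M * n - i) = 1 := by linear_combination -z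
  omega

end gal

end Lb

open Lb in
/-- row LFB -/
theorem lfb (r1 : P004K.RC1) (r2 : RC2) (iq : IQ) : LFB := fun K _ _ j c M e L R t τ hτ k hk s hs => by
  obtain ⟨ω, w1, w2⟩ := iq K j L.iq
  obtain ⟨σ, q⟩ := ex_qd (J := JJ j) ((io_inj.comp j.injective).comp
    (RingOfIntegers.coe_injective (K := K))) w1 w2
  have c0 := c_pos L
  have A := mul_pos (Nat.cast_pos.2 c0) q.im
  rw [li_eq L r2 t hs, disc q, mul_div_assoc, mul_div_cancel_left₀ _ two_ne_zero]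
  have e1 : ∑ g ∈ R, ze (2 * M) (k * (e g).val) * (Ze (τ g) s : ℂ) =
      ∑ p ∈ c.divisorsAntidiagonal, (((c * (JJ j ω).im) ^ s * ((p.2 : ℝ) ^ 2) ^ (-s) * 2 : ℝ) : ℂ) *
        ∑ g ∈ R, ch e k g * TT (Sg j p.1 g) s := by
    simp only [Finset.mul_sum]
    rw [Finset.sum_comm]
    refine Finset.sum_congr rfl fun g hg => ?_
    rw [ze_sum r2 L.iq L.upm q c0 hs (t.mem g hg) (hτ g hg)]
    simp only [Finset.mul_sum, Complex.ofReal_sum, Complex.ofReal_mul, ch]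
    exact Finset.sum_congr rfl fun p _ => by ring
  rw [e1, Finset.sum_eq_single_of_mem (c, 1) (by simp [c0.ne']) fun p hp ne => by
    have h := (Nat.mem_divisorsAntidiagonal.1 hp).1
    rw [vanish L r1 r2 t hk h fun z => ne (Prod.ext (by rw [← h, z, mul_one]) z), mul_zero],
    ← mul_assoc, mul_assoc (1 / 2 : ℂ), ← Complex.ofReal_mul, ← mul_assoc, ← mul_assoc,
    ← Real.rpow_add A]
  simp

end Vale.Agent.P004R
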