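import Vale.Agent.P004R.Reg
import Vale.Agent.P004R.St1
import Vale.Agent.P004R.Loc0

/-!
# P004R: the local indices
-/

set_option autoImplicit false

open NumberField Module Ideal Function

namespace Vale.Agent.P004R

namespace Lo

open Rg

variable {F H : Type} [Field F] [NumberField F] [Field H] [NumberField H] [Algebra F H]
  {σ : H ≃ₐ[ℚ] H} {M l : ℕ} {w w' I J : Ideal (𝓞 F)} {x : 𝓞 H}

theorem rk (c : Cp F σ M) : finrank (𝓞 F) (𝓞 H) = 2 := by
  have a := finrank_mul_finrank ℚ F H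
  rw [c.deg, c.deg', IsFractionRing.finrank_eq (𝓞 F) F (𝓞 H) H] at a
  exact Nat.eq_of_mul_eq_mul_left (show 0 < 2 * M by linarith [M_pos c]) (a.trans (by ring))

theorem up_inj (c : Cp F σ M) (h : up H I = up H J) : I = J := by
  have := congrArg (relNorm (𝓞 F)) h
  rwa [relNorm_algebraMap, relNorm_algebraMap, rk c, pow_left_inj two_ne_zero] at this

theorem cm (c : Cp F σ M) : (up H I).comap (algebraMap (𝓞 F) (𝓞 H)) = I :=
  up_inj c (map_comap_map _ _)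

theorem nm_up (c : Cp F σ M) : absNorm (up H I) = absNorm I ^ 2 := by
  rw [absNorm_algebraMap, rk c]

theorem cop_up (h : IsCoprime I J) : IsCoprime (up H I) (up H J) :=
  isCoprime_iff_sup_eq.2 (by rw [← Ideal.map_sup, h.sup_eq, Ideal.map_top])

theorem ip_mem (h : Ip σ M l w w') : (l : 𝓞 F) ∈ w :=
  (mul_le_left (I := w) (J := w')) (by rw [h.mul]; exact mem_span_singleton_self _)

theorem ip_ne (h : Ip σ M l w w') : w ≠ ⊥ :=
  absNorm_eq_zero_iff.not.1 (h.nm ▸ pow_ne_zero _ h.pr.ne_zero)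

theorem ip_ne' (h : Ip σ M l w w') : up H w ≠ ⊥ :=
  (map_eq_bot_iff_of_injective (FaithfulSMul.algebraMap_injective _ _)).not.2 (ip_ne h)

theorem ip_max (c : Cp F σ M) (h : Ip σ M l w w') : w.IsMaximal :=
  have := h.pw
  IsPrime.isMaximal (cm c (I := w) ▸ comap_isPrime _ _) (ip_ne h)

variable (F) in
/-- `x` comes from `F` modulo `A` -/
def Fr (A : Ideal (𝓞 H)) (x : 𝓞 H) : Prop := ∃ a : 𝓞 F, x - algebraMap _ _ a ∈ A

theorem Fr.pow {A : Ideal (𝓞 H)} (h : Fr F A x) (n : ℕ) : Fr F A (x ^ n) :=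
  h.elim fun a ha => ⟨a ^ n, map_pow (algebraMap (𝓞 F) (𝓞 H)) a n ▸
    mem_of_dvd _ (sub_dvd_pow_sub_pow _ _ n) ha⟩

theorem Fr.mul (c : IsCoprime I J) (h : Fr F (up H I) x) (h' : Fr F (up H J) x) :
    Fr F (up H (I * J)) x := by
  obtain ⟨a, ha⟩ := h
  obtain ⟨b, hb⟩ := h'
  obtain ⟨i, hi, j, hj, e⟩ := isCoprime_iff_exists.1 c
  refine ⟨a * j + b * i, ?_⟩
  have := add_mem (mul_mem_mul ha (mem_map_of_mem (algebraMap (𝓞 F) (𝓞 H)) hj))
    (mul_mem_mul (mem_map_of_mem (algebraMap (𝓞 F) (𝓞 H)) hi) hb)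
  rw [← Ideal.map_mul] at this
  convert this using 1
  have e' := congrArg (algebraMap (𝓞 F) (𝓞 H)) e
  simp only [map_add, map_mul, map_one] at e' ⊢
  linear_combination (-x) * e'

theorem Fr.prod {ι : Type} {w : ι → Ideal (𝓞 F)} (c : Pairwise (IsCoprime on w))
    (h : ∀ i, Fr F (up H (w i)) x) (s : Finset ι) : Fr F (up H (∏ i ∈ s, w i)) x := by
  classical
  induction s using Finset.induction_on with
  | empty => exact ⟨0, by simp [Ideal.map_top]⟩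
  | insert i s hi ih =>
    rw [Finset.prod_insert hi]
    exact (h i).mul (IsCoprime.prod_right fun j hj => c (ne_of_mem_of_not_mem hj hi).symm) ih

theorem Fr.smul (c : Cp F σ M) {A : Ideal (𝓞 H)} (hA : ∀ x ∈ A, σ • x ∈ A) (h : Fr F A x) :
    Fr F A (σ • x) := by
  obtain ⟨a, ha⟩ := h
  obtain ⟨b, hb⟩ := fix_int c (x := σ • algebraMap (𝓞 F) (𝓞 H) a) (by
    change (σ ^ M) (σ (algebraMap F H a)) = σ (algebraMap F H a)
    rw [← AlgEquiv.mul_apply, ← pow_succ, pow_succ', AlgEquiv.mul_apply, (c.fix _).2 ⟨_, rfl⟩])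
  exact ⟨b, by rw [hb, ← smul_sub]; exact hA _ ha⟩

theorem st_mul {A B : Ideal (𝓞 H)} (hA : ∀ x ∈ A, σ • x ∈ A) (hB : ∀ x ∈ B, σ • x ∈ B) :
    ∀ x ∈ A * B, σ • x ∈ A * B := fun _ hx => Submodule.mul_induction_on hx
  (fun a ha b hb => smul_mul' σ a b ▸ mul_mem_mul (hA a ha) (hB b hb))
  fun a b ha hb => smul_add σ a b ▸ add_mem ha hb

theorem st_pow {A : Ideal (𝓞 H)} (hA : ∀ x ∈ A, σ • x ∈ A) (n : ℕ) : ∀ x ∈ A ^ n, σ • x ∈ A ^ n := by
  induction n with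
  | zero => simp
  | succ n ih => rw [pow_succ]; exact st_mul ih hA

variable (σ) in
/-- `σ - 1` -/
noncomputable def dl : (𝓞 H)ˣ →* (𝓞 H)ˣ := ua σ / MonoidHom.id _

theorem dl_mul (u : (𝓞 H)ˣ) : (dl σ u : 𝓞 H) * u = σ • (u : 𝓞 H) :=
  congrArg Units.val (div_mul_cancel (ua σ u) u)

theorem cu_dl (c : Cp F σ M) (u : (𝓞 H)ˣ) :
    u ^ 2 ∈ CU F σ (dl σ u) ∧ CU F σ u ≤ CU F σ (dl σ u) ⊔ Subgroup.zpowers u := by
  have k : ∀ i : ℕ, ua (σ ^ i) u / u ∈ CU F σ (dl σ u) := fun i => by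
    induction i with
    | zero => exact (show ua (σ ^ 0) u / u = 1 from div_self' u) ▸ one_mem _
    | succ i ih =>
      have := mul_mem (Subgroup.mem_sup_right (Subgroup.subset_closure ⟨i, rfl⟩) :
        ua (σ ^ i) (dl σ u) ∈ CU F σ (dl σ u)) ih
      rwa [dl, MonoidHom.div_apply, map_div, ← ua_mul, ← pow_succ, MonoidHom.id_apply,
        div_mul_div_cancel] at this
  refine ⟨?_, sup_le (le_sup_left.trans le_sup_left)
    ((Subgroup.closure_le _).2 (Set.range_subset_iff.2 fun i => ?_))⟩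
  · have := div_mem (Subgroup.mem_sup_left (fix_unit c (v := ua (σ ^ M) u * u) (by
      rw [map_mul, ← ua_mul, ← pow_add, ← two_mul, c.ord, mul_comm]; rfl)) :
        _ ∈ CU F σ (dl σ u)) (k M)
    rwa [div_div_eq_mul_div, mul_assoc, mul_div_cancel_left, ← pow_two] at this
  · exact div_mul_cancel (ua (σ ^ i) u) u ▸ Subgroup.mul_mem_sup (k i) (Subgroup.mem_zpowers u)

theorem dp_step {V : Ideal (𝓞 H)} (h2 : 2 ∈ V) (hV : ∀ x ∈ V, σ • x ∈ V) {u : (𝓞 H)ˣ} {z : 𝓞 H}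
    (h : (u : 𝓞 H) - 1 - 16 * z ∈ V ^ 5) : (dl σ u : 𝓞 H) - 1 - 16 * (σ • z - z) ∈ V ^ 5 := by
  have a := st_pow hV 5 _ h
  rw [smul_sub, smul_sub, smul_one, smul_mul', ← dl_mul,
    show σ • (16 : 𝓞 H) = 16 from map_ofNat (MulSemiringAction.toRingHom _ (𝓞 H) σ) 16] at a
  rw [← unit_mul_mem_iff_mem _ u.isUnit]
  convert sub_mem (sub_mem a (mul_mem_left _ (1 + 16 * (σ • z - z)) h))
    (mul_mem_left _ (8 * z * (σ • z - z)) (pow_mem_pow h2 5)) using 1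
  ring

theorem fr_odd (c : Cp F σ M) (h : Ip σ M l w w') (hl : l ≠ 2) (u : (𝓞 H)ˣ) :
    ∃ n, Odd n ∧ Fr F (up H w) ((dl σ u : 𝓞 H) ^ n) := by
  have := ip_max c h
  have := h.pw.isMaximal (ip_ne' h)
  obtain ⟨m, hm⟩ := c.pow
  obtain ⟨k, hk⟩ : Odd (l ^ 2 ^ m) := (h.pr.odd_of_ne_two hl).pow
  have q : l ^ M = 4 * (k * (k + 1)) + 1 := by rw [hm, pow_succ, pow_mul, hk]; ring
  generalize k * (k + 1) = t at q
  have : Finite (𝓞 F ⧸ w) := (absNorm_ne_zero_iff _).1 (absNorm_eq_zero_iff.not.2 (ip_ne h))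
  have : Finite (𝓞 H ⧸ up H w) := (absNorm_ne_zero_iff _).1 (absNorm_eq_zero_iff.not.2 (ip_ne' h))
  have a : (u : 𝓞 H) ^ (4 * t * (2 * t + 1) * 2) - 1 ∈ up H w := by
    have := congrArg Units.val (pow_card_eq_one'
      (x := Units.map (Ideal.Quotient.mk (up H w) : 𝓞 H →* 𝓞 H ⧸ up H w) u))
    have e := tot_pow (ip_ne' h) 0
    rw [zero_add, pow_one, pow_zero, mul_one, nm_up c, h.nm, q,
      Nat.sub_eq_of_eq_add (c := 4 * t * (2 * t + 1) * 2) (by ring)] at e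
    rw [e] at this
    exact Ideal.Quotient.eq.1 this
  generalize hN : 4 * t * (2 * t + 1) = N at a
  have b : (σ • (u : 𝓞 H)) ^ N - (u : 𝓞 H) ^ N ∈ up H w := by
    rw [pow_mul, show ∀ y : 𝓞 H, y ^ 2 - 1 = (y - 1) * (y + 1) from fun y => by ring] at a
    rcases h.pw.mem_or_mem a with b | b <;> simpa [smul_sub, smul_add] using sub_mem (h.st _ b) b
  rw [← dl_mul, mul_pow, ← sub_one_mul, mul_unit_mem_iff_mem _ (u.isUnit.pow N)] at b
  let := Ideal.Quotient.field w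
  let := Ideal.Quotient.field (up H w)
  obtain ⟨a, ha⟩ := mem_range (quotientMap (up H w) (algebraMap (𝓞 F) (𝓞 H)) le_comap_map)
    (z := Ideal.Quotient.mk _ ((dl σ u : 𝓞 H) ^ (2 * t + 1))) (by
      rw [show Nat.card (𝓞 F ⧸ w) = 4 * t + 1 from h.nm.trans q, pow_succ, ← map_pow, ← pow_mul,
        mul_comm _ (4 * t), hN, Ideal.Quotient.eq.2 b, map_one, one_mul])
  obtain ⟨a, rfl⟩ := Ideal.Quotient.mk_surjective a
  exact ⟨_, ⟨t, rfl⟩, a, Ideal.Quotient.eq.1 ha.symm⟩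

theorem gp_dvd (c : Cp F σ M) : Nat.card (Gp F (up H I)) ∣ Nat.card (𝓞 F ⧸ I)ˣ := by
  refine (Subgroup.card_dvd_of_le (?_ : _ ≤ (Units.map (quotientMap (up H I)
    (algebraMap (𝓞 F) (𝓞 H)) le_comap_map : 𝓞 F ⧸ I →* 𝓞 H ⧸ up H I)).range)).trans
      (Subgroup.card_range_dvd _)
  refine (Subgroup.closure_le _).2 fun g ⟨a, ha⟩ => ?_
  obtain ⟨b, hb⟩ := Ideal.Quotient.mk_surjective (g⁻¹ : (𝓞 H ⧸ up H I)ˣ).1
  have e : span {a} ⊔ I = ⊤ := up_inj c (by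
    rw [up, up, Ideal.map_top, Ideal.map_sup, eq_top_iff_one]
    have : 1 - b * algebraMap _ _ a ∈ up H I :=
      Ideal.Quotient.eq.1 (by rw [map_mul, hb, ← ha, g.inv_mul, map_one])
    simpa using Submodule.add_mem_sup (mul_mem_left _ b
      (mem_map_of_mem (algebraMap (𝓞 F) (𝓞 H)) (mem_span_singleton_self a))) this)
  obtain ⟨_, hx, y, hy, e⟩ := Submodule.mem_sup.1 ((eq_top_iff_one _).1 e)
  obtain ⟨x, rfl⟩ := mem_span_singleton'.1 hx
  exact ⟨Units.mkOfMulEqOne (Ideal.Quotient.mk I a) (Ideal.Quotient.mk I x) (Ideal.Quotient.eq.2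
    (by rw [← e]; simpa [mul_comm] using hy)), Units.ext ha.symm⟩

variable {ι : Type} [Fintype ι] {p : ι → ℕ} {v v' : Ideal (𝓞 F)} {w w' : ι → Ideal (𝓞 F)}

theorem md_eq : md H v w = up H (v ^ 5 * ∏ i, w i) := by
  have : ∏ i, up H (w i) = up H (∏ i, w i) :=
    (map_prod (mapHom (algebraMap (𝓞 F) (𝓞 H))) w Finset.univ).symm
  rw [md, this, up, up, up, Ideal.map_mul, Ideal.map_pow]

variable (P : Pd σ M p v v' w w')
include P

theorem c1 (i : ι) : IsCoprime v (w i) := cop_of (ip_mem P.two) (ip_mem (P.odd i).2)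
  ((Nat.coprime_primes Nat.prime_two (P.odd i).2.pr).2 (P.odd i).1.symm)

theorem c2 : Pairwise (IsCoprime on w) := fun i j e => cop_of (ip_mem (P.odd i).2)
  (ip_mem (P.odd j).2) ((Nat.coprime_primes (P.odd i).2.pr (P.odd j).2.pr).2 (P.inj.ne e))

theorem mem_md {x : 𝓞 H} : x ∈ md H v w ↔ x ∈ up H v ^ 5 ∧ ∀ i, x ∈ up H (w i) :=
  mem_mul_prod (fun i => (cop_up (c1 P i)).pow_left) fun _ _ e => cop_up (c2 P e)

theorem fin_md : Finite (𝓞 H ⧸ md H v w) := (absNorm_ne_zero_iff _).1 (absNorm_eq_zero_iff.not.2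
  (mul_ne_zero (pow_ne_zero _ (ip_ne' P.two))
    (Finset.prod_ne_zero_iff.2 fun i _ => ip_ne' (P.odd i).2)))

theorem two_mem : (2 : 𝓞 H) ∈ up H v := by
  simpa [map_ofNat] using mem_map_of_mem (algebraMap _ (𝓞 H)) (ip_mem P.two)

theorem gp_idx : 2 ^ (4 * M + Fintype.card ι) ∣ (Gp F (md H v w)).index := by
  have c := P.cp
  have := ip_max c P.two
  have := fun i => ip_max c (P.odd i).2
  have := P.two.pw.isMaximal (ip_ne' P.two)
  have := fun i => (P.odd i).2.pw.isMaximal (ip_ne' (P.odd i).2)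
  have tH : Nat.card (𝓞 H ⧸ md H v w)ˣ = _ := tot (ip_ne' P.two) (fun i => ip_ne' (P.odd i).2)
    (fun i => cop_up (c1 P i)) fun i j e => cop_up (c2 P e)
  have tF := tot (ip_ne P.two) (fun i => ip_ne (P.odd i).2) (c1 P) (c2 P)
  have a := gp_dvd c (I := v ^ 5 * ∏ i, w i)
  rw [← md_eq] at a
  replace a := mul_dvd_mul_right a (Gp F (md H v w)).index
  have n : ∀ {l : ℕ}, l.Prime → l ^ M - 1 ≠ 0 := fun h =>
    (Nat.sub_pos_of_lt (Nat.one_lt_pow (Rg.M_pos c).ne' h.one_lt)).ne'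
  have s : ∀ q : ℕ, q ^ 2 - 1 = (q - 1) * (q + 1) := fun q => by
    rw [mul_comm, ← Nat.sq_sub_sq, one_pow]
  rw [Subgroup.card_mul_index, tH, tF] at a
  simp only [nm_up c, P.two.nm, fun i => (P.odd i).2.nm, s, Finset.prod_mul_distrib] at a
  refine Dvd.dvd.trans (b := (2 ^ M + 1) * (2 ^ M) ^ 4 * ∏ i, (p i ^ M + 1)) ?_
    (Nat.dvd_of_mul_dvd_mul_left (Nat.pos_of_ne_zero ?_) (Dvd.dvd.trans (dvd_of_eq ?_) a))
  · rw [pow_add, mul_comm 4, pow_mul, ← Finset.card_univ, ← Finset.prod_const]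
    exact mul_dvd_mul (dvd_mul_left _ _) (Finset.prod_dvd_prod_of_dvd _ _ fun i _ =>
      ((P.odd i).2.pr.odd_of_ne_two (P.odd i).1).pow.add_one.two_dvd)
  · exact mul_ne_zero (mul_ne_zero (n Nat.prime_two) (by positivity))
      (Finset.prod_ne_zero_iff.2 fun i _ => n (P.odd i).2.pr)
  · ring

theorem fr_md {u : (𝓞 H)ˣ} {r : ℕ} (r1 : ι → 1 ≤ r) (h : Dp σ v u r) :
    ∃ O, Odd O ∧ ∀ i : ℕ, Fr F (md H v w) ((ua (σ ^ i) ((dl σ)^[r] u) : 𝓞 H) ^ O) := by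
  obtain ⟨o, x, y, ho, hx, hy⟩ := h
  have dp : ∀ k, ((dl σ)^[k] (u ^ o) : (𝓞 H)ˣ) - 1 - 16 * (fun z : 𝓞 H => σ • z - z)^[k] x ∈
      up H v ^ 5 := fun k => by
    induction k with
    | zero => exact hx
    | succ k ih =>
      rw [iterate_succ_apply', iterate_succ_apply']
      exact dp_step (two_mem P) P.two.st ih
  have : ∀ i, ∃ n, Odd n ∧ Fr F (up H (w i)) (((dl σ)^[r] u : (𝓞 H)ˣ) ^ n) := fun i => by
    obtain ⟨k, rfl⟩ := Nat.exists_eq_add_of_le' (r1 i)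
    rw [iterate_succ_apply']
    exact fr_odd P.cp (P.odd i).2 (P.odd i).1 _
  choose n n1 n2 using this
  refine ⟨o * ∏ i, n i, ho.mul (Finset.prod_induction _ _ (fun _ _ => Odd.mul) odd_one
    fun i _ => n1 i), fun i => ?_⟩
  induction i with
  | zero =>
    rw [md_eq]
    refine Fr.mul (x := (((dl σ)^[r] u : (𝓞 H)ˣ) : 𝓞 H) ^ _)
      (IsCoprime.prod_right fun i _ => (c1 P i).pow_left) ?_ (Fr.prod (c2 P) (fun i => ?_) _)
    · rw [pow_mul, up, Ideal.map_pow]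
      refine Fr.pow ⟨1 + 16 * y, ?_⟩ _
      have a := dp r
      rw [iterate_map_pow] at a
      have b := mul_mem_mul (pow_mem_pow (two_mem P) 4) hy
      rw [← pow_succ] at b
      convert add_mem a b using 1
      simp only [map_add, map_mul, map_one, map_ofNat, Units.val_pow_eq_pow_val]
      ring
    · obtain ⟨k, hk⟩ := (Finset.dvd_prod_of_mem n (Finset.mem_univ i)).mul_left o
      rw [hk, pow_mul]
      exact (n2 i).pow k
  | succ i ih =>
    have := ih.smul P.cp fun z hz => (mem_md P).2 ⟨st_pow P.two.st 5 _ ((mem_md P).1 hz).1,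
      fun j => (P.odd j).2.st _ (((mem_md P).1 hz).2 j)⟩
    rw [smul_pow'] at this
    rw [pow_succ']
    exact this

omit P in
theorem idx_it (c : Cp F σ M) {G : Type} [CommGroup G] (N : Subgroup G) (π : (𝓞 H)ˣ →* G)
    (u : (𝓞 H)ˣ) (k : ℕ) : (N ⊔ (CU F σ ((dl σ)^[k] u)).map π).index ∣
      2 ^ k * (N ⊔ (CU F σ u).map π).index := by
  induction k with
  | zero => simp
  | succ k ih =>
    rw [iterate_succ_apply', pow_succ', mul_assoc]
    generalize (dl σ)^[k] u = t at ih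
    refine (idx_dvd (x := π t) (Subgroup.mem_sup_right
      (Subgroup.mem_map.2 ⟨_, (cu_dl c t).1, map_pow π t 2⟩))).trans
        (mul_dvd_mul_left _ ((Subgroup.index_dvd_of_le ?_).trans ih))
    rw [sup_assoc, ← MonoidHom.map_zpowers, ← Subgroup.map_sup]
    exact sup_le_sup_left (Subgroup.map_mono (cu_dl c t).2) _

theorem loc' {A : Ideal (𝓞 H)} (e : md H v w = A) :
    (sq (𝓞 H ⧸ A)ˣ).index ≤ 2 ^ (2 * M + 1 + Fintype.card ι) ∧
    ∀ (u : (𝓞 H)ˣ) (r : ℕ), (ι → 1 ≤ r) → Dp σ v u r → 2 ^ (4 * M + Fintype.card ι) ∣ 2 ^ r *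
      (Gp F A ⊔ (CU F σ u).map (Units.map (Ideal.Quotient.mk A : 𝓞 H →* 𝓞 H ⧸ A))).index := by
  subst e
  have := fin_md P
  have := P.two.pw
  have := fun i => (P.odd i).2.pw
  have e2 : up H v * up H v' = span {2} := by
    rw [← Ideal.map_mul, P.two.mul, map_span, Set.image_singleton, map_natCast]; rfl
  refine ⟨(sq_idx (ip_ne' P.two) e2 (cop_up (isCoprime_iff_sup_eq.2 P.two.cop)).sup_eq
    (mem_md P)).trans_eq (by rw [nm_up P.cp, P.two.nm]; ring), fun u r r1 h => ?_⟩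
  obtain ⟨O, ho, g⟩ := fr_md P r1 h
  have gp := gp_idx P
  refine Dvd.dvd.trans ?_ (idx_it P.cp _ _ u r)
  generalize (dl σ)^[r] u = t at g
  rw [← Subgroup.relIndex_mul_index le_sup_left] at gp
  refine (Nat.Coprime.pow_left _ (odd_rel ho ?_).coprime_two_left).dvd_of_dvd_mul_left gp
  change _ ≤ (Gp F (md H v w)).comap (powMonoidHom O)
  refine sup_le (fun z hz => pow_mem hz O) (Subgroup.map_le_iff_le_comap.2 (sup_le ?_
    ((Subgroup.closure_le _).2 (Set.range_subset_iff.2 fun i => ?_))))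
  · rintro _ ⟨a, rfl⟩
    refine pow_mem (Subgroup.subset_closure ?_) O
    exact ⟨a, rfl⟩
  · obtain ⟨a, ha⟩ := g i
    exact Subgroup.subset_closure ⟨a, Ideal.Quotient.eq.2 ha⟩

end Lo

theorem loc : LOC := fun _ _ _ _ _ _ _ _ _ _ _ _ _ _ _ _ P =>
  (Lo.loc' P rfl).imp_right fun h u r r1 => h u r fun _ => r1

theorem loc2 : LOC2 := fun _ _ _ _ _ _ _ _ _ _ _ c h =>
  (Lo.loc' (ι := Empty) (p := Empty.elim) (w := Empty.elim) (w' := Empty.elim)
    ⟨c, h, fun i => i.elim, fun i => i.elim⟩ (by simp [md])).imp_right fun h u r => h u r Empty.elim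

end Vale.Agent.P004R
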