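import Vale.Agent.P004R.St

/-!
# P004R: the table of symbols (row RED)
-/

set_option autoImplicit false

open Finset
open scoped NumberTheorySymbols

noncomputable section

namespace Vale.Agent.P004R

namespace Re

open Classical in
/-- the sign of a proposition -/
def sg (P : Prop) : ℤ := if P then -1 else 1

variable {P Q : Prop} {ι : Type*} {k : ℕ}

theorem ite_sg [Decidable P] : (if P then -1 else 1 : ℤ) = sg P := by unfold sg; congr

theorem sg_pos (h : P) : sg P = -1 := if_pos h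

theorem sg_neg (h : ¬P) : sg P = 1 := if_neg h

theorem sg_congr (h : P ↔ Q) : sg P = sg Q := by rw [propext h]

theorem sg_or (P : Prop) : sg P = 1 ∨ sg P = -1 := (em P).elim (.inr ∘ sg_pos) (.inl ∘ sg_neg)

theorem sg_mul : sg P * sg Q = 1 ↔ (P ↔ Q) := by
  by_cases a : P <;> by_cases b : Q <;> simp [sg, a, b]

theorem prod_sg (s : Finset ι) (a : ι) : ∏ x ∈ s, sg (x = a) = sg (a ∈ s) := by
  classical
  simp only [← ite_sg, prod_ite_eq']

theorem prod_sg' (s : Finset ι) (a : ι) : ∏ x ∈ s, sg (a = x) = sg (a ∈ s) := by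
  simp only [eq_comm (a := a), prod_sg]

theorem J_left (s : Finset ι) (f : ι → ℕ) (r : ℕ) :
    J((∏ i ∈ s, f i : ℕ) | r) = ∏ i ∈ s, J(f i | r) := by
  classical
  induction s using Finset.induction_on with
  | empty => simp
  | insert i s hi ih => rw [prod_insert hi, prod_insert hi, Nat.cast_mul, jacobiSym.mul_left, ih]

theorem J_right (s : Finset ι) {f : ι → ℕ} (h : ∀ i, f i ≠ 0) (a : ℤ) :
    J(a | ∏ i ∈ s, f i) = ∏ i ∈ s, J(a | f i) := by
  classical
  induction s using Finset.induction_on with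
  | empty => simp
  | insert i s hi ih =>
    rw [prod_insert hi, prod_insert hi,
      jacobiSym.mul_right' _ (h i) (prod_ne_zero_iff.2 fun j _ => h j), ih]

theorem J_dvd {q x : ℕ} (hq : q.Prime) (h : q ∣ x) : J(x | q) = 0 :=
  jacobiSym.eq_zero_iff.2 ⟨hq.ne_zero, by
    rw [Int.gcd_natCast_natCast, Nat.gcd_eq_right h]; exact hq.ne_one⟩

theorem Lq_ne {D : ℤ} {c x q : ℕ} (L : Lq D c x) (hq : q.Prime) (d : q ∣ c) (e : J(x | q) = sg P)
    (h : P) : False := by
  rw [sg_pos h] at e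
  rw [(L q hq d).1 fun b => by rw [J_dvd hq b] at e; omega] at e
  omega

/-- the divisors of a product of primes -/
theorem sub {f : ι → ℕ} (h : ∀ i, (f i).Prime) (s : Finset ι) :
    ∀ y, y ∣ ∏ i ∈ s, f i → ∃ S, y = ∏ i ∈ S, f i ∧ S ⊆ s := by
  classical
  induction s using Finset.induction_on with
  | empty => exact fun y hy => ⟨∅, by simpa using hy, Subset.rfl⟩
  | insert i s hi ih =>
    intro y hy
    rw [prod_insert hi] at hy
    obtain ⟨a, b, ha, hb, rfl⟩ := exists_dvd_and_dvd_of_dvd_mul hy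
    obtain ⟨S, rfl, hS⟩ := ih b hb
    rcases (Nat.dvd_prime (h i)).1 ha with rfl | rfl
    · exact ⟨S, one_mul _, hS.trans (subset_insert _ _)⟩
    · exact ⟨insert i S, (prod_insert fun a => hi (hS a)).symm, insert_subset_insert _ hS⟩

/-- every point is used once or twice -/
theorem mult {X : Type} [Fintype X] [Nonempty X] (s : X → ℤ) (hs : ∀ x, s x = 1 ∨ s x = -1) :
    ∃ (k : ℕ) (f : Fin (k + 1) → X), ∀ (P : X → Prop) [DecidablePred P],
      ∏ n, sg (P (f n)) = ∏ x with P x, s x := by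
  classical
  obtain ⟨k, hk⟩ := Nat.exists_eq_succ_of_ne_zero (Fintype.card_ne_zero (α := X ⊕ {x // s x = 1}))
  refine ⟨k, Sum.elim id Subtype.val ∘ (Fintype.equivFinOfCardEq hk).symm, fun P _ => ?_⟩
  rw [show ∏ n, sg (P ((Sum.elim id Subtype.val ∘ (Fintype.equivFinOfCardEq hk).symm) n)) = _ from
    (Fintype.equivFinOfCardEq hk).symm.prod_comp fun y => sg (P (Sum.elim id Subtype.val y)),
    Fintype.prod_sum_type]
  simp only [Sum.elim_inl, Sum.elim_inr, id]
  rw [← prod_subtype (univ.filter fun x => s x = 1) (by simp) fun x => sg (P x), prod_filter,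
    prod_filter, ← prod_mul_distrib]
  refine prod_congr rfl fun x _ => ?_
  by_cases a : P x <;> rcases hs x with b | b <;> simp [sg, a, b]

/-- the primes of the conductor -/
structure Pq (q₀ : ℕ) (q : Fin (k + 1) → ℕ) : Prop where
  p0 : q₀.Prime
  m0 : q₀ % 8 = 1
  pr : ∀ i, (q i).Prime
  m8 : ∀ i, q i % 8 = 1
  j0 : ∀ i, J(q i | q₀) = sg (i = 0)
  jq : ∀ i i', i' ≠ i → J(q i | q i') = 1

variable {q₀ : ℕ} {q : Fin (k + 1) → ℕ}

/-- the local conditions -/
theorem Pq.loc (h : Pq q₀ q) {y w : ℕ} {D : ℤ} {P : Fin (k + 1) → Prop} {I : Finset (Fin (k + 1))}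
    (y1 : ∀ n, J(y | q n) = sg (P n)) (y0 : J(y | q₀) = 1) (d1 : ∀ n, J(D | q n) = -1)
    (d0 : J(D | q₀) = 1) (hw : w ∣ q₀)
    (L : Lq (D * ((∏ i, q i) * q₀ : ℕ)) ((∏ i, q i) * q₀) (y * ((∏ i ∈ I, q i) * w))) :
    (∀ n, n ∈ I ↔ P n) ∧ (0 ∈ I → w = q₀) ∧ (0 ∉ I → w = 1) := by
  have j1 (n) : J(q₀ | q n) = sg (n = 0) := (jacobiSym.quadratic_reciprocity_one_mod_four
    (by have := h.m0; omega) (Nat.odd_iff.2 (by have := h.m8 n; omega))).trans (h.j0 n)
  have j2 (S : Finset (Fin (k + 1))) (n) (hn : n ∉ S) : J((∏ i ∈ S, q i : ℕ) | q n) = 1 :=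
    (J_left _ _ _).trans (prod_eq_one fun i hi => h.jq i n fun e => hn (e ▸ hi))
  have j3 (S : Finset (Fin (k + 1))) : J((∏ i ∈ S, q i : ℕ) | q₀) = sg (0 ∈ S) := by
    simp only [J_left, h.j0, prod_sg]
  have z : (q₀ : ℤ) ≠ 0 := Nat.cast_ne_zero.2 h.p0.ne_zero
  have L0 := L q₀ h.p0 (dvd_mul_left _ _)
  have W : J(w | q 0) = sg (0 ∈ I) ∧ (0 ∈ I → w = q₀) ∧ (0 ∉ I → w = 1) := by
    rcases (Nat.dvd_prime h.p0).1 hw with rfl | rfl
    · have e : J((y * ((∏ i ∈ I, q i) * 1) : ℕ) | q₀) = sg (0 ∈ I) := by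
        rw [mul_one, Nat.cast_mul, jacobiSym.mul_left, y0, j3, one_mul]
      have n : 0 ∉ I := Lq_ne L h.p0 (dvd_mul_left _ _) e
      exact ⟨by simp [sg_neg n], fun a => (n a).elim, fun _ => rfl⟩
    · have := L0.2 ⟨y * ∏ i ∈ I, q i, by ring⟩
      rw [← mul_assoc, Nat.mul_div_cancel _ h.p0.pos, Nat.cast_mul (∏ i, q i), ← mul_assoc,
        Int.mul_ediv_cancel _ z, Nat.cast_mul, jacobiSym.mul_left, jacobiSym.mul_left,
        jacobiSym.mul_left, y0, d0, j3, j3, one_mul, one_mul, sg_mul] at this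
      have a := this.2 (mem_univ _)
      exact ⟨by rw [j1, sg_pos rfl, sg_pos a], fun _ => rfl, fun b => (b a).elim⟩
  refine ⟨fun n => ?_, W.2⟩
  have w1 : J(w | q n) = sg (n = 0 ∧ 0 ∈ I) := by
    rcases eq_or_ne n 0 with rfl | a
    · simpa using W.1
    · rcases (Nat.dvd_prime h.p0).1 hw with rfl | rfl <;> simp [j1, sg, a]
  have Ln := L (q n) (h.pr n) ((dvd_prod_of_mem _ (mem_univ n)).mul_right _)
  by_cases a : n ∈ I
  · have := Ln.2 (((dvd_prod_of_mem _ a).mul_right _).mul_left _)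
    rw [← mul_prod_erase _ _ a, ← mul_prod_erase _ _ (mem_univ n), mul_assoc (q n), mul_assoc (q n),
      mul_left_comm, Nat.mul_div_cancel_left _ (h.pr n).pos, Nat.cast_mul (q n), mul_left_comm D,
      Int.mul_ediv_cancel_left _ (Nat.cast_ne_zero.2 (h.pr n).ne_zero)] at this
    simp only [Nat.cast_mul, jacobiSym.mul_left, y1, d1, w1, j1, j2 _ n (notMem_erase _ _)] at this
    by_cases b : P n
    · simp [a, b]
    · rcases eq_or_ne n 0 with rfl | c <;> simp_all [sg]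
  · have e : J((y * ((∏ i ∈ I, q i) * w) : ℕ) | q n) = sg (P n) := by
      simp only [Nat.cast_mul, jacobiSym.mul_left, y1, w1, j2 _ n a]
      rw [sg_neg (P := n = 0 ∧ 0 ∈ I) fun b => a (b.1 ▸ b.2), mul_one, mul_one]
    exact iff_of_false a (Lq_ne L (h.pr n) ((dvd_prod_of_mem _ (mem_univ n)).mul_right _) e)

/-- the primes of `d` and their symbols -/
structure Fa {t : ℕ} (q₀ : ℕ) (q : Fin (k + 1) → ℕ) (A : ZMod t → ℕ) (g : Fin (k + 1) → ZMod t) :
    Prop where
  odd : ∀ i, Odd (A i)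
  j0 : ∀ i, J(q₀ | A i) = 1
  jq : ∀ i n, J(q n | A i) = sg (g n = i)

theorem Fa.prod {t : ℕ} {A : ZMod t → ℕ} {g : Fin (k + 1) → ZMod t} (a : Fa q₀ q A g) (h : Pq q₀ q)
    (S : Finset (ZMod t)) : (∀ n, J((∏ i ∈ S, A i : ℕ) | q n) = sg (g n ∈ S)) ∧
      J((∏ i ∈ S, A i : ℕ) | q₀) = 1 := by
  refine ⟨fun n => ?_, (J_left _ _ _).trans (prod_eq_one fun i _ => ?_)⟩
  · rw [J_left, ← prod_sg']
    exact prod_congr rfl fun i _ => (jacobiSym.quadratic_reciprocity_one_mod_four' (a.odd i)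
      (by have := h.m8 n; omega)).trans (a.jq i n)
  · exact (jacobiSym.quadratic_reciprocity_one_mod_four' (a.odd i)
      (by have := h.m0; omega)).trans (a.j0 i)

theorem Fa.rest {t : ℕ} {A : ZMod t → ℕ} {g : Fin (k + 1) → ZMod t} (a : Fa q₀ q A g) (h : Pq q₀ q)
    {w : ℕ} (hw : w ∣ q₀) {I : Finset (Fin (k + 1))} {P : Fin (k + 1) → Prop}
    (hI : ∀ n, n ∈ I ↔ P n) (i : ZMod t) :
    J(((∏ n ∈ I, q n) * w : ℕ) | A i) = ∏ n, sg (g n = i ∧ P n) := by
  have : J(w | A i) = 1 := by rcases (Nat.dvd_prime h.p0).1 hw with rfl | rfl <;> simp [a.j0]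
  rw [Nat.cast_mul, jacobiSym.mul_left, this, mul_one, J_left, ← prod_subset (subset_univ I)
    fun n _ hn => sg_neg fun b => hn ((hI n).2 b.2)]
  exact prod_congr rfl fun n hn => (a.jq i n).trans (sg_congr (and_iff_left ((hI n).1 hn)).symm)

theorem cyc {t : ℕ} [NeZero t] {S : Finset (ZMod t)} (h : ∀ i, i ∈ S ↔ i + 1 ∈ S) :
    S = ∅ ∨ S = univ := by
  have k (i : ZMod t) : i ∈ S ↔ 0 ∈ S := by
    rw [← ZMod.natCast_zmod_val i]
    induction i.val with
    | zero => simp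
    | succ n ih => rw [Nat.cast_succ, ← h, ih]
  exact (em (0 ∈ S)).symm.imp (fun a => eq_empty_of_forall_notMem fun i b => a ((k i).1 b))
    fun a => eq_univ_of_forall fun i => (k i).2 a

theorem ex_idx {d t : ℕ} [NeZero t] (hd : Squarefree d) (h : d.primeFactors.card = t) :
    ∃ A : ZMod t → ℕ, Function.Injective A ∧ (∀ i, A i ∈ d.primeFactors) ∧
      (∀ x ∈ d.primeFactors, ∃ i, A i = x) ∧ ∏ i, A i = d := by
  have e : ZMod t ≃ d.primeFactors := Fintype.equivOfCardEq (by simp [h])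
  exact ⟨fun i => e i, Subtype.val_injective.comp e.injective, fun i => (e i).2,
    fun x hx => ⟨e.symm ⟨x, hx⟩, by simp⟩, ((e.prod_comp fun x => (x : ℕ)).trans
      (prod_coe_sort _ fun x => x)).trans (Nat.prod_primeFactors_of_squarefree hd)⟩

/-- the cycle -/
def ro {t : ℕ} (i j : ZMod t) : ℤ := sg (j = i) * sg (j = i + 1)

theorem ro_row {t : ℕ} (S : Finset (ZMod t)) (i : ZMod t) :
    ∏ j ∈ S, ro i j = sg (i ∈ S) * sg (i + 1 ∈ S) := by
  simp only [ro, prod_mul_distrib, prod_sg]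

theorem ro_col {t : ℕ} (S : Finset (ZMod t)) (j : ZMod t) :
    ∏ i ∈ S, ro i (j + 1) = sg (j + 1 ∈ S) * sg (j ∈ S) := by
  simp only [ro, prod_mul_distrib, add_left_inj, prod_sg']

theorem J_neg {a d : ℕ} (ha : Odd a) (hd : d % 4 = 3) : J(-d | a) = J(a | d) := by
  rw [jacobiSym.neg _ ha]
  rcases Nat.odd_mod_four_iff.1 (Nat.odd_iff.1 ha) with h | h
  · rw [ZMod.χ₄_nat_one_mod_four h, one_mul,
      jacobiSym.quadratic_reciprocity_one_mod_four h (Nat.odd_iff.2 (by omega))]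
  · rw [ZMod.χ₄_nat_three_mod_four h, jacobiSym.quadratic_reciprocity_three_mod_four h hd,
      neg_one_mul]

end Re

open Re

/-- **RED** -/
theorem red : RED := fun d₁ d₂ hs m1 m2 hc => by
  classical
  obtain ⟨co, s1, s2⟩ := Nat.squarefree_mul_iff.1 hs
  have : NeZero d₂.primeFactors.card :=
    ⟨(card_pos.2 (Nat.nonempty_primeFactors.2 (by omega))).ne'⟩
  obtain ⟨A, iA, mA, oA, pA⟩ := ex_idx s1 hc
  obtain ⟨B, iB, mB, oB, pB⟩ := ex_idx s2 rfl
  generalize d₂.primeFactors.card = t at *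
  have qA (i) : (A i).Prime := Nat.prime_of_mem_primeFactors (mA i)
  have qB (i) : (B i).Prime := Nat.prime_of_mem_primeFactors (mB i)
  have dA (i) : A i ∣ d₁ := Nat.dvd_of_mem_primeFactors (mA i)
  have dB (i) : B i ∣ d₂ := Nat.dvd_of_mem_primeFactors (mB i)
  have eA (i) : Odd (A i) := (Nat.odd_iff.2 (by omega)).of_dvd_nat (dA i)
  have eB (i) : Odd (B i) := (Nat.odd_iff.2 (by omega)).of_dvd_nat (dB i)
  have nB (j) : ¬B j ∣ d₁ := fun h => (qB j).ne_one (Nat.eq_one_of_dvd_coprimes co h (dB j))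
  have ne (i j) : A i ≠ B j := fun h => nB j (h ▸ dA i)
  have σ (i j) : J(A i | B j) = 1 ∨ J(A i | B j) = -1 := jacobiSym.eq_one_or_neg_one (by
    rw [Int.gcd_natCast_natCast]; exact (Nat.coprime_primes (qA i) (qB j)).2 (ne i j))
  have σ2 (i j) : J(A i | B j) * (ro i j * J(A i | B j)) = ro i j := by
    rcases σ i j with h | h <;> simp [h]
  obtain ⟨k, f, hf⟩ := mult (X := ZMod t × ZMod t) (fun p => ro p.1 p.2 * J(A p.1 | B p.2))
    fun p => by
      rcases σ p.1 p.2 with h | h <;> rcases sg_or (p.2 = p.1) with a | a <;>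
        rcases sg_or (p.2 = p.1 + 1) with b | b <;> simp [ro, h, a, b]
  have f1 (i) (S : Finset (ZMod t)) : ∏ n, sg ((f n).1 = i ∧ (f n).2 ∈ S) =
      ∏ j ∈ S, ro i j * J(A i | B j) := by
    rw [hf fun p => p.1 = i ∧ p.2 ∈ S, show (univ.filter fun p : ZMod t × ZMod t =>
      p.1 = i ∧ p.2 ∈ S) = {i} ×ˢ S by ext p; simp [-singleton_product], prod_product, prod_singleton]
  have f2 (j) (S : Finset (ZMod t)) : ∏ n, sg ((f n).2 = j ∧ (f n).1 ∈ S) =
      ∏ i ∈ S, ro i j * J(A i | B j) := by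
    rw [hf fun p => p.2 = j ∧ p.1 ∈ S, show (univ.filter fun p : ZMod t × ZMod t =>
      p.2 = j ∧ p.1 ∈ S) = S ×ˢ {j} by ext p; simp [-product_singleton, and_comm], prod_product_right,
      prod_singleton]
  have a1 (n i) : A (f n).1 = A i ∨ B (f n).2 = A i ↔ (f n).1 = i := by
    simp [iA.eq_iff, (ne _ _).symm]
  have a2 (n j) : A (f n).1 = B j ∨ B (f n).2 = B j ↔ (f n).2 = j := by simp [iB.eq_iff, ne]
  have pf := Nat.primeFactors_mul s1.ne_zero s2.ne_zero
  refine ⟨k, fun n => A (f n).1, fun n => B (f n).2, fun n => ⟨mA _, mB _⟩, fun x hx => ?_,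
    fun q₀ q _ p0 m0 hq hx => ?_⟩
  · rw [← prod_const, prod_filter, gs]
    simp only [ite_sg]
    rcases mem_union.1 (pf ▸ hx) with h | h
    · obtain ⟨i, rfl⟩ := oA x h
      have := f1 i univ
      simp only [mem_univ, and_true, prod_mul_distrib, ro_row, sg_pos trivial] at this
      rw [if_pos (dA i), J_neg (eA i) (by omega), ← pB, J_right _ fun j => (qB j).ne_zero]
      simpa [a1] using this
    · obtain ⟨j, rfl⟩ := oB x h
      have := f2 j univ
      rw [prod_mul_distrib, ← sub_add_cancel j 1, ro_col, sub_add_cancel] at this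
      rw [if_neg (nB j), ← pA, J_left]
      simpa [a2, sg_pos trivial] using this
  have h : Pq q₀ q := ⟨p0, m0, fun i => (hq i).1, fun i => (hq i).2.1,
    fun i => (hq i).2.2.1.trans ite_sg, fun i => (hq i).2.2.2⟩
  have FA : Fa q₀ q A fun n => (f n).1 := ⟨eA, fun i => (hx _ (pf ▸ mem_union_left _ (mA i))).1,
    fun i n => ((hx _ (pf ▸ mem_union_left _ (mA i))).2 n).trans (ite_sg.trans (sg_congr (a1 n i)))⟩
  have FB : Fa q₀ q B fun n => (f n).2 := ⟨eB, fun i => (hx _ (pf ▸ mem_union_right _ (mB i))).1,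
    fun i n => ((hx _ (pf ▸ mem_union_right _ (mB i))).2 n).trans (ite_sg.trans (sg_congr (a2 n i)))⟩
  have sp {x : ℕ} (hx : x ∣ (∏ i, q i) * q₀) : ∃ (I : Finset _) (w : ℕ), w ∣ q₀ ∧
      x = (∏ i ∈ I, q i) * w := by
    obtain ⟨a, w, ha, hw, rfl⟩ := exists_dvd_and_dvd_of_dvd_mul hx
    obtain ⟨I, rfl, -⟩ := sub h.pr _ a ha
    exact ⟨I, w, hw, rfl⟩
  have o0 : Odd q₀ := Nat.odd_iff.2 (by omega)
  have oq (n) : Odd (q n) := Nat.odd_iff.2 (by have := h.m8 n; omega)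
  refine ⟨fun x hd h4 ha L => ?_, fun x hd hb L => ?_⟩
  · obtain ⟨y, x', hy, hx', rfl⟩ := exists_dvd_and_dvd_of_dvd_mul hd
    obtain ⟨S, rfl, -⟩ := sub qB _ y (pB ▸ hy)
    obtain ⟨I, w, hw, rfl⟩ := sp hx'
    obtain ⟨l1, -, l3⟩ := h.loc (FB.prod h S).1 (FB.prod h S).2
      (fun n => by rw [← pA, (FA.prod h univ).1, sg_pos (mem_univ _)])
      (by rw [← pA, (FA.prod h univ).2]) hw L
    have y4 : (∏ j ∈ S, B j) % 4 = 1 := by
      have u1 : (∏ i ∈ I, q i) % 4 = 1 := prod_induction _ (· % 4 = 1)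
        (fun a b ha hb => by rw [Nat.mul_mod, ha, hb]) rfl fun i _ => by have := h.m8 i; omega
      have u2 : w % 4 = 1 := by rcases (Nat.dvd_prime p0).1 hw with rfl | rfl <;> omega
      rw [Nat.mul_mod, Nat.mul_mod _ w, u1, u2] at h4
      simpa using h4
    rcases cyc (S := S) (fun i => sg_mul.1 (by
      have := ha _ (qA i) (dA i)
      rwa [Nat.cast_mul, jacobiSym.mul_left, FA.rest h hw l1, f1,
        jacobiSym.quadratic_reciprocity_one_mod_four y4 (eA i), J_right _ fun j => (qB j).ne_zero,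
        ← prod_mul_distrib, prod_congr rfl fun j _ => σ2 i j, ro_row] at this)) with rfl | rfl
    · obtain rfl : I = ∅ := eq_empty_of_forall_notMem fun n hn => notMem_empty _ ((l1 n).1 hn)
      simp [l3 (notMem_empty _)]
    · omega
  · obtain ⟨y, x', hy, hx', rfl⟩ := exists_dvd_and_dvd_of_dvd_mul hd
    obtain ⟨ε, y, hε, hz, rfl⟩ := exists_dvd_and_dvd_of_dvd_mul hy
    obtain ⟨S, rfl, -⟩ := sub qA _ y (pA ▸ hz)
    obtain ⟨I, w, hw, rfl⟩ := sp hx'
    have e2 (r : ℕ) (hr : r % 8 = 1) : J(ε | r) = 1 ∧ J(-d₂ | r) = J(d₂ | r) := by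
      have o : Odd r := Nat.odd_iff.2 (by omega)
      refine ⟨?_, by rw [jacobiSym.neg _ o, ZMod.χ₄_nat_one_mod_four (by omega), one_mul]⟩
      rcases (Nat.dvd_prime Nat.prime_two).1 hε with rfl | rfl
      · simp
      · rw [Nat.cast_ofNat, jacobiSym.at_two o, ZMod.χ₈_nat_eq_if_mod_eight]
        simp [hr, Nat.odd_iff.1 o]
    rw [← neg_mul] at L
    obtain ⟨l1, l2, l3⟩ := h.loc (P := fun n => (f n).1 ∈ S)
      (fun n => by rw [Nat.cast_mul, jacobiSym.mul_left, (e2 _ (h.m8 n)).1, (FA.prod h S).1, one_mul])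
      (by rw [Nat.cast_mul, jacobiSym.mul_left, (e2 _ m0).1, (FA.prod h S).2, one_mul])
      (fun n => by rw [(e2 _ (h.m8 n)).2, ← pB, (FB.prod h univ).1, sg_pos (mem_univ _)])
      (by rw [(e2 _ m0).2, ← pB, (FB.prod h univ).2]) hw L
    have key (j) : J(ε | B j) * ∏ i ∈ S, ro i j = 1 := by
      have := hb _ (qB j) (dB j)
      rwa [Nat.cast_mul, jacobiSym.mul_left, FB.rest h hw l1, f2, Nat.cast_mul, jacobiSym.mul_left,
        J_left, mul_assoc, ← prod_mul_distrib, prod_congr rfl fun i _ => σ2 i j] at this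
    obtain rfl : ε = 1 := ((Nat.dvd_prime Nat.prime_two).1 hε).resolve_right fun e => by
      have := prod_eq_one (s := univ) fun j _ => key j
      rw [prod_mul_distrib, ← J_right _ fun j => (qB j).ne_zero, pB, prod_comm, e, Nat.cast_ofNat,
        jacobiSym.at_two (Nat.odd_iff.2 (by omega)), ZMod.χ₈_nat_eq_if_mod_eight] at this
      simp [ro_row, sg_pos trivial, m2, show d₂ % 2 = 1 by omega] at this
    rcases cyc (S := S) (fun j => (sg_mul.1 (by simpa [ro_col] using key (j + 1))).symm)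
      with rfl | rfl
    · obtain rfl : I = ∅ := eq_empty_of_forall_notMem fun n hn => notMem_empty _ ((l1 n).1 hn)
      simp [l3 (notMem_empty _)]
    · obtain rfl : I = univ := eq_univ_of_forall fun n => (l1 n).2 (mem_univ _)
      rw [l2 (mem_univ _), pA, one_mul]
      exact .inr rfl

end Vale.Agent.P004R
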