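import Vale.Agent.P004R.St2

/-!
# P004R: every depletion costs `T ^ 2` (row SHF)
-/

set_option autoImplicit false

open NumberField Polynomial

noncomputable section

namespace Vale.Agent.P004R

open Vale.Agent.P022 P004K
open Vale.Agent.P022E.GW (Ov)
open Vale.Agent.P022K.G2 (Tv)

namespace Sf

section ring

variable {k : Type} [CommRing k]

theorem sq_two (h2 : (2 : k) = 0) (y : k) : (1 + y) ^ 2 = 1 + y ^ 2 := by
  linear_combination y * h2

theorem pow_two_pow (h2 : (2 : k) = 0) (y : k) (n : ℕ) : (1 + y) ^ 2 ^ n = 1 + y ^ 2 ^ n := by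
  induction n with
  | zero => simp
  | succ n ih => rw [pow_succ, pow_mul, ih, sq_two h2, pow_mul]

theorem odd_pow (h2 : (2 : k) = 0) (y : k) {n : ℕ} (h : Odd n) :
    ∃ v, (1 + y) ^ (2 * n) + 1 = y ^ 2 * (1 + y * v) := by
  obtain ⟨j, rfl⟩ := h
  obtain ⟨s, hs⟩ := sub_dvd_pow_sub_pow (1 + y ^ 4) 1 j
  refine ⟨y * s * (1 + y ^ 2), ?_⟩
  have e : (1 + y) ^ (2 * (2 * j + 1)) = (1 + y ^ 4) ^ j * (1 + y ^ 2) := by
    rw [← sq_two h2, show 1 + y ^ 4 = (1 + y) ^ 2 ^ 2 from (pow_two_pow h2 y 2).symm, ← pow_mul,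
      ← pow_add]
    congr 1; ring
  rw [e]
  linear_combination (1 + y ^ 2) * hs + h2

theorem val_add {N : ℕ} [NeZero N] {w : k} (h : w ^ N = 1) (a b : ZMod N) :
    w ^ (a + b).val = w ^ a.val * w ^ b.val := by
  rw [ZMod.val_add, ← pow_eq_pow_mod _ h, pow_add]

theorem cancel {l : ℕ} {v f : k[X]} (h : X ^ (l + 2) ∣ X ^ 2 * (1 + X * v) * f) : X ^ l ∣ f := by
  rw [pow_add, mul_comm, mul_assoc] at h
  obtain ⟨c, hc⟩ := h
  rw [mul_assoc] at hc
  exact IsCoprime.dvd_of_dvd_mul_left (IsCoprime.pow_left ⟨-v, 1, by ring⟩)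
    ⟨c, (monic_X_pow 2).isRegular.left hc⟩

variable {Γ U : Subgroup GQ} {R : Finset GQ}

theorem conj (hU : U ≤ Γ) (hc : ∀ g ∈ Γ, ∀ g' ∈ Γ, g * g' * g⁻¹ * g'⁻¹ ∈ U) {g u : GQ} (hg : g ∈ Γ)
    (hu : u ∈ U) : g * u * g⁻¹ ∈ U := by simpa using mul_mem (hc g hg u (hU hu)) hu

/-- sums over the representatives are invariant under translations -/
theorem sum_tr (T : Tv Γ U R) (hU : U ≤ Γ) (hc : ∀ g ∈ Γ, ∀ g' ∈ Γ, g * g' * g⁻¹ * g'⁻¹ ∈ U)
    {F : GQ → k} (hF : ∀ g ∈ Γ, ∀ u ∈ U, F (g * u) = F g) {ω : GQ} (hω : ω ∈ Γ) :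
    ∑ g ∈ R, F (g * ω) = ∑ g ∈ R, F g := by
  choose π h1 h2 using fun g (hg : g ∈ R) => T.ex (g * ω) (mul_mem (T.mem g hg) hω)
  have inj : ∀ g hg g' hg', π g hg = π g' hg' → g = g' := fun g hg g' hg' e => T.un g hg g' hg' (by
    have := conj hU hc hω (mul_mem (inv_mem (h2 g hg)) (h2 g' hg'))
    rw [e] at this
    simpa [mul_assoc] using this)
  refine Finset.sum_bij π h1 inj (fun r hr => ?_) fun g hg => ?_
  · obtain ⟨g, hg, e⟩ := Finset.surj_on_of_inj_on_of_card_le π h1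
      (fun g g' hg hg' => inj g hg g' hg') le_rfl r hr
    exact ⟨g, hg, e.symm⟩
  · rw [← hF _ (T.mem _ (h1 g hg)) _ (h2 g hg), mul_inv_cancel_left]

/-- the series -/
def Th (R : Finset GQ) {n : ℕ} (e : GQ → ZMod n) (f : GQ → k) : k[X] :=
  ∑ g ∈ R, (1 + X) ^ (e g).val * C (f g)

theorem step (h2 : (2 : k) = 0) {m l : ℕ} {e : GQ → ZMod (2 * 2 ^ m)} (T : Tv Γ U R) (hU : U ≤ Γ)
    (hc : ∀ g ∈ Γ, ∀ g' ∈ Γ, g * g' * g⁻¹ * g'⁻¹ ∈ U)
    (ha : ∀ g ∈ Γ, ∀ g' ∈ Γ, e (g * g') = e g + e g') (h0 : ∀ g ∈ U, e g = 0) {f : GQ → k}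
    (hf : ∀ g ∈ Γ, ∀ u ∈ U, f (g * u) = f g) {ψ : GQ} (hψ : ψ ∈ Γ) (hu : IsUnit (e ψ))
    (hl : l + 2 ≤ 2 * 2 ^ m) (h : X ^ (l + 2) ∣ Th R e f + Th R e fun g => f (g * ψ ^ 2)) :
    X ^ l ∣ Th R e f := by
  have p2 : (2 : k[X]) = 0 := by rw [← map_ofNat C, h2, map_zero]
  obtain ⟨v, hv⟩ := odd_pow p2 X (n := (e ψ).val) (Nat.coprime_two_right.1
    (Nat.Coprime.coprime_mul_right_right ((ZMod.isUnit_iff_coprime _ _).1
      (by rwa [ZMod.natCast_zmod_val]))))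
  refine cancel (v := v) ?_
  rw [← hv, ← Ideal.mem_span_singleton, ← Ideal.Quotient.eq_zero_iff_mem]
  rw [← Ideal.mem_span_singleton, ← Ideal.Quotient.eq_zero_iff_mem] at h
  set q := Ideal.Quotient.mk (Ideal.span {(X : k[X]) ^ (l + 2)})
  have w : q (1 + X) ^ (2 * 2 ^ m) = 1 := by
    rw [← map_pow, ← pow_succ', pow_two_pow p2, map_add, map_one, pow_succ' 2,
      Ideal.Quotient.eq_zero_iff_mem.2 (Ideal.mem_span_singleton.2 (pow_dvd_pow _ hl)), add_zero]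
  have s := sum_tr (F := fun g => q (1 + X) ^ (e g).val * q (C (f g))) T hU hc
    (fun g hg u hu => by rw [ha g hg u (hU hu), h0 u hu, add_zero, hf g hg u hu]) (pow_mem hψ 2)
  have s' : q (1 + X) ^ (2 * (e ψ).val) * q (Th R e fun g => f (g * ψ ^ 2)) = q (Th R e f) := by
    simp only [Th, map_sum, map_mul, map_pow, Finset.mul_sum]
    refine (Finset.sum_congr rfl fun g hg => ?_).trans s
    rw [ha g (T.mem g hg) _ (pow_mem hψ 2), pow_two ψ, ha ψ hψ ψ hψ, val_add w, val_add w]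
    ring
  rw [map_add] at h
  rw [map_mul, map_add, map_pow, map_one]
  linear_combination q (1 + X) ^ (2 * (e ψ).val) * h - s'

end ring

variable (P : Ideal (𝓞 Qb)) [hP : P.IsPrime]

/-- the elements which are integral at `P` -/
def Ao : Subring Qb where
  carrier := {a | P004K.Ip P a}
  mul_mem' := by
    rintro a b ⟨s, t, h, e⟩ ⟨s', t', h', e'⟩
    exact ⟨s * s', t * t', fun k => (hP.mem_or_mem k).elim h h', by
      simp only [RingOfIntegers.coe_eq_algebraMap, map_mul] at *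
      rw [← e, ← e']; ring⟩
  one_mem' := ⟨1, 1, (Ideal.ne_top_iff_one P).1 hP.ne_top, by simp⟩
  add_mem' := by
    rintro a b ⟨s, t, h, e⟩ ⟨s', t', h', e'⟩
    exact ⟨s * s', s' * t + s * t', fun k => (hP.mem_or_mem k).elim h h', by
      simp only [RingOfIntegers.coe_eq_algebraMap, map_mul, map_add] at *
      rw [← e, ← e']; ring⟩
  zero_mem' := ⟨1, 0, (Ideal.ne_top_iff_one P).1 hP.ne_top, by simp⟩
  neg_mem' := by
    rintro a ⟨s, t, h, e⟩
    exact ⟨s, -t, h, by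
      simp only [RingOfIntegers.coe_eq_algebraMap, map_neg] at *
      rw [← e]; ring⟩

/-- the elements which vanish at `P` -/
def Zo : Ideal (Ao P) where
  carrier := {a | Zp P a}
  add_mem' := by
    rintro a b ⟨s, t, h, m, e⟩ ⟨s', t', h', m', e'⟩
    exact ⟨s * s', s' * t + s * t', fun k => (hP.mem_or_mem k).elim h h',
      add_mem (P.mul_mem_left _ m) (P.mul_mem_left _ m'), by
      simp only [RingOfIntegers.coe_eq_algebraMap, map_mul, map_add, Subring.coe_add] at *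
      rw [← e, ← e']; ring⟩
  zero_mem' := ⟨1, 0, (Ideal.ne_top_iff_one P).1 hP.ne_top, P.zero_mem, by simp⟩
  smul_mem' := by
    rintro ⟨a, s, t, h, e⟩ b ⟨s', t', h', m', e'⟩
    exact ⟨s * s', t * t', fun k => (hP.mem_or_mem k).elim h h', P.mul_mem_left _ m', by
      simp only [RingOfIntegers.coe_eq_algebraMap, map_mul, smul_eq_mul, Subring.coe_mul] at e e' ⊢
      rw [← e, ← e']; ring⟩

open Classical in
/-- the lift -/
def lf (a : Qb) : Ao P := if h : a ∈ Ao P then ⟨a, h⟩ else 0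

/-- the residue -/
def rs (a : Qb) : Ao P ⧸ Zo P := Ideal.Quotient.mk _ (lf P a)

variable {P}

theorem lf_coe {a : Qb} (h : P004K.Ip P a) : (lf P a : Qb) = a := by
  rw [lf, dif_pos (show a ∈ Ao P from h)]

theorem rs_add {a b : Qb} (h : P004K.Ip P a) (h' : P004K.Ip P b) :
    rs P (a + b) = rs P a + rs P b := by
  rw [rs, rs, rs, ← map_add]
  exact congrArg _ (Subtype.ext (by
    rw [lf_coe ((Ao P).add_mem h h'), Subring.coe_add, lf_coe h, lf_coe h']))

theorem two (h : (2 : 𝓞 Qb) ∈ P) : (2 : Ao P ⧸ Zo P) = 0 := by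
  rw [← map_ofNat (Ideal.Quotient.mk (Zo P)), Ideal.Quotient.eq_zero_iff_mem]
  exact ⟨1, 2, (Ideal.ne_top_iff_one P).1 hP.ne_top, h, by simp; rfl⟩

theorem vn_iff {R : Finset GQ} {n l : ℕ} {e : GQ → ZMod n} {f : GQ → Qb}
    (h : ∀ g ∈ R, P004K.Ip P (f g)) : Vn P R e f l ↔ X ^ l ∣ Th R e fun g => rs P (f g) := by
  rw [X_pow_dvd_iff]
  refine forall₂_congr fun i _ => ?_
  have a : ∑ g ∈ R, ((e g).val.choose i : Qb) * f g =
      ((∑ g ∈ R, ((e g).val.choose i : Ao P) * lf P (f g) : Ao P) : Qb) := by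
    push_cast
    exact Finset.sum_congr rfl fun g hg => by rw [lf_coe (h g hg)]
  rw [a]
  refine Iff.trans (Ideal.Quotient.eq_zero_iff_mem (I := Zo P)).symm ?_
  simp only [Th, finsetSum_coeff, coeff_mul_C, coeff_one_add_X_pow, map_sum, map_mul,
    map_natCast, rs]

end Sf

open Sf in
/-- **every depletion costs `T ^ 2`** -/
theorem shf : SHF := by
  intro Γ U R m e P h L l T hU hc ha h0 o hh hL
  have := o.2.1
  have G : ∀ L : List GQ, (∀ ψ ∈ L, ψ ∈ Γ) → ∀ g ∈ Γ, P004K.Ip P (dpl h L g) ∧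
      ∀ u ∈ U, dpl h L (g * u) = dpl h L g := fun L => by
    induction L with
    | nil => exact fun _ => hh
    | cons ψ L ih =>
      intro k g hg
      have i := ih fun φ m => k φ (List.mem_cons_of_mem _ m)
      have p := pow_mem (k ψ List.mem_cons_self) 2
      refine ⟨(Ao P).add_mem (i g hg).1 (i _ (mul_mem hg p)).1, fun u hu => ?_⟩
      have c := (i _ (mul_mem hg p)).2 _ (conj hU hc (inv_mem p) hu)
      simp only [dpl]
      rw [(i g hg).2 u hu, ← c]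
      simp only [mul_assoc, mul_inv_cancel_left, inv_inv]
  induction L with
  | nil => exact fun _ => id
  | cons ψ L ih =>
    intro hl H
    have k : ∀ φ ∈ L, φ ∈ Γ ∧ IsUnit (e φ) := fun φ m => hL φ (List.mem_cons_of_mem _ m)
    have i := G L fun φ m => (k φ m).1
    obtain ⟨p, u⟩ := hL ψ List.mem_cons_self
    rw [List.length_cons, mul_add, mul_one, ← add_assoc] at hl H
    refine ih k (by omega) ((vn_iff fun g hg => (i g (T.mem g hg)).1).2
      (step (two (by simpa using o.2.2)) T hU hc ha h0 (fun g hg u hu => by rw [(i g hg).2 u hu])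
        p u hl ?_))
    convert (vn_iff fun g hg => (G _ (fun φ m => (hL φ m).1) g (T.mem g hg)).1).1 H using 1
    rw [Th, Th, Th, ← Finset.sum_add_distrib]
    refine Finset.sum_congr rfl fun g hg => ?_
    rw [dpl, rs_add (i g (T.mem g hg)).1 (i _ (mul_mem (T.mem g hg) (pow_mem p 2))).1, map_add,
      mul_add]

end Vale.Agent.P004R
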