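import Vale.Agent.P004R.St2
import Vale.Agent.P022E.GW.Kc

/-!
# P004R, row SHP: Kummer characters and induced cocycles
-/

set_option autoImplicit false
set_option linter.all false

open NumberField IsDedekindDomain
open scoped Pointwise

noncomputable section

namespace Vale.Agent.P004R.Sp

open Vale.Agent.P022 (Qb GQ GK below)
open Vale.Agent.P027M.S (Inert)
open Vale.Agent.P022D.W (dec)
open Vale.Agent.P022E.GW (Ov)
open Vale.Agent.P022E.GW.Kc
open Vale.Agent.P022K.G2 (In mem_smul)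

section grp

variable {G R : Type} [Group G] [CommRing R] {N : ℕ} [NeZero N] (e : G → ZMod N) (s : ZMod N → G)
  (t : ZMod N → R) (χ : G → R)

/-- the induced cocycle -/
def ind (g : G) : R := ∑ i, t (i + e g) * χ ((s (i + e g))⁻¹ * g * s i)

variable {e s t χ} {Γ : Subgroup G} (he : ∀ g ∈ Γ, ∀ h ∈ Γ, e (g * h) = e g + e h)
include he

theorem e_one : e 1 = 0 := by simpa using he 1 Γ.one_mem 1 Γ.one_mem

theorem e_inv {g : G} (hg : g ∈ Γ) : e g⁻¹ = -e g := by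
  rw [eq_neg_iff_add_eq_zero, ← he _ (Γ.inv_mem hg) _ hg, inv_mul_cancel, e_one he]

theorem e_pow {g : G} (hg : g ∈ Γ) (n : ℕ) : e (g ^ n) = n * e g := by
  induction n with
  | zero => simp [e_one he]
  | succ n h => rw [pow_succ, he _ (Γ.pow_mem hg n) _ hg, h]; push_cast; ring

theorem ex_sec {D : Subgroup G} {φ : G} (h1 : φ ∈ Γ) (h2 : φ ∈ D) (hu : IsUnit (e φ)) :
    ∃ s : ZMod N → G, s 0 = 1 ∧ ∀ i, s i ∈ Γ ∧ s i ∈ D ∧ e (s i) = i :=
  ⟨fun i => φ ^ (i * (e φ)⁻¹).val, by simp, fun i => ⟨Γ.pow_mem h1 _, D.pow_mem h2 _, by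
    rw [e_pow he h1, ZMod.natCast_zmod_val, mul_assoc, ZMod.inv_mul_of_unit _ hu, mul_one]⟩⟩

variable (hs : ∀ i, s i ∈ Γ ∧ e (s i) = i)
include hs

theorem tw_mem {g : G} (hg : g ∈ Γ) (i : ZMod N) : (s (i + e g))⁻¹ * g * s i ∈ Γ ∧
    e ((s (i + e g))⁻¹ * g * s i) = 0 := by
  have a := Γ.inv_mem (hs (i + e g)).1
  refine ⟨Γ.mul_mem (Γ.mul_mem a hg) (hs i).1, ?_⟩
  rw [he _ (Γ.mul_mem a hg) _ (hs i).1, he _ a _ hg, e_inv he (hs _).1, (hs _).2, (hs _).2]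
  ring

theorem ind_mul (ht : ∀ a b, t (a + b) = t a * t b)
    (hχ : ∀ g ∈ Γ, e g = 0 → ∀ h ∈ Γ, e h = 0 → χ (g * h) = χ g + χ h) {g h : G} (hg : g ∈ Γ)
    (hh : h ∈ Γ) : ind e s t χ (g * h) = ind e s t χ g + t (e g) * ind e s t χ h := by
  simp only [ind, Finset.mul_sum]
  rw [← Equiv.sum_comp (Equiv.addRight (e h)) fun i => t (i + e g) * χ ((s (i + e g))⁻¹ * g * s i),
    ← Finset.sum_add_distrib]
  refine Finset.sum_congr rfl fun i _ => ?_
  have a := tw_mem he hs hg (i + e h)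
  have b := tw_mem he hs hh i
  rw [he g hg h hh, add_comm (e g), ← add_assoc, Equiv.coe_addRight, ← mul_assoc (t _), ← ht,
    add_comm (e g), ← mul_add, ← hχ _ a.1 a.2 _ b.1 b.2]
  congr 2
  group

end grp

section pol

open Polynomial

variable {N : ℕ} [NeZero N] {R : Type} [CommRing R] {ρ : PowerSeries (ZMod 2) →+* R} (hρ : Tq ρ N)
include hρ

theorem indep (c : ZMod N → ZMod 2)
    (h : ∑ i : ZMod N, (1 + ρ PowerSeries.X) ^ i.val * ρ (PowerSeries.C (c i)) = 0) : c 0 = 0 := by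
  have k : X ^ N ∣ ∑ i : ZMod N, (1 + X) ^ i.val * C (c i) := X_pow_dvd_iff.2 fun d hd => by
    rw [← coeff_coe]
    refine PowerSeries.X_pow_dvd_iff.1 ((hρ.ker _).1 ?_) d hd
    rw [← coeToPowerSeries.ringHom_apply, ← h]
    simp [map_sum]
  have := congrArg (eval (-1)) (eq_zero_of_dvd_of_degree_lt k (by
    rw [degree_X_pow]
    refine (degree_sum_le _ _).trans_lt ((Finset.sup_lt_iff (WithBot.bot_lt_coe _)).2 fun i _ => ?_)
    refine lt_of_le_of_lt ?_ (Nat.cast_lt.2 i.val_lt)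
    compute_degree!))
  rw [eval_finsetSum, Finset.sum_eq_single 0 (fun i _ h => by simp [h, CharTwo.add_self_eq_zero])
    (by simp)] at this
  simpa using this

theorem t_add {m : ℕ} (hN : N = 2 ^ m) (a b : ZMod N) : (1 + ρ PowerSeries.X) ^ (a + b).val =
    (1 + ρ PowerSeries.X) ^ a.val * (1 + ρ PowerSeries.X) ^ b.val := by
  have : CharP (PowerSeries (ZMod 2)) 2 := charP_of_injective_ringHom PowerSeries.C_injective 2
  rw [← pow_add, ZMod.val_add, ← pow_eq_pow_mod]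
  rw [← map_one ρ, ← map_add, ← map_pow, hN, add_pow_char_pow, one_pow, map_add,
    (hρ.ker (_ ^ _)).2 (by rw [← hN]), add_zero]

end pol

/-- elements which are squares modulo `8` are local squares -/
theorem kq_two {P : Ideal (𝓞 Qb)} (hP : P.IsPrime) (h2 : (2 : 𝓞 Qb) ∈ P) {a y w : 𝓞 Qb}
    (hy : y ∉ P) (h : a = y ^ 2 + 8 * w) {g : GQ} (hg : g ∈ dec P) (ga : g • a = a)
    (gy : g • y = y) : kq (a : Qb) g = 0 := by
  have ha : g (a : Qb) = a := congrArg Subtype.val ga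
  refine (kq_zero (rt_sq _) g).2 ((pm (rt_sq _) ha).resolve_right fun e => ?_)
  have r := rt_sq (a : Qb)
  have k : (rt (a : Qb) - y) / 2 * ((rt (a : Qb) - y) / 2 + y) = 2 * w := by
    have : (a : Qb) = y ^ 2 + 8 * w := congrArg Subtype.val h
    linear_combination (r.trans this) / 4
  obtain ⟨u, hu⟩ : ∃ u : 𝓞 Qb, (u : Qb) = (rt (a : Qb) - y) / 2 := by
    generalize (rt (a : Qb) - y) / 2 = z at k
    refine ⟨⟨z, isIntegral_trans (A := 𝓞 Qb) z
      ⟨Polynomial.X ^ 2 + (Polynomial.C y * Polynomial.X - Polynomial.C (2 * w)),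
      by monicity!, ?_⟩⟩, rfl⟩
    simp only [Polynomial.eval₂_add, Polynomial.eval₂_sub, Polynomial.eval₂_mul,
      Polynomial.eval₂_pow, Polynomial.eval₂_X, Polynomial.eval₂_C]
    rw [map_mul, map_ofNat]
    linear_combination k
  have e1 : u * (u + y) = 2 * w := RingOfIntegers.ext (by
    show (u : Qb) * (u + y) = 2 * w
    rw [hu, k])
  have e2 : g • u = -(u + y) := RingOfIntegers.ext (by
    show g (u : Qb) = -(u + y)
    rw [hu, map_div₀, map_sub, e, show g (y : Qb) = y from congrArg Subtype.val gy, map_ofNat]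
    ring)
  have e3 := hg u
  rw [e2, neg_mem_iff] at e3
  have m := hP.mem_or_mem (e1 ▸ P.mul_mem_right w h2)
  exact hy ((P.add_mem_iff_right (m.elim id e3.1)).1 (m.elim e3.2 id))

variable {H : Type} [Field H] [NumberField H] (j : H →+* Qb)

theorem kq_loc {P : Ideal (𝓞 Qb)} (hP : Ov 2 P) {v v' : Ideal (𝓞 H)} (hv : below j P = v)
    (hm : v * v' = Ideal.span {2}) (hc : v ⊔ v' = ⊤) {J : Ideal (𝓞 H)} {a : 𝓞 H}
    (h : Ad (v ^ 5) J a) {g : GQ} (hg : g ∈ GK j) (hd : g ∈ dec P) : kq (j a) g = 0 := by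
  obtain ⟨⟨y, y1, y2⟩, -⟩ := h
  have pv : v.IsPrime := hv ▸ Ideal.IsPrime.comap _ (hK := hP.2.1)
  obtain ⟨s, s1, s2⟩ : ∃ s ∈ v', s ∉ v := SetLike.not_le_iff_exists.1 fun k =>
    pv.ne_top (by rw [← hc, sup_eq_left.2 k])
  obtain ⟨w, hw⟩ : (8 : 𝓞 H) ∣ s ^ 3 * (a - y ^ 2) := by
    rw [← Ideal.mem_span_singleton, show (8 : 𝓞 H) = 2 ^ 3 by norm_num, ← Ideal.span_singleton_pow,
      ← hm, mul_pow, mul_comm (v ^ 3)]
    exact Ideal.mul_mem_mul (Ideal.pow_mem_pow s1 3) (Ideal.pow_le_pow_right (by norm_num) y2)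
  have s0 : (s : H) ^ 2 ≠ 0 := pow_ne_zero 2 fun k => s2 (by
    rw [RingOfIntegers.coe_eq_zero_iff.1 k]; exact v.zero_mem)
  have y3 : y ∉ v := fun k => pv.ne_top (top_le_iff.1 (y1.ge.trans (sup_le
    ((Ideal.span_singleton_le_iff_mem _).2 k) (Ideal.pow_le_self (by norm_num)))))
  have f : ∀ x : 𝓞 H, g • RingOfIntegers.mapRingHom j x = RingOfIntegers.mapRingHom j x :=
    fun x => RingOfIntegers.ext (hg x)
  rw [← kq_sqL j _ s0 hg]
  have := kq_two hP.2.1 (by exact_mod_cast hP.2.2) (a := RingOfIntegers.mapRingHom j (a * (s ^ 2) ^ 2))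
    (y := RingOfIntegers.mapRingHom j (s ^ 2 * y)) (w := RingOfIntegers.mapRingHom j (s * w))
    (fun k => (pv.mem_or_mem (hv.le k)).elim (fun k => s2 (pv.mem_of_pow_mem 2 k)) y3) (by
      rw [← map_pow, ← map_ofNat (RingOfIntegers.mapRingHom j) 8, ← map_mul, ← map_add]
      congr 1
      linear_combination s * hw) hd (f _) (f _)
  exact this

theorem kq_unr {l : ℕ} {Q : Ideal (𝓞 Qb)} (hQ : Ov l Q) (h2 : l ≠ 2) {𝔪 J : Ideal (𝓞 H)} {a : 𝓞 H}
    (h : Ad 𝔪 J a) (h0 : a ≠ 0) (hJ : ¬ J ≤ below j Q) {g : GQ} (hg : g ∈ GK j) (hi : Inert Q g) :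
    kq (j a) g = 0 := by
  obtain ⟨-, A, B, n, e, d⟩ := h
  obtain ⟨v, hv, -⟩ := ex_below j hQ.1.ne_zero hQ.2.1 hQ.2.2
  refine kq_even j (RingOfIntegers.coe_ne_zero_iff.2 h0) v hQ.2.1 hv (fun k => h2 ?_) ?_ hg hi
  · exact (Nat.prime_dvd_prime_iff_eq hQ.1 Nat.prime_two).1 (by
      exact_mod_cast P004S.ov_dvd hQ (a := 2) (by exact_mod_cast k))
  have s0 : Ideal.span {a} ≠ 0 := by simpa using h0
  have f := FiniteMultiplicity.of_prime_left v.prime s0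
  rw [P027M.S.Cls.ordv_of (n := multiplicity v.asIdeal (Ideal.span {a})) (by
    rw [← v.intValuation_eq_exp_neg_multiplicity h0, HeightOneSpectrum.valuation_of_algebraMap])]
  rw [e] at f ⊢
  rw [multiplicity_mul v.prime f, (multiplicity_eq_zero (b := B)).2 fun k => hJ ?_, add_zero, pow_two,
    multiplicity_mul v.prime (pow_two A ▸ f.mul_left)]
  · exact ⟨_, Nat.cast_add _ _⟩
  · exact hv ▸ Ideal.le_of_dvd (v.prime.dvd_of_dvd_pow (k.trans d))

theorem ad_ne {𝔪 J : Ideal (𝓞 H)} {a : 𝓞 H} (h : Ad 𝔪 J a) {v : Ideal (𝓞 H)} (hv : v.IsPrime)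
    (hm : 𝔪 ≤ v) : a ≠ 0 := by
  rintro rfl
  obtain ⟨⟨y, y1, y2⟩, -⟩ := h
  rw [zero_sub, neg_mem_iff] at y2
  exact hv.ne_top (top_le_iff.1 (y1.ge.trans (sup_le
    ((Ideal.span_singleton_le_iff_mem _).2 (hv.mem_of_pow_mem 2 (hm y2))) hm)))

/-- the induced cocycles -/
theorem core {Γ : Subgroup GQ} {N m : ℕ} (hN : N = 2 ^ m) {e : GQ → ZMod N}
    (he : ∀ g ∈ Γ, ∀ h ∈ Γ, e (g * h) = e g + e h) (gH : ∀ g, g ∈ GK j ↔ g ∈ Γ ∧ e g = 0)
    {P : Ideal (𝓞 Qb)} (hP : Ov 2 P) (hd : dec P ≤ Γ) {φ : GQ} (h1 : φ ∈ dec P)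
    (hu : IsUnit (e φ)) {v v' : Ideal (𝓞 H)} (hv : below j P = v) (hm : v * v' = Ideal.span {2})
    (hc : v ⊔ v' = ⊤) {T : Finset ℕ} (h2 : 2 ∈ T) (hT : ∀ g ∈ Γ, g ∈ In T → e g = 0)
    {A : Ideal (𝓞 H)}
    (hA : ∀ Q : Ideal (𝓞 H), Q.IsPrime → A ≤ Q → ∃ l ∈ T, l.Prime ∧ (l : 𝓞 H) ∈ Q)
    {R : Type} [CommRing R] {ρ : PowerSeries (ZMod 2) →+* R} (hρ : Tq ρ N) :
    ∃ κ : 𝓞 H → Z0 Γ T (r1 (ch ρ e)) P, ∀ a b, Ad (v ^ 5) A a → Ad (v ^ 5) A b → κ a = κ b →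
      IsSquare ((a : H) * b) := by
  classical
  have : NeZero N := ⟨hN ▸ pow_ne_zero m two_ne_zero⟩
  obtain ⟨s, s0, hs⟩ := ex_sec he (hd h1) h1 hu
  have hs' : ∀ i, s i ∈ Γ ∧ e (s i) = i := fun i => ⟨(hs i).1, (hs i).2.2⟩
  have pv : v.IsPrime := hv ▸ Ideal.IsPrime.comap _ (hK := hP.2.1)
  have n0 : ∀ a, Ad (v ^ 5) A a → a ≠ 0 := fun a ha => ad_ne ha pv (Ideal.pow_le_self (by norm_num))
  have tw : ∀ g ∈ Γ, ∀ i, (s (i + e g))⁻¹ * g * s i ∈ GK j := fun g hg i =>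
    (gH _).2 (tw_mem he hs' hg i)
  let z : 𝓞 H → GQ → R := fun a => ind e s (fun i => (1 + ρ PowerSeries.X) ^ i.val)
    fun g => ρ (PowerSeries.C (kq (j a) g))
  have z0 : ∀ (a : 𝓞 H) g, (∀ i, kq (j a) ((s (i + e g))⁻¹ * g * s i) = 0) →
      (fun _ : Fin 1 => if g ∈ Γ then z a g else 0) = 0 := fun a g h => funext fun _ =>
    ite_eq_right_iff.2 fun _ => Finset.sum_eq_zero fun i _ => by simp only [h, map_zero, mul_zero]
  have key : ∀ a, Ad (v ^ 5) A a → ((fun g _ => if g ∈ Γ then z a g else 0, 0) :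
      (GQ → Fin 1 → R) × (Empty → R)) ∈ Z0 Γ T (r1 (ch ρ e)) P := fun a ha => by
    refine ⟨fun g hg h hh => funext fun i => ?_, fun g hg => funext fun _ => if_neg hg,
      ⟨GK j ⊓ ⨅ i, MulAction.stabilizer GQ (s i (rt (j a))), ?_, fun w hw => z0 a w fun i => ?_⟩,
      fun g hi => ?_, fun _ g hg => (z0 a g fun i => ?_).trans (P004F.Pr.ac_zero _).symm⟩
    · have := ind_mul (t := fun i => (1 + ρ PowerSeries.X) ^ i.val)
        (χ := fun g => ρ (PowerSeries.C (kq (j a) g))) he hs' (t_add hρ hN) (fun x x1 x2 y y1 y2 => by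
          rw [kq_addL j _ ((gH _).2 ⟨x1, x2⟩) ((gH _).2 ⟨y1, y2⟩), map_add, map_add]) hg hh
      simpa [P004F.Pr.ac, r1, ch, hg, hh, Γ.mul_mem hg hh, Subsingleton.elim i 0] using this
    · rw [Subgroup.coe_inf, Subgroup.coe_iInf]
      exact (P022.H916.isOpen_GK j).inter (isOpen_iInter_of_finite fun i => stab_open _)
    · have k : w (s i (rt (j a))) = s i (rt (j a)) := Subgroup.mem_iInf.1 hw.2 i
      rw [((gH w).1 hw.1).2, add_zero, kq_zero (rt_sq _), AlgEquiv.mul_apply, AlgEquiv.mul_apply, k,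
        ← AlgEquiv.mul_apply, inv_mul_cancel]
      rfl
    · by_cases hg : g ∈ Γ
      swap
      · exact funext fun _ => if_neg hg
      refine z0 a g fun i => ?_
      have k := tw g hg i
      rw [hT g hg hi, add_zero] at k ⊢
      obtain ⟨l, hl, Q, hQ, hi⟩ := hi
      have q : Ov l ((s i)⁻¹ • Q) := ⟨hQ.1, haveI := hQ.2.1; inferInstance, by
        rw [mem_smul, inv_inv,
          show s i • (l : 𝓞 Qb) = l from map_natCast (MulSemiringAction.toRingHom GQ (𝓞 Qb) _) l]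
        exact hQ.2.2⟩
      refine kq_unr j q (fun k => hl (k ▸ h2)) ha (n0 a ha) (fun k => hl ?_) k fun x => ?_
      · obtain ⟨l', l1, l2, l3⟩ := hA _ (Ideal.IsPrime.comap _ (hK := q.2.1)) k
        rw [Ideal.mem_comap, map_natCast] at l3
        exact (Nat.prime_dvd_prime_iff_eq hQ.1 l2).1 (by
          exact_mod_cast P004S.ov_dvd q (a := l') (by exact_mod_cast l3)) ▸ l1
      · rw [mem_smul, inv_inv, smul_sub, mul_smul, mul_smul, smul_inv_smul]
        exact hi _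
    · exact kq_loc j hP hv hm hc ha (tw g hg.1 i) ((dec P).mul_mem ((dec P).mul_mem
        ((dec P).inv_mem (hs _).2.1) hg.2) (hs _).2.1)
  refine ⟨fun a => if h : Ad (v ^ 5) A a then ⟨_, key a h⟩ else 0, fun a b ha hb h => ?_⟩
  simp only [dif_pos ha, dif_pos hb] at h
  obtain ⟨y, hy⟩ := (kq_triv j ((a : H) * b)).1 fun g hg => by
    have f := congrFun (congrFun (congrArg (fun x => x.1.1) h) g) 0
    have k := indep hρ (fun i => kq (j a) ((s i)⁻¹ * g * s i) - kq (j b) ((s i)⁻¹ * g * s i)) (by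
      simpa only [z, ind, (gH g).1 hg, if_true, add_zero, map_sub, mul_sub, Finset.sum_sub_distrib,
        sub_eq_zero] using f)
    rw [s0, inv_one, one_mul, mul_one, CharTwo.sub_eq_add] at k
    rw [kq_mulL j (RingOfIntegers.coe_ne_zero_iff.2 (n0 a ha))
      (RingOfIntegers.coe_ne_zero_iff.2 (n0 b hb)) hg, k]
  exact ⟨y, hy.trans (pow_two y)⟩

end Vale.Agent.P004R.Sp

namespace Vale.Agent.P004R

open Vale.Agent.P022 (Qb GQ GK below)

/-- **Kummer theory and the lemma of Shapiro** -/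
theorem shp (rc2 : P004K.RC2) : SHP := by
  intro K _ _ j c M e L F H _ _ _ _ _ jH φ σ f _ P hP hφ hd v v' ip hv T h2 hT A hA R _ ρ hρ
  obtain ⟨m, hm⟩ := L.pow
  refine Sp.core jH (m := m + 2) (by rw [hm]; ring) L.add f.gH hP hd (fun x => ?_) f.gen hv.symm
    (v' := up H v') ?_ ?_ h2 (fun g hg hi => L.ker g ?_) hA hρ
  · rw [← hP.2.1.pow_mem_iff_mem (r := x) 2 two_pos, ← P.add_mem_iff_right (b := x ^ 2) (hφ x),
      sub_add_cancel]
  · rw [← Ideal.map_mul, ip.mul, Ideal.map_span, Set.image_singleton, map_natCast, Nat.cast_ofNat]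
  · rw [← Ideal.map_sup, ip.cop, Ideal.map_top]
  · obtain ⟨l, hl, Q, hQ, hi⟩ := hi
    obtain ⟨-, -, -, r4, -, -, r7⟩ := rc2 K j L.iq c (Nat.pos_of_ne_zero L.sq.ne_zero)
    have k := r7 Q hQ.2.1 (fun k => hQ.1.ne_zero (Nat.cast_eq_zero.1 (k.le hQ.2.2)))
      fun k => hl (hT l hQ.1 (by exact_mod_cast P004S.ov_dvd hQ (a := c) (by exact_mod_cast k)))
    simpa using (r4 _ 1 g (k 1 (GK j).one_mem 0 fun x => by simp)).1
      (k g hg 0 fun x => by simpa using hi x)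

end Vale.Agent.P004R
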