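import Vale.Agent.P004R.St0

/-!
# P004R: the row VEL (the formulas of Velu for an isogeny of degree two)
-/

set_option autoImplicit false

open UpperHalfPlane Filter Topology

noncomputable section

namespace Vale.Agent.P004R

open P027H P027M.M P004K

namespace Ve

variable {Λ Λ' M : Submodule ℤ ℂ} {p c : ℂ} {τ : ℍ}

theorem velu (hΛ : IsLat Λ) (hM : IsLat M) (h : Reps ![0, p] Λ M) (h2 : 2 * p ∈ Λ) :
    g3 Λ = 4 * wp Λ p ^ 3 - g2 Λ * wp Λ p ∧ g2 M = 60 * wp Λ p ^ 2 - 4 * g2 Λ ∧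
      g3 M = 88 * wp Λ p ^ 3 - 8 * wp Λ p * g2 Λ := by
  have hp : p ∉ Λ := fun a => absurd (h.inj 1 0 (by simpa using a)) (by simp)
  have e3 : g3 Λ = 4 * wp Λ p ^ 3 - g2 Λ * wp Λ p := by
    have k := hΛ.ode hp
    rw [(hΛ.dwp_eq_zero hp).2 h2] at k
    linear_combination k
  have n : ∀ z, z ∉ M → z ∉ Λ ∧ z - p ∉ Λ := fun z hz => ⟨fun a => hz (h.le a), fun a =>
    hz (mem_of_eq (add_mem (h.le a) (h.mem 1)) (by simp))⟩
  have he : ∀ z, z ∉ M → 0 * wp M z ^ 2 + (g2 M - (60 * wp Λ p ^ 2 - 4 * g2 Λ)) * wp M z +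
      (g3 M - (88 * wp Λ p ^ 3 - 8 * wp Λ p * g2 Λ)) = 0 := fun z hz => by
    obtain ⟨n1, n2⟩ := n z hz
    have a1 := h.wp hΛ hM z
    have a2 := h.dwp hΛ hM z
    simp only [Fin.sum_univ_two, Matrix.cons_val_zero, Matrix.cons_val_one, sub_zero,
      hΛ.wp_mem (zero_mem _)] at a1 a2
    have a3 := hΛ.wp_half hp h2 n1 n2
    have d := ((((hΛ.hasDerivAt_wp n2).comp_sub_const z p).sub_const (wp Λ p)).mul
      ((hΛ.hasDerivAt_wp n1).sub_const (wp Λ p))).unique ((hasDerivAt_const z _).congr_of_eventuallyEq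
        ((hM.notMem_nhds hz).mono fun w hw => hΛ.wp_half hp h2 (n w hw).1 (n w hw).2))
    have u : wp Λ z - wp Λ p ≠ 0 := sub_ne_zero.2
      (hΛ.wp_ne n1 hp n2 fun e => n2 (mem_of_eq (sub_mem e h2) (by ring)))
    have o1 := hΛ.ode n1
    have o2 := hM.ode hz
    rw [a2] at o2
    rw [e3] at o1
    generalize wp M z = X at *
    generalize wp Λ z = x at *
    generalize wp Λ (z - p) = y at *
    generalize dwp Λ z = x' at *
    generalize dwp Λ (z - p) = y' at *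
    generalize wp Λ p = e at *
    have g : g2 Λ = 12 * e ^ 2 - 4 * (y - e) * (x - e) := by linear_combination 4 * a3
    rw [g] at o1 ⊢
    subst a1
    refine mul_left_cancel₀ (pow_ne_zero 2 u) ?_
    linear_combination (x - e) ^ 2 * o2 - (x - y) ^ 2 * o1 -
      ((x' + y') * (x - e) + (x - y) * x') * d
  obtain ⟨x, y, z, hx, hy, hz, -, -, -, n1, n2, n3⟩ := hM.exists_three
  obtain ⟨-, k2, k3⟩ := quad3 n1 n2 n3 (he x hx) (he y hy) (he z hz)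
  exact ⟨e3, sub_eq_zero.1 k2, sub_eq_zero.1 k3⟩

theorem DL_ne (h : IsLat Λ) : DL Λ ≠ 0 := fun e => h.disc_ne (by
  rw [DL] at e; linear_combination (-1 / 16) * e)

theorem DL_hom (h : Hom c Λ Λ') : DL Λ' = c⁻¹ ^ 12 * DL Λ := by
  rw [DL, DL, h.g2, h.g3]; ring

theorem coe_two (τ : ℍ) : ((ofComplex (2 * τ) : ℍ) : ℂ) = 2 * τ := by
  rw [ofComplex_apply_of_im_pos (by simpa using τ.im_pos)]

theorem half_not (τ : ℍ) : (1 / 2 : ℂ) ∉ lat τ := fun h => by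
  obtain ⟨m, n, e⟩ := mem_lat.1 h
  have k := (int_indep τ (s := 2 * m) (t := 2 * n - 1) (by push_cast; linear_combination 2 * e)).2
  have : 2 * n - 1 = 0 := by exact_mod_cast k
  omega

theorem int_mem (τ : ℍ) (n : ℤ) : (n : ℂ) ∈ lat τ := mem_lat.2 ⟨0, n, by simp⟩

theorem reps (τ : ℍ) : Reps ![0, 1 / 2] (lat τ) (scl 2⁻¹ (lat (ofComplex (2 * τ)))) := by
  have m : ∀ z, z ∈ scl 2⁻¹ (lat (ofComplex (2 * τ))) ↔ ∃ m n : ℤ, (m : ℂ) * (2 * τ) + n = 2 * z :=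
    fun z => by rw [mem_scl, inv_inv, mem_lat, coe_two]
  refine ⟨fun z hz => ?_, fun i => ?_, fun z hz => ?_, fun i k a => ?_⟩
  · obtain ⟨a, b, rfl⟩ := mem_lat.1 hz
    exact (m _).2 ⟨a, 2 * b, by push_cast; ring⟩
  · fin_cases i
    · exact zero_mem _
    · exact (m _).2 ⟨0, 1, by simp⟩
  · obtain ⟨a, b, e⟩ := (m z).1 hz
    obtain ⟨b, rfl | rfl⟩ := b.even_or_odd'
    · exact ⟨0, mem_lat.2 ⟨a, b, by push_cast at e; simp; linear_combination e / 2⟩⟩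
    · exact ⟨1, mem_lat.2 ⟨a, b, by push_cast at e; simp; linear_combination e / 2⟩⟩
  · fin_cases i <;> fin_cases k
    · rfl
    · exact absurd (mem_of_eq (neg_mem a) (by simp)) (half_not τ)
    · exact absurd (mem_of_eq a (by simp)) (half_not τ)
    · rfl

/-- the invariants of the two lattices -/
theorem two (τ : ℍ) : g3 (lat τ) = 4 * wp (lat τ) (1 / 2) ^ 3 - g2 (lat τ) * wp (lat τ) (1 / 2) ∧
    g2 (lat (ofComplex (2 * τ))) = (60 * wp (lat τ) (1 / 2) ^ 2 - 4 * g2 (lat τ)) / 16 ∧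
    g3 (lat (ofComplex (2 * τ))) =
      (88 * wp (lat τ) (1 / 2) ^ 3 - 8 * wp (lat τ) (1 / 2) * g2 (lat τ)) / 64 := by
  have H := hom_scl (c := 2⁻¹) (by norm_num) (lat (ofComplex (2 * τ)))
  obtain ⟨k1, k2, k3⟩ := velu (isLat τ) (H.isLat (isLat _)) (reps τ)
    (mem_of_eq (int_mem τ 1) (by norm_num))
  rw [H.g2] at k2
  rw [H.g3] at k3
  exact ⟨k1, by linear_combination k2 / 16, by linear_combination k3 / 64⟩

theorem s2_eq (τ : ℍ) : 3 * wp (lat τ) (1 / 2) ^ 2 - g2 (lat τ) / 4 ≠ 0 ∧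
    g2 (lat τ) - 3 * wp (lat τ) (1 / 2) ^ 2 ≠ 0 ∧
    DL (lat τ) = 16 * (3 * wp (lat τ) (1 / 2) ^ 2 - g2 (lat τ) / 4) ^ 2 *
      (g2 (lat τ) - 3 * wp (lat τ) (1 / 2) ^ 2) ∧
    DL (lat (ofComplex (2 * τ))) = (3 * wp (lat τ) (1 / 2) ^ 2 - g2 (lat τ) / 4) *
      (g2 (lat τ) - 3 * wp (lat τ) (1 / 2) ^ 2) ^ 2 / 16 ∧
    s2 τ = 256 * (3 * wp (lat τ) (1 / 2) ^ 2 - g2 (lat τ) / 4) /
      (g2 (lat τ) - 3 * wp (lat τ) (1 / 2) ^ 2) := by
  obtain ⟨k1, k2, k3⟩ := two τ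
  have a : DL (lat τ) = 16 * (3 * wp (lat τ) (1 / 2) ^ 2 - g2 (lat τ) / 4) ^ 2 *
      (g2 (lat τ) - 3 * wp (lat τ) (1 / 2) ^ 2) := by rw [DL, k1]; ring
  have b : DL (lat (ofComplex (2 * τ))) = (3 * wp (lat τ) (1 / 2) ^ 2 - g2 (lat τ) / 4) *
      (g2 (lat τ) - 3 * wp (lat τ) (1 / 2) ^ 2) ^ 2 / 16 := by rw [DL, k2, k3]; ring
  have n := DL_ne (isLat τ)
  rw [a] at n
  have n1 := (pow_ne_zero_iff two_ne_zero).1 (right_ne_zero_of_mul (left_ne_zero_of_mul n))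
  have n2 := right_ne_zero_of_mul n
  refine ⟨n1, n2, a, b, ?_⟩
  rw [s2, a, b]
  field_simp
  ring

end Ve

open Ve

/-- **VEL** -/
theorem vel : VEL := fun τ => by
  obtain ⟨n1, n2, a, b, s⟩ := s2_eq τ
  refine ⟨div_ne_zero (DL_ne (isLat _)) (DL_ne (isLat _)), ?_, ?_, ?_⟩
  · rw [jL, ← DL, a, s]
    generalize wp (lat τ) (1 / 2) = e at *
    generalize hc : 3 * e ^ 2 - g2 (lat τ) / 4 = c at *
    generalize hd : g2 (lat τ) - 3 * e ^ 2 = d at *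
    rw [show g2 (lat τ) = 4 / 3 * (c + d) by rw [← hc, ← hd]; ring]
    field_simp
    ring
  · rw [jL, ← DL, b, s, (two τ).2.1]
    generalize wp (lat τ) (1 / 2) = e at *
    generalize hc : 3 * e ^ 2 - g2 (lat τ) / 4 = c at *
    generalize hd : g2 (lat τ) - 3 * e ^ 2 = d at *
    rw [show 60 * e ^ 2 - 4 * g2 (lat τ) = 4 / 3 * (16 * c + d) by rw [← hc, ← hd]; ring]
    field_simp
    ring
  · rintro σ τ' ⟨ψ, ⟨μ, m0, T⟩, k, hk⟩
    have H := hom_scl m0 (lat τ')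
    simp only [Nat.cast_ofNat] at hk
    have w := T.wp (1 / 2)
    have g := T.g23.1
    rw [H.g2] at g
    obtain ⟨k, rfl | rfl⟩ := k.even_or_odd'
    · exact absurd ((T.mem _).1 ((H.2 _).1 (mem_of_eq (add_mem hk (int_mem τ' k))
        (by push_cast; ring)))) (half_not τ)
    rw [H.wp, (isLat τ').wp_congr (w := 1 / 2) (mem_of_eq (add_mem hk (int_mem τ' k))
      (by push_cast; ring))] at w
    obtain ⟨-, n3, -, -, s'⟩ := s2_eq τ'
    rw [RingHom.coe_coe] at w g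
    rw [s, s']
    simp only [map_div₀, map_mul, map_sub, map_pow, map_ofNat, ← w, ← g]
    rw [eq_div_iff (fun e => n3 (mul_left_cancel₀ (pow_ne_zero 4 (inv_ne_zero m0))
      (by linear_combination e)))]
    field_simp

end Vale.Agent.P004R
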