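import Vale.Agent.P004R.St
import Vale.Agent.P004R.Vel
import Vale.Agent.P004K.Hg.At
import Vale.Agent.P004K.Lt
import Vale.Agent.P004K.Rc.Q

/-!
# P004R: the row UNI (the elliptic unit on `X₀(2)`)
-/

set_option autoImplicit false

open UpperHalfPlane NumberField Polynomial
open scoped Pointwise

noncomputable section

namespace Vale.Agent.P004R

open Vale.Agent.P022 P027H P027M.M P004K
open Vale.Agent.P022D.W (dec phi_mem phi_pow)
open Vale.Agent.P022E.GW (Ov Fb)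

namespace Ui

theorem int_of {R : Type} [CommRing R] {j s : R} (hj : IsIntegral ℤ j)
    (h : j * s ^ 2 = (s + 256) ^ 3) : IsIntegral ℤ s := by
  refine isIntegral_trans (A := integralClosure ℤ R) s ⟨X ^ 3 + (C (768 - ⟨j, hj⟩) * X ^ 2 +
    C 196608 * X + C 16777216), monic_X_pow_add (by compute_degree!), ?_⟩
  simp only [eval₂_add, eval₂_mul, eval₂_pow, eval₂_X, eval₂_C]
  change s ^ 3 + ((768 - j) * s ^ 2 + 196608 * s + 16777216) = 0
  linear_combination -h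

theorem assoc {R : Type} [CommRing R] [IsDomain R] {a a' b b' u v : R} (e : a * a' = b * b')
    (h : IsCoprime u v) (h1 : a ∣ u) (h2 : a' ∣ v) (h3 : b ∣ u) (h4 : b' ∣ v) : Associated a b :=
  associated_of_dvd_dvd
    (((h.of_isCoprime_of_dvd_left h1).of_isCoprime_of_dvd_right h4).dvd_of_dvd_mul_right
      (e ▸ dvd_mul_right a a'))
    (((h.of_isCoprime_of_dvd_left h3).of_isCoprime_of_dvd_right h2).dvd_of_dvd_mul_right
      (e ▸ dvd_mul_right b b'))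

variable {Λ Λ₁ : Submodule ℤ ℂ} {τ τ' : ℍ}

theorem s2_at (h : At 2 Λ Λ₁ τ) : s2 τ * DL Λ₁ = 4096 * DL Λ ∧
    jL (lat (ofComplex (2 * τ))) = jL Λ₁ := by
  obtain ⟨ω, hω, rfl⟩ := Hg.at_iff.1 h
  have hh := Hg.hom_ov (M := 2) two_pos hω (τ' := ofComplex (2 * τ)) (by
    rw [Ve.coe_two, Nat.cast_ofNat])
  refine ⟨?_, (jL_hom hh (isLat _)).symm⟩
  have := Ve.DL_ne (isLat (ofComplex (2 * τ)))
  have := hω.1
  rw [Ve.DL_hom hh, Ve.DL_hom hω, s2, Nat.cast_ofNat]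
  field_simp
  norm_num

theorem gl_eq (hJ : JH) (h : jL (lat τ) = jL (lat τ')) : Gl τ = Gl τ' := by
  obtain ⟨μ, k⟩ := (hJ _ _ (isLat τ) (isLat τ')).1 h
  obtain ⟨γ, rfl, e, -⟩ := hom_lat k
  have n : ‖μ‖ ≠ 0 := norm_ne_zero_iff.2 k.1
  rw [Gl, Gl, Ve.DL_hom k, ModularGroup.im_smul_eq_div_normSq, ModularGroup.denom_apply, ← e,
    Complex.normSq_eq_norm_sq, norm_mul, norm_pow, norm_inv]
  congr 1
  field_simp

theorem gl_two (τ : ℍ) :
    Real.log ‖s2 τ‖ = Gl τ - Gl (ofComplex (2 * τ)) + 6 * Real.log 2 := by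
  have e : (ofComplex (2 * τ) : ℍ).im = 2 * τ.im := by
    rw [← coe_im, Ve.coe_two]
    simp
  have n1 := norm_ne_zero_iff.2 (Ve.DL_ne (isLat τ))
  have n2 := norm_ne_zero_iff.2 (Ve.DL_ne (isLat (ofComplex (2 * τ))))
  have n3 := τ.im_pos.ne'
  rw [Gl, Gl, e, s2, norm_div, Real.log_div n1 n2, Real.log_mul (by positivity) n1,
    Real.log_mul (by positivity) n2, mul_pow, Real.log_mul (by positivity) (by positivity),
    Real.log_pow 2]
  push_cast
  ring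

variable {K : Type} [Field K] [NumberField K] {j : K →+* Qb} {P : Ideal (𝓞 Qb)} {φ : GQ}

theorem cn (q : Iq K) (hP : Ov 2 P) (hd : dec P ≤ GK j) (hφ : Fb 2 P φ) :
    Ideal.absNorm (below j P) = 2 ∧ Cn 2 (below j P) := by
  have n := H20.norm_of_frob_mem q.two hP.1 j hP.2.1 hP.2.2 hφ (hd (phi_mem hP.1 hP.2.1 hφ))
  refine ⟨n, fun k => ⟨fun h => H20.dvd_of_mem hP.1 hP.2.1 hP.2.2 ?_, ?_⟩, H20.exists_int hP.1 n⟩
  · rwa [H20.mem_below, map_intCast] at h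
  · rintro ⟨m, rfl⟩
    rw [Int.cast_mul, Int.cast_natCast]
    exact Ideal.mul_mem_right _ _ (H20.l_mem_below j hP.2.2)

/-- the prime is not ramified -/
theorem not_mem (q : Iq K) (hP : P.IsPrime) (hd : dec P ≤ GK j) {η : 𝓞 K}
    (B : ∀ a : 𝓞 K, ∃ u v : ℤ, a = u + v * η) (hη : η ∈ below j P) {t n : ℤ}
    (e : η ^ 2 = t * η - n) : (t : 𝓞 K) ∉ below j P := fun ht => by
  obtain ⟨γ, hγ⟩ := H916.exists_not_mem j q.two
  have hn : (n : 𝓞 K) ∈ below j P := by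
    rw [show (n : 𝓞 K) = (t - η) * η by linear_combination e]
    exact Ideal.mul_mem_left _ _ hη
  rw [H20.mem_below, map_intCast] at ht hn
  have k : η ∈ below (H20.tw γ j) P := (H20.below_prime _ hP).mem_of_pow_mem 2 (by
    rw [e, H20.mem_below, map_sub, map_mul, map_intCast, map_intCast]
    exact P.sub_mem (P.mul_mem_right _ ht) hn)
  obtain ⟨g, hg⟩ := H916.exists_smul j hP (H20.cP_prime γ hP) (by
    rw [H20.below_cP]
    ext a
    obtain ⟨u, v, rfl⟩ := B a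
    rw [Ideal.add_mem_iff_left _ (Ideal.mul_mem_left _ _ hη),
      Ideal.add_mem_iff_left _ (Ideal.mul_mem_left _ _ k), H20.mem_below, H20.mem_below,
      map_intCast, map_intCast])
  refine hγ (((GK j).mul_mem_cancel_right g.2).1 (hd fun x => ?_))
  rw [mul_smul, ← H20.mem_cP, hg, Ideal.smul_mem_pointwise_smul_iff]

/-- a generator of a power of the prime and its complement -/
theorem compl {O : Type} [CommRing O] [IsDomain O] {I : Ideal O} (h : Cn 2 I) {η : O}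
    (B : ∀ a : O, ∃ u v : ℤ, a = u + v * η) (hη : η ∈ I) {t n : ℤ} (e : η ^ 2 = t * η - n)
    (ht : (t : O) ∉ I) {f : ℕ} {π : O} (p0 : π ≠ 0) (hf : I ^ f = Ideal.span {π}) :
    ∃ π', π * π' = 2 ^ f ∧ IsCoprime π π' := by
  have h2 : (2 : O) ∈ I := by exact_mod_cast (h.1 2).2 dvd_rfl
  obtain ⟨π', e'⟩ := Ideal.mem_span_singleton.1 (hf ▸ Ideal.pow_mem_pow h2 f)
  obtain ⟨m, rfl⟩ := (h.1 n).1 (by
    rw [show (n : O) = (t - η) * η by linear_combination e]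
    exact I.mul_mem_left _ hη)
  obtain ⟨k, rfl⟩ : Odd t := Int.not_even_iff_odd.1 fun a => ht ((h.1 t).2 a.two_dvd)
  push_cast at e
  have k1 : I * Ideal.span {2 * k + 1 - η} ≤ Ideal.span {2} := Ideal.mul_le.2 fun a ha b hb => by
    obtain ⟨x, rfl⟩ := Ideal.mem_span_singleton'.1 hb
    obtain ⟨u, v, rfl⟩ := B a
    obtain ⟨w, rfl⟩ := (h.1 u).1 ((I.add_mem_iff_left (I.mul_mem_left _ hη)).1 ha)
    exact Ideal.mem_span_singleton'.2 ⟨x * (w * (2 * k + 1 - η) + v * m), by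
      push_cast; linear_combination x * v * e⟩
  have k2 : IsCoprime I (Ideal.span {2 * k + 1 - η}) := Ideal.isCoprime_iff_exists.2
    ⟨η - k * 2, I.sub_mem hη (I.mul_mem_left _ h2), _, Ideal.mem_span_singleton_self _, by ring⟩
  have k3 := k2.pow (m := f) (n := f)
  have k4 := Ideal.pow_right_mono k1 f
  rw [mul_pow] at k4
  rw [hf, Ideal.span_singleton_pow] at k3 k4
  rw [Ideal.span_singleton_mul_span_singleton, Ideal.span_singleton_pow,
    Ideal.span_singleton_le_span_singleton, e', mul_dvd_mul_iff_left p0] at k4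
  exact ⟨π', e'.symm, ((Ideal.isCoprime_span_singleton_iff _ _).1 k3).of_isCoprime_of_dvd_right k4⟩

end Ui

open Ui

/-- **UNI** -/
theorem uni (hI : IQ) (hH : HG1) (hC : CJ0) (h1 : P004K.RC1) (h2 : P004K.RC2) (hN : P004K.INT)
    (hJ : JH) : UNI := by
  intro K _ _ j c q co P φ hP hd hφ
  have hc := co.pos
  obtain ⟨nm, hn⟩ := cn q hP hd hφ
  obtain ⟨ω, B⟩ := Hg.bs hI q j
  obtain ⟨η, hη, B⟩ := B.ex hn
  obtain ⟨t, n, e⟩ := B.sq
  obtain ⟨cj, Q⟩ := Rc.ex_qd B.inj B.bas B.im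
  have m2 : ((2 : ℤ) : 𝓞 K) ∈ below j P := (hn.1 2).2 dvd_rfl
  have mi : ∀ i : ℕ, ((2 ^ i : ℤ) : 𝓞 K) ∈ below j P ^ i := fun i => by
    rw [Int.cast_pow]
    exact Ideal.pow_mem_pow m2 i
  have c2 : IsCoprime (2 : ℤ) c := Nat.isCoprime_iff_coprime.2 (Nat.coprime_two_left.2 co)
  have cp : ∀ i : ℕ, Cop c (below j P ^ i) := fun i => by
    obtain ⟨u, v, k⟩ := c2.pow_left (m := i)
    refine Rc.cop_of (u := u * (2 ^ i : ℤ)) (b := v) (fun a => ?_) (Ideal.mul_mem_left _ _ (mi i))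
      (by rw [mul_comm _ (v : 𝓞 K)]; exact_mod_cast congrArg (Int.cast : ℤ → 𝓞 K) k)
    have := mi i
    rw [a, Ideal.mem_bot, Int.cast_eq_zero] at this
    exact pow_ne_zero i two_ne_zero this
  have hg : φ ∈ GK j := hd (phi_mem hP.1 hP.2.1 hφ)
  obtain ⟨r1, r2, -⟩ := h1 K j q c hc
  obtain ⟨-, -, -, -, r5, -, r7⟩ := h2 K j q c hc
  have ar : ∀ i : ℕ, Ar j c (below j P ^ i) (φ ^ i) := fun i =>
    r7 P hP.2.1 (fun a => by
      have := hP.2.2
      rw [a, Ideal.mem_bot] at this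
      exact two_ne_zero (Nat.cast_eq_zero.1 this)) (fun a => co.not_two_dvd_nat
        (Int.natCast_dvd_natCast.1 (H20.dvd_of_mem hP.1 hP.2.1 hP.2.2 (by exact_mod_cast a))))
      _ (pow_mem hg i) i (by rw [nm]; exact phi_pow hP.1 hP.2.1 hφ i)
  obtain ⟨⟨τ, hτ⟩, -, g3, g4, -⟩ := hH K j q 2 c (below j P) two_pos hc
    (Nat.coprime_two_right.2 co) hn
  obtain ⟨v0, v1, v2, v3⟩ := vel τ
  have j1 : jL (lat τ) = io (jc j c) := (Hg.At.j hτ).symm.trans r1.symm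
  have j2 : jL (lat (ofComplex (2 * τ))) = io (φ (jc j c)) := by
    have := (ar 1).2
    rw [pow_one, pow_one] at this
    rw [this, (s2_at hτ).2]
  have i1 : IsIntegral ℤ (jL (lat τ)) := let ⟨l, a, b⟩ := g3 τ hτ; hN τ l a b
  obtain ⟨s, hs⟩ := ex_io ((int_of i1 v1).isAlgebraic.extendScalars (algebraMap ℤ ℚ).injective_int)
  have e1 : jc j c * s ^ 2 = (s + 256) ^ 3 := P004K.io_inj (by
    simp only [map_mul, map_pow, map_add, map_ofNat, hs, ← j1, v1])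
  have e2 : φ (jc j c) * s = (s + 16) ^ 3 := P004K.io_inj (by
    simp only [map_mul, map_pow, map_add, map_ofNat, hs, ← j2, v2])
  have s0 : s ≠ 0 := fun a => v0 (by rw [← hs, a, map_zero])
  have i2 : IsIntegral ℤ (jc j c) :=
    (isIntegral_algHom_iff (io.restrictScalars ℤ) P004K.io_inj).1 (j1 ▸ i1)
  have i3 : IsIntegral ℤ (4096 / s) := int_of (i2.map ((φ : Qb →ₐ[ℚ] Qb).restrictScalars ℤ)) (by
    change φ (jc j c) * _ = _
    field_simp
    linear_combination 4096 ^ 2 * e2)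
  obtain ⟨S, rfl⟩ : ∃ S : 𝓞 Qb, (S : Qb) = s := ⟨⟨s, int_of i2 e1⟩, rfl⟩
  obtain ⟨T, hT⟩ : ∃ T : 𝓞 Qb, S * T = 4096 := ⟨⟨_, i3⟩, RingOfIntegers.ext (by
    change (S : Qb) * (4096 / S) = 4096
    field_simp)⟩
  have cv : ∀ g σ τ', Ex σ g → Cj0 σ 2 τ τ' → io (g S) = s2 τ' := fun g σ τ' a b => by
    rw [v3 σ τ' b, ← hs, a]
  have lt : ∀ i : ℕ, IsLat (st (JJ j) (below j P ^ i) (Oc (JJ j) c)) := fun i =>
    Rc.lat_st (B.lat hc) (pow_ne_zero i two_ne_zero) (mi i)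
  have tel : ∀ f : ℕ, JJ (RingHom.id Qb) (∏ i ∈ Finset.range f, φ ^ i • S) *
      DL (st (JJ j) (below j P ^ f) (Oc (JJ j) c)) = 4096 ^ f * DL (Oc (JJ j) c) := fun f => by
    induction f with
    | zero => simp [Rc.st_top]
    | succ f ih =>
      obtain ⟨σ, a⟩ := ex_ex (φ ^ f)
      obtain ⟨τ', b⟩ := (hC σ 2 two_pos).1 τ
      obtain ⟨ψ, p⟩ := Hg.tp_of_j hJ (σ := σ) (B.lat hc) (lt f)
        (by rw [Hg.ar_j h1 q hc a, (ar f).2])
      have k := (s2_at ((Hg.st_cj two_pos hτ p (a.JJ (pow_mem hg f))).2 b)).1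
      rw [Hg.st_mul Hg.kl_Oc m2 (mi f) c2 c2.pow_left, ← pow_succ', ← cv _ _ _ a b] at k
      rw [Finset.prod_range_succ, map_mul]
      change _ * io ((φ ^ f) S) * _ = _
      rw [mul_assoc, k, mul_left_comm, ih]
      ring
  have := H916.isGalois_Qb
  have := (Hc j c).quotient_finite_of_isOpen r2
  obtain ⟨f, f0, -, hf⟩ := Subgroup.exists_pow_mem_of_index_ne_zero
    (Hc j c).index_ne_zero_of_finite φ
  obtain ⟨k, a, hπ⟩ := (r5 _ _ (cp f) (ar f)).1 hf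
  have rc : Rc.Rc c (k + c * a) := ⟨k, a, rfl⟩
  generalize (k + c * a : 𝓞 K) = π at hπ rc
  have p0 : π ≠ 0 := fun a => (cp f).1 (by rw [hπ, a, Ideal.span_singleton_eq_bot])
  obtain ⟨π', pp, cop⟩ := compl hn B.bas hη e (not_mem q hP.2.1 hd B.bas hη e) p0 hπ
  have hh := Q.st_span (Q.kl_Oc hc) rc (hπ ▸ cp f)
  set F := RingOfIntegers.mapRingHom j with hF
  have F0 : ∀ x, x ≠ 0 → F x ≠ 0 := fun x a b => Q.J_ne a (by
    change io (F x : Qb) = 0
    rw [b]; simp)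
  have pq : F π ^ 12 * F π' ^ 12 = 4096 ^ f := by
    rw [← mul_pow, ← map_mul, pp, map_pow, map_ofNat, ← pow_mul, mul_comm, pow_mul]
    norm_num
  have d1 : ∏ i ∈ Finset.range f, φ ^ i • S = F π' ^ 12 := by
    refine mul_left_cancel₀ (pow_ne_zero 12 (F0 π p0)) (Eq.trans ?_ pq.symm)
    have inj : Function.Injective (JJ (RingHom.id Qb)) := fun _ _ a =>
      RingOfIntegers.ext (P004K.io_inj a)
    refine inj ?_
    have k := tel f
    have := hh.1
    rw [hπ, Ve.DL_hom hh, ← mul_assoc, mul_left_inj' (Ve.DL_ne (hπ ▸ lt f))] at k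
    simp only [map_mul, map_pow, map_ofNat, k]
    change JJ j π ^ 12 * _ = _
    field_simp
  have sm : ∀ g : GQ, g • (4096 : 𝓞 Qb) = 4096 := fun g =>
    map_ofNat (MulSemiringAction.toRingHom GQ (𝓞 Qb) g) 4096
  have d2 : ∏ i ∈ Finset.range f, φ ^ i • T = F π ^ 12 := by
    refine mul_right_cancel₀ (pow_ne_zero 12 (F0 π' fun a => ?_)) (Eq.trans ?_ pq.symm)
    · rw [a, mul_zero] at pp
      exact pow_ne_zero f two_ne_zero pp.symm
    · rw [← d1, ← Finset.prod_mul_distrib]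
      simp only [← smul_mul', mul_comm T, hT, sm, Finset.prod_const, Finset.card_range]
  have dv : ∀ g ∈ GK j, ∀ (x : 𝓞 Qb) (y : 𝓞 K), ∏ i ∈ Finset.range f, φ ^ i • x = F y ^ 12 →
      g • x ∣ F y ^ 12 := fun g hg x y e => by
    have k := Finset.dvd_prod_of_mem (fun i => φ ^ i • x) (Finset.mem_range.2 f0)
    rw [e, pow_zero, one_smul] at k
    have := map_dvd (MulSemiringAction.toRingHom GQ (𝓞 Qb) g) k
    rwa [map_pow, MulSemiringAction.toRingHom_apply, MulSemiringAction.toRingHom_apply, hF,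
      H20.smul_map, H20.mem_GK.1 hg] at this
  have cq : IsCoprime (F π' ^ 12) (F π ^ 12) := (cop.symm.map F).pow
  refine ⟨S, fun g hg => ?_, fun g hg => ⟨fun a => ?_, ?_⟩, e1, e2, fun g _ τ₁ τ₂ a1 a2 => ?_⟩
  · obtain ⟨σ, a⟩ := ex_ex g
    exact RingOfIntegers.ext (P004K.io_inj ((cv g σ τ a ((g4 τ σ g hg.1 hτ a).1 hg)).trans hs.symm))
  · obtain ⟨u, v, k⟩ := cq
    have b : π ∈ below j P := Ideal.pow_le_self f0.ne' (hπ ▸ Ideal.mem_span_singleton_self π)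
    exact hP.2.1.ne_top ((Ideal.eq_top_iff_one _).2 (k ▸ P.add_mem (P.mul_mem_left _
      (P.mem_of_dvd (dv g hg _ _ d1) a)) (P.mul_mem_left _ (P.pow_mem_of_mem b 12 (by norm_num)))))
  · refine assoc (a' := g • T) (b' := T) ?_ cq (dv g hg _ _ d1) (dv g hg _ _ d2)
      (by simpa using dv 1 (one_mem _) _ _ d1) (by simpa using dv 1 (one_mem _) _ _ d2)
    rw [← smul_mul', hT, sm]
  · obtain ⟨σ, a⟩ := ex_ex g
    obtain ⟨τ', b⟩ := (hC σ 2 two_pos).1 τ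
    obtain ⟨w0, -, w2, -⟩ := vel τ'
    have k1 : jL (lat τ₁) = jL (lat τ') := by rw [a1, b.choose_spec.1.jL, j1, a]
    have k2 : jL (lat τ₂) = jL (lat (ofComplex (2 * τ'))) := by
      refine mul_right_cancel₀ w0 ?_
      rw [w2, a2, AlgEquiv.mul_apply, ← a, ← j2, v3 σ τ' b, ← map_mul, v2, map_pow, map_add,
        map_ofNat]
    rw [cv g σ τ' a b, gl_eq hJ k1, gl_eq hJ k2, gl_two]

end Vale.Agent.P004R
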