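import Vale.Agent.P004R.Top
import Vale.Agent.P004R.Chb
import Vale.Agent.P004R.Cnf
import Vale.Agent.P004R.Dbl
import Vale.Agent.P004R.Dpt
import Vale.Agent.P004R.Ext
import Vale.Agent.P004R.Fld
import Vale.Agent.P004R.Ki
import Vale.Agent.P004R.Lfa
import Vale.Agent.P004R.Lfb
import Vale.Agent.P004R.Loc
import Vale.Agent.P004R.Mu
import Vale.Agent.P004R.Part
import Vale.Agent.P004R.Red
import Vale.Agent.P004R.Shf
import Vale.Agent.P004R.Shp
import Vale.Agent.P004R.Twr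
import Vale.Agent.P004R.Uni
import Vale.Agent.P004K.Rc.All
import Vale.Agent.P004K.Hg.At
import Vale.Agent.P004K.Tr
import Vale.Agent.P004F.Qx.Exp
import Vale.Agent.P004F.Qx.Dep
import Vale.Agent.P004F.Qx.Vex

/-!
# P004R: the anchor in the residually reducible case, without hypotheses
-/

namespace Vale.Agent.P004R

open P004K P004F

theorem anchor_red : ANCHOR fun a => ¬ P004T.Irr a :=
  have h := hg1 Rc.iq jh x_rc1 cj0
  anchor x_rc1 h cj0 (Qx.qexp Qx.vex h (Qx.dep_row h x_rc2)) (fld x_rc1 x_rc2)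
    (uni Rc.iq h cj0 x_rc1 x_rc2 int_row jh) (cnf (lfa x_rc2) (lfb x_rc1 x_rc2 Rc.iq) x_rc1)
    (ins2 loc2) (dpt x_rc1) (shp x_rc2) shf (lex x_rc1 x_rc2 (mu x_rc1 x_rc2) Pr.bnd) Db.dbl
    (qf Qx.mpc Qx.vex h x_rc1 x_rc2 tr0)
    (twr x_rc1 x_rc2 (ext' x_rc1 x_rc2 x_rc3) ki chb red) part

end Vale.Agent.P004R
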