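import Vale.Agent.P004R.InsA
import Vale.Agent.P004R.Reg
import Vale.Agent.P004R.St1

/-!
# P004R, row INS: from ideals to abelian groups (helper25)
-/

set_option linter.all false

noncomputable section

namespace Vale.Agent.P004R

open NumberField Algebra.GrothendieckGroup Function Module
open NumberField.Units (torsion)

namespace In

theorem sq_eq {A B : Type} [CommGroup A] [CommGroup B] (e : A ≃* B) :
    (sq A).index = (sq B).index := by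
  rw [← (sq B).index_comap_of_surjective (f := (e : A →* B)) e.surjective]
  congr 1
  refine le_antisymm (fun _ ⟨x, h⟩ => ⟨e x, by rw [← h]; simp⟩) fun a ⟨y, h⟩ =>
    ⟨e.symm y, e.injective ?_⟩
  simpa using h

theorem sq_mul (B : Type) [CommGroup B] [Free ℤ (Additive B)] [Module.Finite ℤ (Additive B)] :
    (sq B).index = 2 ^ finrank ℤ (Additive B) := sq_add (Additive B)

theorem card_gen {X Z : Type} [CommGroup X] [Finite Z] (K : Subgroup X) (f : K → Z) (y : K → X)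
    (h : ∀ a b : K, f a = f b → ∃ s, s ^ 2 = a * y a ^ 2 * (b * y b ^ 2)) :
    (sq X).relIndex K ≤ Nat.card Z := by
  refine Nat.card_le_card_of_injective (fun c : K ⧸ (sq X).subgroupOf K => f c.out) fun c c' n => ?_
  obtain ⟨s, hs⟩ := h _ _ n
  rw [← c.out_eq', ← c'.out_eq', QuotientGroup.eq]
  refine ⟨s / (c.out * (y c.out * y c'.out)), ?_⟩
  rw [powMonoidHom_apply, div_pow, hs, div_eq_iff_eq_mul, mul_pow, mul_pow,
    pow_two (c.out : X), Subgroup.coe_subtype, Subgroup.coe_mul, Subgroup.coe_inv]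
  rw [mul_comm _⁻¹, mul_assoc _ _⁻¹, mul_assoc _ (c.out : X), inv_mul_cancel_left]
  ac_rfl

theorem cop_of {R : Type} [CommRing R] {A B : Ideal R} {l l' : ℕ} (h : l.Coprime l')
    (a : (l : R) ∈ A) (b : (l' : R) ∈ B) : IsCoprime A B :=
  have ⟨x, y, e⟩ := h.cast (R := R)
  Ideal.isCoprime_iff_exists.2 ⟨_, A.mul_mem_left x a, _, B.mul_mem_left y b, e⟩

theorem arith {n r b o g h i i' j j' : ℕ} (ho : Odd o) (h0 : h ≠ 0) (j0 : j ≠ 0) (j1 : j' ≠ 0)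
    (a : g * h ∣ 2 ^ b * o * (i * i')) (hi : i ∣ j) (hi' : i' ∣ j') (k : 2 ^ n ∣ 2 ^ r * g) :
    n + padicValNat 2 h ≤ b + r + padicValNat 2 (j * j') := by
  have : Fact (Nat.Prime 2) := ⟨Nat.prime_two⟩
  have o0 : o ≠ 0 := ho.pos.ne'
  have e : 2 ^ (n + padicValNat 2 h) ∣ 2 ^ (b + r) * (o * (j * j')) :=
    calc _ ∣ 2 ^ r * (g * h) := by
          rw [pow_add, ← mul_assoc]; exact mul_dvd_mul k pow_padicValNat_dvd
      _ ∣ 2 ^ r * (2 ^ b * o * (j * j')) :=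
          mul_dvd_mul_left _ (a.trans (mul_dvd_mul_left _ (mul_dvd_mul hi hi')))
      _ = _ := by ring
  rwa [padicValNat_dvd_iff_le (by positivity), padicValNat.mul (by positivity) (by positivity),
    padicValNat.prime_pow, padicValNat.mul o0 (by positivity),
    padicValNat.eq_zero_of_not_dvd ho.not_two_dvd_nat, zero_add] at e

variable {F H : Type} [Field F] [NumberField F] [Field H] [NumberField H] [Algebra F H]
  {σ : H ≃ₐ[ℚ] H} {M : ℕ} {𝔪 : Ideal (𝓞 H)} {𝔞 : Ideal (𝓞 F)}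

/-- the action on the integers -/
abbrev ph (τ : H ≃ₐ[ℚ] H) : 𝓞 H →+* 𝓞 H := MulSemiringAction.toRingHom _ (𝓞 H) τ

variable (F H) in
/-- the inclusion -/
abbrev al : 𝓞 F →+* 𝓞 H := algebraMap _ _

theorem ph_inj (τ : H ≃ₐ[ℚ] H) : Injective (ph τ) := MulAction.injective τ

theorem al_inj : Injective (al F H) := FaithfulSMul.algebraMap_injective _ _

theorem sq_root (h1 : 𝔪 ≠ ⊤) {a b : TT 𝔪} (h : IsSquare (((a : 𝓞 H) : H) * (b : 𝓞 H))) :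
    ∃ s : TT 𝔪, s ^ 2 = a * b := by
  obtain ⟨s, h⟩ := h
  obtain ⟨s, rfl⟩ : ∃ t : 𝓞 H, (t : H) = s := ⟨⟨s, IsIntegral.of_pow two_pos (by
    rw [pow_two, ← h]; exact (a.1.isIntegral_coe).mul b.1.isIntegral_coe)⟩, rfl⟩
  have e : s * s = a * b := RingOfIntegers.ext (by simpa using h.symm)
  have k : IsCoprime (sp (a * b : TT 𝔪).1) 𝔪 := (a * b).2.2
  rw [Submonoid.coe_mul, ← e, map_mul] at k
  exact ⟨⟨s, mem_JJ h1 k.of_mul_left_left⟩, Subtype.ext ((pow_two s).trans e)⟩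

theorem card_le (h0 : 𝔪 ≠ 0) (h1 : 𝔪 ≠ ⊤) {κ : Type} [Fintype κ] (q : κ → JJ 𝔪) {J : Ideal (𝓞 H)}
    (hq : ∀ j, (q j).1 ∣ J) {Z : Type} [Finite Z] {k : 𝓞 H → Z}
    (hk : ∀ a b, Ad 𝔪 J a → Ad 𝔪 J b → k a = k b → IsSquare ((a : H) * b)) :
    (sq _).relIndex (((th q).range ⊔ sq _).comap (dd 𝔪) ⊓ (sq _).comap (rr 𝔪)) ≤ Nat.card Z := by
  set K := ((th q).range ⊔ sq _).comap (dd 𝔪) ⊓ (sq _).comap (rr 𝔪)
  have : ∀ x : K, ∃ (a : TT 𝔪) (y : Gr (TT 𝔪)), of a = x * y ^ 2 ∧ Ad 𝔪 J a := fun x => by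
    obtain ⟨a, y, e, h⟩ := sel q h0 h1 hq x.2.1
    obtain ⟨g, hg⟩ := x.2.2
    obtain ⟨b, hb⟩ := Ideal.Quotient.mk_surjective ((g * rr 𝔪 y : (𝓞 H ⧸ 𝔪)ˣ) : 𝓞 H ⧸ 𝔪)
    refine ⟨a, y, e, ⟨b, Ideal.isCoprime_iff_sup_eq.1 (unit_iff.1 (hb ▸ Units.isUnit _)),
      Ideal.Quotient.eq.1 ?_⟩, h⟩
    rw [← rr_of, e, map_mul, map_pow, ← hg, map_pow, hb, powMonoidHom_apply, ← mul_pow,
      Units.val_pow_eq_pow_val]
  choose a y e h using this
  refine card_gen K (fun x => k (a x)) y fun x x' n => ?_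
  obtain ⟨s, hs⟩ := sq_root h1 (hk _ _ (h _) (h _) n)
  exact ⟨of s, by rw [← map_pow, hs, map_mul, e, e]⟩

theorem it_J (h : 𝔪 ≤ 𝔪.comap (ph σ)) (A : JJ 𝔪) (n : ℕ) : ∃ B : JJ 𝔪,
    (gm (fJ _ (ph_inj σ) h))^[n] (of A) = of B ∧ B.1 = A.1.map (ph (σ ^ n)) := by
  induction n with
  | zero => exact ⟨A, rfl, by
      rw [pow_zero, show ph (1 : H ≃ₐ[ℚ] H) = RingHom.id _ from RingHom.ext (one_smul _),
        Ideal.map_id]⟩
  | succ n k =>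
    obtain ⟨B, e, k⟩ := k
    refine ⟨_, by rw [iterate_succ_apply', e, gm_of], ?_⟩
    show B.1.map (ph σ) = _
    rw [k, Ideal.map_map, pow_succ']
    exact congrArg (Ideal.map · _) (RingHom.ext fun x => (mul_smul σ _ x).symm)

theorem it_G (h : 𝔪 ≤ 𝔪.comap (ph σ)) {g : (𝓞 H ⧸ 𝔪)ˣ} {x : 𝓞 H}
    (e : Ideal.Quotient.mk 𝔪 x = g) (n : ℕ) :
    (((fG _ h)^[n] g : (𝓞 H ⧸ 𝔪)ˣ) : 𝓞 H ⧸ 𝔪) = Ideal.Quotient.mk 𝔪 (σ ^ n • x) := by
  induction n with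
  | zero => rw [pow_zero, one_smul, e]; rfl
  | succ n k =>
    rw [iterate_succ_apply', fG, Units.coe_map, ← fG, k, pow_succ', mul_smul]
    rfl

theorem memI (e : up H 𝔞 = 𝔪) (h : 𝔞 ≤ 𝔪.comap (al F H)) (h1 : 𝔞 ≠ ⊤) {A : JJ 𝔪}
    (k : A.1 ≤ up H (A.1.comap (al F H))) : of A ∈ (gm (fJ _ al_inj h)).range := by
  have k := le_antisymm Ideal.map_comap_le k
  exact ⟨of ⟨A.1.comap (al F H), mem_JJ h1 (Ideal.isCoprime_iff_sup_eq.2 ((Ideal.map_eq_top_iff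
    (al F H) al_inj Algebra.IsIntegral.isIntegral).1 (by
      rw [Ideal.map_sup, k]
      exact Ideal.isCoprime_iff_sup_eq.1 (e ▸ A.2.2))))⟩,
    (gm_of _ _).trans (congrArg _ (Subtype.ext k))⟩

theorem ip_mem {l : ℕ} {w w' : Ideal (𝓞 F)} (h : Ip σ M l w w') :
    (l : 𝓞 H) ∈ up H w ∧ (l : 𝓞 H) ∈ up H w' := by
  have m : (l : 𝓞 F) ∈ w * w' := by rw [h.mul]; exact Ideal.mem_span_singleton_self _
  rw [← map_natCast (al F H) l]
  exact ⟨Ideal.mem_map_of_mem _ (Ideal.mul_le_left m), Ideal.mem_map_of_mem _ (Ideal.mul_le_right m)⟩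

variable (c : Cp F σ M)
include c

theorem fix {x : 𝓞 H} (h : σ ^ M • x = x) : ∃ a : 𝓞 F, al F H a = x :=
  Rg.fix_int c (congrArg (algebraMap (𝓞 H) H) h)

theorem fix' (a : 𝓞 F) : σ ^ M • al F H a = al F H a :=
  RingOfIntegers.ext ((c.fix _).2 ⟨a, rfl⟩)

theorem fix_s (a : 𝓞 F) : σ ^ M • σ • al F H a = σ • al F H a := by
  rw [← mul_smul, ← pow_succ, pow_succ', mul_smul, fix' c]

theorem tt (x : 𝓞 H) : σ ^ M • σ ^ M • x = x := by
  rw [← mul_smul, ← pow_add, ← two_mul, c.ord, one_smul]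

theorem fix_n (x : 𝓞 H) : σ ^ M • (x * σ ^ M • x) = x * σ ^ M • x := by
  rw [smul_mul', tt c, mul_comm]

theorem fixm {N : Ideal (𝓞 H)} {x : 𝓞 H} (m : x ∈ N) (h : σ ^ M • x = x) :
    x ∈ up H (N.comap (al F H)) := by
  obtain ⟨a, rfl⟩ := fix c h
  exact Ideal.mem_map_of_mem _ m

theorem nrm (A : Ideal (𝓞 H)) :
    A * A.map (ph (σ ^ M)) ≤ up H ((A * A.map (ph (σ ^ M))).comap (al F H)) := by
  refine Ideal.mul_le.2 fun x hx z hz => ?_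
  obtain ⟨y, hy, rfl⟩ := (Ideal.mem_map_iff_of_surjective _ (MulAction.surjective (σ ^ M))).1 hz
  have m : ∀ a ∈ A, ∀ b ∈ A, a * σ ^ M • b ∈ A * A.map (ph (σ ^ M)) := fun a ha b hb =>
    Ideal.mul_mem_mul ha (Ideal.mem_map_of_mem (ph (σ ^ M)) hb)
  refine int_mem (fixm c (add_mem (m x hx y hy) (m y hy x hx)) (by
    rw [smul_add, smul_mul', smul_mul', tt c, tt c]; ring)) (fixm c (m x hx x hx) (fix_n c x))
    (fixm c (m y hy y hy) (fix_n c y)) ?_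
  show x * σ ^ M • y * (x * σ ^ M • y) = x * σ ^ M • y * _ - _
  ring

theorem sq_units : 2 ^ (2 * M) ≤ (sq (𝓞 H)ˣ).index ∧ (sq (𝓞 H)ˣ).index ≠ 0 := by
  have := c.cx
  have : IsTotallyComplex H := isTotallyComplex_of_algebra F H
  have : Group.FG (𝓞 H)ˣ := Group.fg_iff_monoid_fg.2 inferInstance
  have n := (Subgroup.finiteIndex_range_powMonoidHom_of_fg (𝓞 H)ˣ two_ne_zero).index_ne_zero
  have e : (torsion H ⊔ sq (𝓞 H)ˣ).index = 2 ^ (2 * M - 1) := by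
    rw [← QuotientGroup.comap_map_mk', Subgroup.index_comap_of_surjective _
      (QuotientGroup.mk'_surjective _), ← Rg.card_pl H (n := 2 * M) (by rw [c.deg]; ring)]
    refine Eq.trans ?_ ((sq_mul ((𝓞 H)ˣ ⧸ torsion H)).trans
      (congrArg _ (Units.finrank_modTorsion H)))
    congr 1
    refine le_antisymm (fun _ ⟨_, ⟨x, a⟩, b⟩ => ⟨x, by rw [← b, ← a]; rfl⟩) fun _ ⟨x, a⟩ => ?_
    obtain ⟨x, rfl⟩ := QuotientGroup.mk_surjective x
    exact ⟨_, ⟨x, rfl⟩, a⟩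
  have k := Subgroup.relIndex_mul_index (le_sup_right : sq (𝓞 H)ˣ ≤ torsion H ⊔ _)
  have m : (sq (𝓞 H)ˣ).relIndex (torsion H ⊔ sq (𝓞 H)ˣ) ≠ 1 := fun m => by
    obtain ⟨u, hu⟩ : -1 ∈ sq (𝓞 H)ˣ := Subgroup.relIndex_eq_one.1 m (Subgroup.mem_sup_left
      (isOfFinOrder_iff_pow_eq_one.2 ⟨2, two_pos, by simp⟩))
    rw [powMonoidHom_apply] at hu
    have : (1 : (𝓞 H)ˣ) = -1 := by
      rcases c.tor u (isOfFinOrder_iff_pow_eq_one.2 ⟨2 * 2, by norm_num, by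
        rw [pow_mul, hu]; simp⟩) with rfl | rfl <;> simpa using hu
    have := congrArg (fun u : (𝓞 H)ˣ => ((u : 𝓞 H) : H)) this
    norm_num at this
  refine ⟨?_, n⟩
  have := Rg.M_pos c
  rw [← k, e, show 2 * M = 2 * M - 1 + 1 by omega, pow_succ', Nat.add_sub_cancel]
  refine Nat.mul_le_mul_right _ ?_
  have : (sq (𝓞 H)ˣ).relIndex (torsion H ⊔ sq (𝓞 H)ˣ) ≠ 0 := fun z => n (by rw [← k, z, zero_mul])
  omega

theorem main (e : up H 𝔞 = 𝔪) (h0 : 𝔪 ≠ 0) (h1 : 𝔪 ≠ ⊤) (hs : 𝔪 ≤ 𝔪.comap (ph σ))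
    {ι : Type} [Fintype ι] (q : ι → JJ 𝔪) {J : Ideal (𝓞 H)} (q1 : ∀ j, Prime (q j).1)
    (q2 : Injective q) (q3 : ∀ j, (q j).1 ∣ J)
    (q4 : ∀ j, ∃ a : Ideal (𝓞 F), (q j).1 = up H a) {n r g : ℕ}
    {u : (𝓞 H)ˣ} (l1 : 2 ^ g * (sq (𝓞 H ⧸ 𝔪)ˣ).index ≤ 2 ^ (2 * M + Fintype.card ι))
    (l2 : 2 ^ n ∣ 2 ^ r * (Gp F 𝔪 ⊔ (CU F σ u).map
      (Units.map (Ideal.Quotient.mk 𝔪 : 𝓞 H →* 𝓞 H ⧸ 𝔪))).index) (iu : (CU F σ u).index ≠ 0)
    {Z : Type} [Finite Z] {κ : 𝓞 H → Z}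
    (hκ : ∀ a b, Ad 𝔪 J a → Ad 𝔪 J b → κ a = κ b → IsSquare ((a : H) * b))
    (hZ : Nat.card Z < 2 ^ M) : ∃ b : ℕ, 2 ^ (b + g) ≤ Nat.card Z ∧
      n + padicValNat 2 (classNumber H) ≤
        b + r + padicValNat 2 ((CU F σ u).index * classNumber F) := by
  obtain ⟨m, hm⟩ := c.pow
  have ha : 𝔞 ≤ 𝔪.comap (al F H) := Ideal.map_le_iff_le_comap.1 e.le
  have a0 : 𝔞 ≠ 0 := fun z => h0 (by rw [← e, z]; exact Ideal.map_bot)
  have a1 : 𝔞 ≠ ⊤ := fun z => h1 (by rw [← e, z]; exact Ideal.map_top _)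
  have := Ideal.finiteQuotientOfFreeOfNeBot 𝔪 h0
  have gp : ∀ (g : (𝓞 H ⧸ 𝔪)ˣ) x, σ ^ M • x = x → (g : 𝓞 H ⧸ 𝔪) = Ideal.Quotient.mk 𝔪 x →
      g ∈ Gp F 𝔪 := fun g x h k => by
    obtain ⟨a, rfl⟩ := fix c h
    exact Subgroup.subset_closure ⟨a, k⟩
  have sx : (sq (dd 𝔪).ker).index = (sq (𝓞 H)ˣ).index :=
    (sq_eq ((MonoidHom.ofInjective ee_inj).trans (MulEquiv.subgroupCongr ker_dd.symm))).symm
  have cz := card_le h0 h1 q q3 hκ
  have A := abs2 (dd 𝔪) (rr 𝔪) (gm (fT _ (ph_inj σ) hs)) (gm (fJ _ (ph_inj σ) hs))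
    (fG _ hs) (gm (fT _ al_inj ha)).range ((CU F σ u).map (ee 𝔪)) (gm (fJ _ al_inj ha)).range
    (th q).range (Gp F 𝔪) (m + 1) (dd_gm _ _ _) (rr_gm _ _ _) ?_ ?_ ?_ ?_ ?_ ?_
    ((Subgroup.map_le_range _ _).trans ker_dd.ge) ?_ tf
    (by rw [idx_dd h0 h1]; exact Nat.card_pos.ne')
    _ _ (2 ^ g) sx (idx_th q q1 q2) (sq_units c).2 (by positivity) (by positivity) (l1.trans ?_) _ rfl
  · obtain ⟨b, o, b1, o1, A⟩ := A.2 (hm ▸ cz.trans_lt hZ)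
    rw [idx_dd h0 h1, Subgroup.map_map, show (rr 𝔪).comp (ee 𝔪) = _ from MonoidHom.ext rr_ee,
      Nat.card_eq_fintype_card] at A
    refine ⟨b, (pow_add 2 b g).trans_le (b1.trans cz), arith o1 (classNumber_ne_zero H) iu (classNumber_ne_zero F) A
      ((Subgroup.relIndex_dvd_of_le_left _ le_sup_right).trans ?_)
      ((idx_rel _ _ _ a0 a1).trans Nat.card_eq_fintype_card.dvd) l2⟩
    rw [ker_dd, MonoidHom.range_eq_map, Subgroup.relIndex_map_map_of_injective _ _ ee_inj,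
      Subgroup.relIndex_top_right]
  · rintro _ ⟨x, rfl⟩
    refine gr_mem (f := (gm _).comp (gm _)) (fun A => ?_) x
    rw [MonoidHom.comp_apply, gm_of, gm_of]
    refine memI e ha a1 (Ideal.map_le_iff_le_comap.2 (Ideal.map_le_iff_le_comap.2 fun x m => ?_))
    exact fixm c (Ideal.mem_map_of_mem _ (Ideal.mem_map_of_mem _ m)) (fix_s c x)
  · refine (Subgroup.closure_le ((Gp F 𝔪).comap (fG _ hs))).2 fun g ⟨a, h⟩ => ?_
    exact gp _ _ (fix_s c a) (by simpa using it_G hs h.symm 1)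
  · have k : ∀ A : JJ 𝔪, of A * (gm (fJ _ (ph_inj σ) hs))^[M] (of A) ∈
        (gm (fJ _ al_inj ha)).range := fun A => by
      obtain ⟨B, e1, e2⟩ := it_J hs A M
      rw [e1, ← map_mul]
      exact memI e ha a1 (by rw [Submonoid.coe_mul, e2]; exact nrm c _)
    intro a
    obtain ⟨A, B, rfl⟩ := ex_div a
    rw [iterate_map_div, div_mul_div_comm, ← hm]
    exact div_mem (k A) (k B)
  · intro g
    obtain ⟨x, h⟩ := Ideal.Quotient.mk_surjective (g : 𝓞 H ⧸ 𝔪)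
    exact gp _ _ (fix_n c x) (by rw [Units.val_mul, it_G hs h, ← hm, map_mul, h])
  · rintro _ ⟨_, ⟨x, rfl⟩, rfl⟩
    exact ⟨_, (dd_gm _ _ _ x).symm⟩
  · rintro _ ⟨_, ⟨x, rfl⟩, rfl⟩
    obtain ⟨a, h⟩ := Ideal.Quotient.mk_surjective (rr 𝔞 x : 𝓞 F ⧸ 𝔞)
    exact gp _ _ (fix' c a) (by rw [rr_gm, fG, Units.coe_map, ← h]; rfl)
  · rintro _ ⟨n, rfl⟩
    refine prod_mem fun j _ => zpow_mem (memI e ha a1 ?_) _
    obtain ⟨a, h⟩ := q4 j
    rw [h]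
    exact Ideal.map_mono Ideal.le_comap_map
  · rw [pow_add]
    exact Nat.mul_le_mul_right _ (sq_units c).1

end In

open In in
theorem ins2 : LOC2 → BT2 := by
  intro loc F H _ _ _ _ _ σ M ι _ p v v' w w' P u r D iu Z _ κ hκ hZ
  obtain ⟨l1, l2⟩ := loc F H σ M v v' P.cp P.two
  have ne : ∀ {l : ℕ} {A : Ideal (𝓞 H)}, l.Prime → (l : 𝓞 H) ∈ A → A ≠ 0 := fun h a z =>
    (Nat.cast_ne_zero (R := 𝓞 H)).2 h.ne_zero (by rw [z] at a; exact a)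
  have h1 : up H v ^ 5 ≠ ⊤ := fun h => P.two.pw.ne_top
    (top_le_iff.1 (h.ge.trans (Ideal.pow_le_self (n := 5) (by norm_num))))
  have cp : ∀ {l : ℕ} {a a' : Ideal (𝓞 F)}, Ip σ M l a a' → IsCoprime (up H a') (up H a) :=
    fun h => Ideal.isCoprime_iff_sup_eq.2 (by rw [← Ideal.map_sup, sup_comm, h.cop, Ideal.map_top])
  let l : Option (ι ⊕ ι) → ℕ := fun j => j.elim 2 (Sum.elim p p)
  let a : Option (ι ⊕ ι) → Ideal (𝓞 F) := fun j => j.elim v' (Sum.elim w' w)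
  have I : ∀ j, (l j).Prime ∧ (l j : 𝓞 H) ∈ up H (a j) ∧ (up H (a j)).IsPrime := by
    rintro (_ | i | i)
    exacts [⟨P.two.pr, (ip_mem P.two).2, P.two.pw'⟩,
      ⟨(P.odd i).2.pr, (ip_mem (P.odd i).2).2, (P.odd i).2.pw'⟩,
      ⟨(P.odd i).2.pr, (ip_mem (P.odd i).2).1, (P.odd i).2.pw⟩]
  have co : ∀ j, IsCoprime (up H (a j)) (up H v) := by
    rintro (_ | i)
    · exact cp P.two
    · refine cop_of ((Nat.coprime_primes (I _).1 P.two.pr).2 ?_) (I _).2.1 (ip_mem P.two).1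
      rcases i with i | i <;> exact (P.odd i).1
  refine main P.cp (Ideal.map_pow _ v 5) (pow_ne_zero _ (ne P.two.pr (ip_mem P.two).1)) h1
    (Ideal.map_le_iff_le_comap.1 ((Ideal.map_pow _ _ 5).trans_le
      (Ideal.pow_right_mono (Ideal.map_le_iff_le_comap.2 P.two.st) _)))
    (fun j => ⟨up H (a j), mem_JJ h1 (co j).pow_right⟩)
    (fun j => Ideal.prime_of_isPrime (ne (I j).1 (I j).2.1) (I j).2.2) (fun j k z => ?_) ?_
    (fun j => ⟨_, rfl⟩) ?_ (l2 u r D) iu hκ hZ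
  · have n : ¬ IsCoprime (up H (a j)) (up H (a k)) := fun n => by
      rw [show up H (a j) = up H (a k) from congrArg Subtype.val z, isCoprime_self] at n
      exact (I k).2.2.ne_top (Ideal.isUnit_iff.1 n)
    have e : l j = l k := by_contra fun e =>
      n (cop_of ((Nat.coprime_primes (I j).1 (I k).1).2 e) (I j).2.1 (I k).2.1)
    rcases j with _ | j | j <;> rcases k with _ | k | k
    any_goals first | exact ((P.odd _).1 e).elim | exact ((P.odd _).1 e.symm).elim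
    · rfl
    all_goals obtain rfl := P.inj e
    exacts [rfl, (n (cp (P.odd j).2)).elim, (n (cp (P.odd j).2).symm).elim, rfl]
  · rintro (_ | j | j)
    · exact ((dvd_pow_self _ (by norm_num)).mul_right _).mul_right _
    · exact ((Finset.dvd_prod_of_mem (fun i => up H (w' i)) (Finset.mem_univ j)).mul_left
        _).mul_right _
    · exact (Finset.dvd_prod_of_mem (fun i => up H (w i)) (Finset.mem_univ j)).mul_left _
  · rw [Fintype.card_option, Fintype.card_sum]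
    exact (Nat.mul_le_mul_left _ l1).trans_eq (by ring)

end Vale.Agent.P004R
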