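import Vale.Agent.P004R.St0

/-!
# P004R, row INS: elements and ideals prime to a modulus (helper25)
-/

set_option linter.all false

noncomputable section

namespace Vale.Agent.P004R.In

open Algebra.GrothendieckGroup Function Module
open scoped nonZeroDivisors

abbrev Gr (M : Type) [CommMonoid M] : Type := Algebra.GrothendieckGroup M

section gr

variable {M N G : Type} [CommMonoid M] [CommMonoid N] [CommGroup G]

theorem lift_of (f : M →* G) (a : M) : lift f (of a) = f a := DFunLike.congr_fun (lift.left_inv f) a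

theorem ex_div (x : Gr M) : ∃ a b, x = of a / of b :=
  ⟨_, _, (DFunLike.congr_fun (lift.right_inv (MonoidHom.id (Gr M))) x).symm.trans (lift_apply _ x)⟩

theorem gr_ext {f g : Gr M →* G} (h : ∀ a, f (of a) = g (of a)) (x : Gr M) : f x = g x := by
  obtain ⟨a, b, rfl⟩ := ex_div x
  rw [map_div, map_div, h, h]

theorem gr_mem {K : Subgroup G} {f : Gr M →* G} (h : ∀ a, f (of a) ∈ K) (x : Gr M) : f x ∈ K := by
  obtain ⟨a, b, rfl⟩ := ex_div x
  exact map_div f _ _ ▸ div_mem (h a) (h b)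

/-- functoriality -/
def gm (f : M →* N) : Gr M →* Gr N := lift (of.comp f)

theorem gm_of (f : M →* N) (a : M) : gm f (of a) = of (f a) := lift_of _ a

theorem sq_add (A : Type) [AddCommGroup A] [Free ℤ A] [Module.Finite ℤ A] :
    (sq (Multiplicative A)).index = 2 ^ finrank ℤ A := AddSubgroup.index_range_nsmul A 2

end gr

variable {R R' : Type} [CommRing R] [IsDedekindDomain R] [CommRing R'] [IsDedekindDomain R']
  (𝔪 : Ideal R) {𝔫 : Ideal R'}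

/-- principal ideals -/
def sp : R →* Ideal R where
  toFun a := Ideal.span {a}
  map_one' := by simp
  map_mul' a b := (Ideal.span_singleton_mul_span_singleton a b).symm

/-- ideals prime to the modulus -/
def JJ : Submonoid (Ideal R) where
  carrier := {A | A ≠ 0 ∧ IsCoprime A 𝔪}
  mul_mem' a b := ⟨mul_ne_zero a.1 b.1, a.2.mul_left b.2⟩
  one_mem' := ⟨one_ne_zero, isCoprime_one_left⟩

/-- elements prime to the modulus -/
def TT : Submonoid R := (JJ 𝔪).comap sp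

variable {𝔪}

theorem mem_JJ (h : 𝔪 ≠ ⊤) {A : Ideal R} (k : IsCoprime A 𝔪) : A ∈ JJ 𝔪 :=
  ⟨fun e => h (Ideal.isUnit_iff.1 (isCoprime_zero_left.1 (e ▸ k))), k⟩

theorem TT_ne (a : TT 𝔪) : (a : R) ≠ 0 := fun e => a.2.1 (Ideal.span_singleton_eq_bot.2 e)

instance cJ : IsCancelMul (JJ 𝔪) where
  mul_left_cancel a _ _ h := Subtype.ext (mul_left_cancel₀ a.2.1 (congrArg Subtype.val h))
  mul_right_cancel a _ _ h := Subtype.ext (mul_right_cancel₀ a.2.1 (congrArg Subtype.val h))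

instance cT : IsCancelMul (TT 𝔪) where
  mul_left_cancel a _ _ h := Subtype.ext (mul_left_cancel₀ (TT_ne a) (congrArg Subtype.val h))
  mul_right_cancel a _ _ h := Subtype.ext (mul_right_cancel₀ (TT_ne a) (congrArg Subtype.val h))

theorem unit_iff {a : R} : IsUnit (Ideal.Quotient.mk 𝔪 a) ↔ IsCoprime (Ideal.span {a}) 𝔪 := by
  rw [Ideal.isCoprime_iff_exists, isUnit_iff_exists_inv']
  refine ⟨fun ⟨b, e⟩ => ?_, fun ⟨x, hx, y, hy, e⟩ => ?_⟩
  · obtain ⟨b, rfl⟩ := Ideal.Quotient.mk_surjective b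
    exact ⟨b * a, Ideal.mem_span_singleton'.2 ⟨b, rfl⟩, 1 - b * a,
      Ideal.Quotient.eq.1 e.symm, by ring⟩
  · obtain ⟨b, rfl⟩ := Ideal.mem_span_singleton'.1 hx
    exact ⟨Ideal.Quotient.mk 𝔪 b, Eq.symm (Ideal.Quotient.eq.2
      (show 1 - b * a ∈ 𝔪 by rwa [← e, add_sub_cancel_left]))⟩

variable (𝔪)

/-- the ideal of an element -/
def dd : Gr (TT 𝔪) →* Gr (JJ 𝔪) := gm (sp.submonoidComap (JJ 𝔪))

/-- the residue of an element -/
def rr : Gr (TT 𝔪) →* (R ⧸ 𝔪)ˣ := lift (IsUnit.liftRight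
  ((Ideal.Quotient.mk 𝔪 : R →* R ⧸ 𝔪).comp (TT 𝔪).subtype) fun a => unit_iff.2 a.2.2)

/-- the units -/
def ee : Rˣ →* Gr (TT 𝔪) := of.comp ((Units.coeHom R).codRestrict (TT 𝔪) fun u => by
  show Ideal.span {(u : R)} ∈ JJ 𝔪
  rw [Ideal.span_singleton_eq_top.2 u.isUnit, ← Ideal.one_eq_top]
  exact one_mem _)

/-- the class of an ideal -/
def cl : Gr (JJ 𝔪) →* ClassGroup R := lift (ClassGroup.mk0.comp
  (Submonoid.inclusion fun A (h : A ∈ JJ 𝔪) => mem_nonZeroDivisors_of_ne_zero h.1))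

variable {𝔪}

theorem dd_of (a : TT 𝔪) : dd 𝔪 (of a) = of ⟨Ideal.span {(a : R)}, a.2⟩ := gm_of _ a

theorem rr_of (a : TT 𝔪) : (rr 𝔪 (of a) : R ⧸ 𝔪) = Ideal.Quotient.mk 𝔪 a := by
  rw [rr, lift_of]
  exact IsUnit.coe_liftRight _ _ a

theorem rr_ee (u : Rˣ) : rr 𝔪 (ee 𝔪 u) = Units.map (Ideal.Quotient.mk 𝔪 : R →* R ⧸ 𝔪) u :=
  Units.ext (rr_of _)

theorem ee_inj : Injective (ee 𝔪) := fun _ _ h =>
  Units.ext (congrArg Subtype.val (of_injective h))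

theorem int_of {x : Gr (TT 𝔪)} {D : JJ 𝔪} (h : dd 𝔪 x = of D) :
    ∃ a : TT 𝔪, x = of a ∧ Ideal.span {(a : R)} = D := by
  obtain ⟨a, b, rfl⟩ := ex_div x
  rw [map_div, dd_of, dd_of, div_eq_iff_eq_mul, ← map_mul] at h
  have e : Ideal.span {(a : R)} = D * Ideal.span {(b : R)} := congrArg Subtype.val (of_injective h)
  obtain ⟨c, hc⟩ : (b : R) ∣ a := Ideal.span_singleton_le_span_singleton.1 (e ▸ Ideal.mul_le_right)
  rw [hc, ← Ideal.span_singleton_mul_span_singleton, mul_comm] at e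
  have e' := mul_right_cancel₀ b.2.1 e
  exact ⟨⟨c, show Ideal.span {c} ∈ JJ 𝔪 from e' ▸ D.2⟩, by
    rw [div_eq_iff_eq_mul', ← map_mul]; exact congrArg _ (Subtype.ext hc), e'⟩

theorem ker_dd : (dd 𝔪).ker = (ee 𝔪).range := by
  refine le_antisymm (fun x h => ?_) ?_
  · obtain ⟨a, rfl, e⟩ := int_of (D := 1) (h.trans (map_one _).symm)
    exact ⟨(Ideal.span_singleton_eq_top.1 (e.trans Ideal.one_eq_top)).unit, rfl⟩
  · rintro _ ⟨u, rfl⟩
    exact (dd_of _).trans ((congrArg _ (Subtype.ext ((Ideal.span_singleton_eq_top.2 u.isUnit).trans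
      Ideal.one_eq_top.symm))).trans (map_one _))

theorem ex_C (h0 : 𝔪 ≠ 0) (h1 : 𝔪 ≠ ⊤) {B : Ideal R} (hB : B ≠ 0) :
    ∃ (C : JJ 𝔪) (a : R), B * C = Ideal.span {a} := by
  obtain ⟨a, e⟩ := IsDedekindDomain.exists_sup_span_eq (I := B * 𝔪) (J := B) Ideal.mul_le_left
    (mul_ne_zero hB h0)
  obtain ⟨C, hC⟩ : B ∣ Ideal.span {a} := Ideal.dvd_iff_le.2 (le_sup_right.trans e.le)
  rw [hC, ← Ideal.mul_sup] at e
  exact ⟨⟨C, mem_JJ h1 (Ideal.isCoprime_iff_sup_eq.2 (by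
    rw [sup_comm, mul_left_cancel₀ hB (e.trans (mul_one B).symm), Ideal.one_eq_top]))⟩, a, hC.symm⟩

theorem ex_T (h0 : 𝔪 ≠ 0) (h1 : 𝔪 ≠ ⊤) (B : JJ 𝔪) :
    ∃ (C : JJ 𝔪) (a : TT 𝔪), dd 𝔪 (of a) = of B * of C := by
  obtain ⟨C, a, e⟩ := ex_C h0 h1 B.2.1
  exact ⟨C, ⟨a, show Ideal.span {a} ∈ JJ 𝔪 from e ▸ (B * C).2⟩, by
    rw [dd_of, ← map_mul]; exact congrArg _ (Subtype.ext e.symm)⟩

theorem cl_one {A : JJ 𝔪} : cl 𝔪 (of A) = 1 ↔ (A : Ideal R).IsPrincipal := by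
  rw [cl, lift_of]
  exact ClassGroup.mk0_eq_one_iff _

theorem idx_dd (h0 : 𝔪 ≠ 0) (h1 : 𝔪 ≠ ⊤) : (dd 𝔪).range.index = Nat.card (ClassGroup R) := by
  have k : ∀ x, cl 𝔪 (dd 𝔪 x) = 1 := gr_ext (f := (cl 𝔪).comp (dd 𝔪)) (g := 1) fun a => by
    rw [MonoidHom.comp_apply, dd_of]
    exact cl_one.2 ⟨_, rfl⟩
  have e : (dd 𝔪).range = (cl 𝔪).ker := by
    refine le_antisymm (fun _ ⟨x, e⟩ => e ▸ k x) fun x h => ?_
    obtain ⟨A, B, rfl⟩ := ex_div x
    obtain ⟨C, b, e⟩ := ex_T h0 h1 B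
    rw [← mul_div_mul_right_eq_div _ _ (of C), ← e, ← map_mul] at h ⊢
    rw [MonoidHom.mem_ker, map_div, k, div_one, cl_one] at h
    obtain ⟨a, h⟩ := h
    exact div_mem ⟨of ⟨a, show Ideal.span {a} ∈ JJ 𝔪 from
      (show (A * C).1 = Ideal.span {a} from h) ▸ (A * C).2⟩,
      (dd_of _).trans (congrArg _ (Subtype.ext h.symm))⟩ ⟨_, rfl⟩
  rw [e, Subgroup.index_ker, MonoidHom.range_eq_top.2 fun c => ?_, Subgroup.card_top]
  obtain ⟨B, hB⟩ := ClassGroup.mk0_surjective c⁻¹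
  obtain ⟨C, a, e⟩ := ex_C h0 h1 (nonZeroDivisors.ne_zero B.2)
  refine ⟨of C, ?_⟩
  rw [cl, lift_of, ← inv_inv c, ← hB]
  exact ClassGroup.mk0_eq_mk0_inv_iff.2 ⟨a, fun n => mul_ne_zero (nonZeroDivisors.ne_zero B.2) C.2.1
    (by simp [e, n]), (mul_comm _ _).trans e⟩

theorem tf (a : Gr (JJ 𝔪)) (h : a ^ 2 = 1) : a = 1 := by
  obtain ⟨A, B, rfl⟩ := ex_div a
  rw [div_pow, div_eq_one, ← map_pow, ← map_pow] at h
  exact div_eq_one.2 (congrArg _ (Subtype.ext (pow_left_injective two_ne_zero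
    (congrArg Subtype.val (of_injective h)))))

/-- valuations -/
def vl {P : Ideal R} (h : Prime P) : Gr (JJ 𝔪) →* Multiplicative ℤ := lift
  { toFun := fun A => .ofAdd (multiplicity P A.1)
    map_one' := congrArg _ (by simpa [multiplicity_eq_zero] using h.not_dvd_one)
    map_mul' := fun A B => congrArg _ (by
      rw [Submonoid.coe_mul, multiplicity_mul h (.of_prime_left h (A * B).2.1)]
      simp) }

theorem vl_of {P : Ideal R} (h : Prime P) (A : JJ 𝔪) :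
    vl h (of A) = .ofAdd (multiplicity P A.1 : ℤ) := lift_of _ A

variable {κ : Type} [Fintype κ] (q : κ → JJ 𝔪)

/-- products of powers -/
def th : Multiplicative (κ → ℤ) →* Gr (JJ 𝔪) where
  toFun n := ∏ j, of (q j) ^ n.toAdd j
  map_one' := by simp
  map_mul' a b := by simp [zpow_add, Finset.prod_mul_distrib]

theorem idx_th (h : ∀ j, Prime (q j).1) (i : Injective q) :
    (sq _).relIndex ((th q).range ⊔ sq _) = 2 ^ Fintype.card κ := by
  classical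
  rw [Subgroup.relIndex_sup_right, ← Subgroup.index_comap, ← finrank_fintype_fun_eq_card ℤ,
    ← sq_add]
  congr 1
  refine le_antisymm (fun n ⟨c, e⟩ => ?_) fun _ ⟨n, e⟩ => ⟨th q n, by rw [← e]; simp⟩
  refine ⟨.ofAdd fun j => (vl (h j) c).toAdd, Multiplicative.toAdd.injective (funext fun j => ?_)⟩
  have := congrArg (fun x => (vl (h j) x).toAdd) (show c ^ 2 = ∏ j, of (q j) ^ n.toAdd j from e)
  simp only [map_pow, map_prod, map_zpow, vl_of, toAdd_prod, toAdd_zpow, toAdd_ofAdd,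
    toAdd_pow] at this
  rw [Finset.sum_eq_single j (fun k _ n => by
    rw [multiplicity_eq_zero.2 fun d => n (i (Subtype.ext (associated_iff_eq.1
      ((h j).associated_of_dvd (h k) d)))).symm]
    simp) (by simp), multiplicity_self] at this
  simpa using this

section fn

variable (f : R →+* R') (i : Injective f) (h : 𝔪 ≤ 𝔫.comap f)

/-- the map on ideals -/
def fJ : JJ 𝔪 →* JJ 𝔫 := ((Ideal.mapHom f : Ideal R →* Ideal R').comp (JJ 𝔪).subtype).codRestrict _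
  fun A => ⟨fun e => A.2.1 ((Ideal.map_eq_bot_iff_of_injective i).1 e), by
    obtain ⟨x, a, y, b, e⟩ := Ideal.isCoprime_iff_exists.1 A.2.2
    exact Ideal.isCoprime_iff_exists.2
      ⟨f x, Ideal.mem_map_of_mem f a, f y, h b, by rw [← map_add, e, map_one]⟩⟩

theorem map_sp (a : R) : (Ideal.span {a}).map f = Ideal.span {f a} := by
  rw [Ideal.map_span, Set.image_singleton]

/-- the map on elements -/
def fT : TT 𝔪 →* TT 𝔫 := ((f : R →* R').comp (TT 𝔪).subtype).codRestrict _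
  fun a => show Ideal.span {f a} ∈ JJ 𝔫 from map_sp f a.1 ▸ (fJ f i h ⟨_, a.2⟩).2

/-- the map on residues -/
def fG : (R ⧸ 𝔪)ˣ →* (R' ⧸ 𝔫)ˣ := Units.map (Ideal.quotientMap 𝔫 f h : R ⧸ 𝔪 →* R' ⧸ 𝔫)

theorem dd_gm (x : Gr (TT 𝔪)) : dd 𝔫 (gm (fT f i h) x) = gm (fJ f i h) (dd 𝔪 x) :=
  gr_ext (f := (dd 𝔫).comp _) (g := (gm _).comp _) (fun a => by
    simp only [MonoidHom.comp_apply, gm_of, dd_of]
    exact congrArg _ (Subtype.ext (map_sp f a.1).symm)) x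

theorem rr_gm (x : Gr (TT 𝔪)) : rr 𝔫 (gm (fT f i h) x) = fG f h (rr 𝔪 x) :=
  gr_ext (f := (rr 𝔫).comp _) (g := (fG f h).comp _) (fun a => Units.ext (by
    simp only [MonoidHom.comp_apply, gm_of, rr_of, fG, Units.coe_map]
    rfl)) x

theorem idx_rel (h0 : 𝔪 ≠ 0) (h1 : 𝔪 ≠ ⊤) :
    ((gm (fT f i h)).range.map (dd 𝔫)).relIndex (gm (fJ f i h)).range ∣
      Nat.card (ClassGroup R) := by
  rw [MonoidHom.map_range, show (dd 𝔫).comp (gm (fT f i h)) = (gm (fJ f i h)).comp (dd 𝔪) from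
    MonoidHom.ext (dd_gm f i h), ← MonoidHom.map_range, (gm (fJ f i h)).range_eq_map,
    Subgroup.relIndex_map_map, top_sup_eq, Subgroup.relIndex_top_right, ← idx_dd h0 h1]
  exact Subgroup.index_dvd_of_le le_sup_left

end fn

theorem sel (h0 : 𝔪 ≠ 0) (h1 : 𝔪 ≠ ⊤) {J : Ideal R} (hq : ∀ j, (q j).1 ∣ J) {x : Gr (TT 𝔪)}
    (hx : dd 𝔪 x ∈ (th q).range ⊔ sq _) : ∃ (a : TT 𝔪) (y : Gr (TT 𝔪)), of a = x * y ^ 2 ∧
      ∃ (A B : Ideal R) (n : ℕ), Ideal.span {(a : R)} = A ^ 2 * B ∧ B ∣ J ^ n := by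
  let K : Subgroup (Gr (JJ 𝔪)) :=
    { carrier := {s | ∃ (B : JJ 𝔪) (c : Gr (JJ 𝔪)) (n : ℕ), B.1 ∣ J ^ n ∧ s = c ^ 2 * of B}
      mul_mem' := by
        rintro _ _ ⟨B, c, n, a, rfl⟩ ⟨B', c', n', a', rfl⟩
        exact ⟨B * B', c * c', n + n', pow_add J n n' ▸ mul_dvd_mul a a', by
          rw [map_mul, mul_pow, mul_mul_mul_comm]⟩
      one_mem' := ⟨1, 1, 0, one_dvd _, by simp⟩
      inv_mem' := by
        rintro _ ⟨B, c, n, a, rfl⟩
        exact ⟨B, (c * of B)⁻¹, n, a, by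
          rw [inv_pow, mul_pow, pow_two (of B), ← mul_assoc, mul_inv (c ^ 2 * of B),
            inv_mul_cancel_right]⟩ }
  obtain ⟨B, c, n, a, e⟩ : dd 𝔪 x ∈ K := (sup_le (by
    rintro _ ⟨n, rfl⟩
    exact prod_mem fun j _ => zpow_mem (show of (q j) ∈ K from
      ⟨q j, 1, 1, (pow_one J).symm ▸ hq j, by simp⟩) _) (by
    rintro _ ⟨c, rfl⟩
    exact ⟨1, c, 0, one_dvd _, by simp⟩) : _ ≤ K) hx
  obtain ⟨A, A', rfl⟩ := ex_div c
  obtain ⟨C, b, k⟩ := ex_T h0 h1 A'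
  obtain ⟨z, e1, e2⟩ := int_of (x := x * of b ^ 2) (D := (A * C) ^ 2 * B) (by
    rw [map_mul, map_pow, e, k, map_mul, map_pow, map_mul, mul_right_comm, ← mul_pow, ← mul_assoc,
      div_mul_cancel])
  exact ⟨z, _, e1.symm, _, _, n, e2, a⟩

/-- an element which is integral over an ideal -/
theorem int_mem {U : Ideal R} {z t a b : R} (ht : t ∈ U) (ha : a ∈ U) (hb : b ∈ U)
    (e : z * z = z * t - a * b) : z ∈ U := by
  by_cases z0 : z = 0
  · exact z0 ▸ zero_mem _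
  have m : z ∈ U ⊔ Ideal.span {z} := Ideal.mem_sup_right (Ideal.mem_span_singleton_self z)
  have n : U ⊔ Ideal.span {z} ≠ 0 := fun k => z0 (by simpa [k] using m)
  refine Ideal.dvd_iff_le.1 ((mul_dvd_mul_iff_left n).1 (Ideal.dvd_iff_le.2 ?_)) m
  rw [Ideal.mul_sup, Ideal.sup_mul (K := Ideal.span {z}), Ideal.span_singleton_mul_span_singleton]
  refine sup_le le_rfl (sup_le ((mul_comm _ _).trans_le (Ideal.mul_mono_left le_sup_right)) ?_)
  rw [Ideal.span_singleton_le_iff_mem, e]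
  exact sub_mem (Ideal.mul_mem_mul m ht) (Ideal.mul_mem_mul (Ideal.mem_sup_left ha) hb)

end Vale.Agent.P004R.In
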