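import Mathlib.NumberTheory.ModularForms.Discriminant
import Mathlib.Analysis.SpecialFunctions.Trigonometric.Cotangent
import Mathlib.Analysis.SpecialFunctions.ImproperIntegrals
import Mathlib.Analysis.SpecialFunctions.Complex.LogBounds
import Mathlib.MeasureTheory.Integral.DominatedConvergence

/-!
# P004R: tools for the first limit formula of Kronecker
-/

set_option autoImplicit false

open UpperHalfPlane hiding I
open Filter Topology MeasureTheory Set Complex
open scoped Real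

noncomputable section

namespace Vale.Agent.P004R.Kl

variable {z : ℂ} {s y : ℝ}

/-- `|z + t| ^ (-2 s)` -/
def fz (z : ℂ) (s t : ℝ) : ℝ := ‖z + t‖ ^ (-(2 * s))

/-- `∫ (1 + u ^ 2) ^ (-s)` -/
def II (s : ℝ) : ℝ := ∫ u, fz I s u

theorem im_le (z : ℂ) (t : ℝ) : |z.im| ≤ ‖z + t‖ := by simpa using abs_im_le_norm (z + t)

theorem pos_of (hz : z.im ≠ 0) (t : ℝ) : 0 < ‖z + t‖ := (abs_pos.2 hz).trans_le (im_le z t)

theorem cont_fz (hz : z.im ≠ 0) : Continuous fun p : ℝ × ℝ => fz z p.1 p.2 :=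
  Continuous.rpow (by fun_prop) (by fun_prop) fun p => .inl (pos_of hz p.2).ne'

theorem fz_one (u : ℝ) : fz I 1 u = (1 + u ^ 2)⁻¹ := by
  rw [fz, mul_one, Real.rpow_neg (norm_nonneg _), Real.rpow_two, ← normSq_eq_norm_sq, add_comm,
    ← one_mul I, ← ofReal_one, normSq_add_mul_I, one_pow, add_comm]

theorem fz_le (hs : 1 ≤ s) (u : ℝ) : ‖fz I s u‖ ≤ (1 + u ^ 2)⁻¹ := by
  rw [← fz_one, fz, Real.norm_of_nonneg (by positivity)]
  exact Real.rpow_le_rpow_of_exponent_le (by simpa using im_le I u) (by linarith)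

theorem ms_fz (s : ℝ) : AEStronglyMeasurable (fz I s) volume :=
  ((cont_fz (z := I) (by simp)).comp (.prodMk_right s)).aestronglyMeasurable

theorem II_one : II 1 = π := by simp only [II, fz_one, integral_univ_inv_one_add_sq]

theorem II_lim : Tendsto II (𝓝[>] 1) (𝓝 π) :=
  II_one ▸ tendsto_integral_filter_of_dominated_convergence _ (.of_forall ms_fz)
    (eventually_nhdsWithin_of_forall fun _ hs => .of_forall (fz_le (le_of_lt hs)))
    integrable_inv_one_add_sq (.of_forall fun u => (((cont_fz (z := I) (by simp)).comp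
      (.prodMk_left u)).tendsto 1).mono_left nhdsWithin_le_nhds)

theorem fz_eq (hz : z.im ≠ 0) (s : ℝ) :
    fz z s = fun t => |z.im| ^ (-(2 * s)) * fz I s ((t + z.re) / z.im) := funext fun t => by
  have e : z + t = z.im * (I + ((t + z.re) / z.im : ℝ)) := by
    have := ofReal_ne_zero.2 hz
    push_cast
    field_simp
    linear_combination -(Complex.re_add_im z)
  rw [fz, fz, ← Real.mul_rpow (abs_nonneg _) (norm_nonneg _), e, norm_mul, norm_real,
    Real.norm_eq_abs]

theorem sum_fz (hz : z.im ≠ 0) (hs : 1 ≤ s) :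
    HasSum (fun n : ℤ => ∫ t in (0 : ℝ)..1, fz (z + n) s t) (|z.im| ^ (1 - 2 * s) * II s) := by
  have i : Integrable (fz z s) := fz_eq hz s ▸ ((((integrable_inv_one_add_sq.mono' (ms_fz s)
    (.of_forall (fz_le hs))).comp_div hz).comp_add_right z.re).const_mul _)
  have k := i.hasSum_intervalIntegral_comp_add_int
  have e : ∫ t, fz z s t = |z.im| ^ (1 - 2 * s) * II s := by
    rw [fz_eq hz, integral_const_mul, integral_add_right_eq_self (fun t => fz I s (t / z.im)),
      Measure.integral_comp_div, smul_eq_mul, ← mul_assoc, sub_eq_neg_add,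
      Real.rpow_add_one (abs_pos.2 hz).ne', II]
  rw [e] at k
  refine k.congr_fun fun n => congrArg (fun f : ℝ → ℝ => ∫ t in (0 : ℝ)..1, f t) (funext fun t => ?_)
  rw [fz, fz, ofReal_add, ofReal_intCast, add_assoc, add_comm (t : ℂ)]

theorem mv {c u v p : ℝ} (hc : 0 < c) (hu : c ≤ u) (hv : c ≤ v) (hp : 0 ≤ p) :
    ‖u ^ (-p) - v ^ (-p)‖ ≤ p * c ^ (-p - 1) * ‖u - v‖ :=
  (convex_Ici c).norm_image_sub_le_of_norm_hasDerivWithin_le (f := fun x => x ^ (-p))
    (fun x hx => (Real.hasDerivAt_rpow_const (.inl (hc.trans_le hx).ne')).hasDerivWithinAt)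
    (fun x hx => by
      rw [norm_mul, norm_neg, Real.norm_of_nonneg hp,
        Real.norm_of_nonneg (Real.rpow_nonneg (hc.le.trans hx) _)]
      exact mul_le_mul_of_nonneg_left (Real.rpow_le_rpow_of_nonpos hc hx (by linarith)) hp) hv hu

/-- the sum is close to the integral -/
theorem bound (hy : 0 < y) : ∃ C, ∀ z : ℂ, y ≤ |z.im| → ∀ s ∈ Icc (1 : ℝ) 2,
    ‖‖z‖ ^ (-(2 * s)) - ∫ t in (0 : ℝ)..1, fz z s t‖ ≤ C * ‖z‖ ^ (-3 : ℝ) := by
  obtain ⟨κ, hκ⟩ : ∃ κ, κ = y / (y + 1) := ⟨_, rfl⟩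
  have k0 : 0 < κ := by rw [hκ]; positivity
  have d0 : 0 < min 1 (κ * y) := by positivity
  refine ⟨4 * min 1 (κ * y) ^ (-2 : ℝ) * κ ^ (-3 : ℝ), fun z hz s hs => ?_⟩
  have n : z.im ≠ 0 := abs_pos.1 (hy.trans_le hz)
  have z1 : y ≤ ‖z‖ := hz.trans (abs_im_le_norm z)
  have c0 : 0 < κ * ‖z‖ := mul_pos k0 (hy.trans_le z1)
  have l : ∀ t : ℝ, |t| ≤ 1 → κ * ‖z‖ ≤ ‖z + t‖ := fun t ht => by
    have a := norm_sub_le (z + t) t
    rw [add_sub_cancel_right, norm_real, Real.norm_eq_abs] at a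
    rw [hκ, div_mul_eq_mul_div, div_le_iff₀ (by positivity)]
    nlinarith [hz.trans (im_le z t)]
  have b : 2 * s * (κ * ‖z‖) ^ (-(2 * s) - 1) ≤
      4 * min 1 (κ * y) ^ (-2 : ℝ) * κ ^ (-3 : ℝ) * ‖z‖ ^ (-3 : ℝ) := by
    rw [mul_assoc _ (κ ^ _), ← Real.mul_rpow k0.le (norm_nonneg _), mul_assoc 4,
      show -(2 * s) - 1 = (2 - 2 * s) + -3 by ring, Real.rpow_add c0]
    refine mul_le_mul (by linarith [hs.2]) (mul_le_mul_of_nonneg_right ?_ (by positivity))
      (by positivity) (by norm_num)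
    exact (Real.rpow_le_rpow_of_nonpos d0 ((min_le_right _ _).trans
      (mul_le_mul_of_nonneg_left z1 k0.le)) (by linarith [hs.1])).trans
        (Real.rpow_le_rpow_of_exponent_ge d0 (min_le_left _ _) (by linarith [hs.2]))
  have e : ‖z‖ ^ (-(2 * s)) - ∫ t in (0 : ℝ)..1, fz z s t =
      ∫ t in (0 : ℝ)..1, (‖z‖ ^ (-(2 * s)) - fz z s t) := by
    rw [intervalIntegral.integral_sub intervalIntegrable_const (g := fz z s)
      (((cont_fz n).comp (.prodMk_right s)).intervalIntegrable _ _)]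
    simp
  rw [e]
  refine (intervalIntegral.norm_integral_le_of_norm_le_const fun t ht => ?_).trans_eq
    (by rw [sub_zero, abs_one, mul_one])
  rw [uIoc_of_le zero_le_one] at ht
  have t1 : |t| ≤ 1 := by rw [abs_of_pos ht.1]; exact ht.2
  refine (mv c0 (by simpa using l 0 (by simp)) (l t t1) (by linarith [hs.1])).trans
    ((mul_le_of_le_one_right (by have := hs.1; positivity) ?_).trans b)
  exact (abs_norm_sub_norm_le _ _).trans (by simpa using t1)

/-! ## The value at `s = 1` -/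

theorem sq_eq {w : ℂ} (hw : w.im ≠ 0) : ‖w‖ ^ (-(2 * 1) : ℝ) = -(1 / w).im / w.im := by
  rw [mul_one, Real.rpow_neg (norm_nonneg _), Real.rpow_two, ← normSq_eq_norm_sq, one_div, inv_im]
  field_simp

theorem cot_sum (w : ℍ) {S : ℝ} (h : HasSum (fun n : ℤ => ‖(w : ℂ) + n‖ ^ (-(2 * 1) : ℝ)) S) :
    S - π / w.im = 2 * π / w.im * (cexp (2 * π * I * w) / (1 - cexp (2 * π * I * w))).re := by
  have y0 := w.im_pos.ne'
  have m := coe_mem_integerComplement w
  have q := norm_exp_two_pi_I_lt_one w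
  have a := (hasSum_nat_add_iff' 1).2 h.nat_add_neg
  have b := (hasSum_im (cot_series_rep' m ▸ (summable_cotTerm m).hasSum)).neg.div_const w.im
  have c := a.unique (b.congr_fun fun n => by
    rw [sq_eq (by simpa using y0), sq_eq (by simpa using y0), cotTerm]
    simp only [add_im, intCast_im, add_zero, coe_im]
    push_cast
    ring_nf)
  rw [pi_mul_cot_pi_q_exp, (hasSum_geometric_of_norm_lt_one q).tsum_eq, Finset.sum_range_one,
    Nat.cast_zero, neg_zero, sq_eq (by simpa using y0)] at c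
  have n : 1 - cexp (2 * π * I * w) ≠ 0 := fun e => by rw [← sub_eq_zero.1 e] at q; simp at q
  have e : cexp (2 * π * I * w) / (1 - cexp (2 * π * I * w)) = (1 - cexp (2 * π * I * w))⁻¹ - 1 := by
    field_simp; ring
  rw [e]
  generalize (1 - cexp (2 * π * I * w))⁻¹ = r at c
  simp only [Int.cast_zero, add_zero, coe_im, sub_im, mul_im, mul_re, ofReal_re, ofReal_im,
    Complex.I_re, Complex.I_im, re_ofNat, im_ofNat, sub_re, one_re] at c ⊢
  linear_combination c

theorem lam0 {r : ℂ} (q : ‖r‖ < 1) : ∃ L : ℂ,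
    HasSum (fun m : ℕ => r ^ (m + 1) / (1 - r ^ (m + 1)) / (m + 1)) L ∧
      HasProd (fun k : ℕ => 1 - r ^ (k + 1)) (cexp (-L)) := by
  have g := summable_geometric_of_lt_one (norm_nonneg r) q
  have p : ∀ m : ℕ, ‖r ^ (m + 1)‖ < 1 := fun m => by
    rw [norm_pow]; exact pow_lt_one₀ (norm_nonneg _) q m.succ_ne_zero
  obtain ⟨L, S⟩ : Summable fun x : ℕ × ℕ => (r ^ (x.1 + 1)) ^ (x.2 + 1) / (x.2 + 1) :=
    (g.mul_of_nonneg g (fun _ => by positivity) fun _ => by positivity).of_norm_bounded fun x => by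
      rw [norm_div, norm_pow, norm_pow, ← pow_mul, ← pow_add]
      refine (div_le_self (by positivity) ?_).trans
        (pow_le_pow_of_le_one (norm_nonneg _) q.le (by nlinarith))
      rw [← Nat.cast_succ, Complex.norm_natCast]
      exact_mod_cast x.2.succ_pos
  have a : HasSum (fun k : ℕ => -log (1 - r ^ (k + 1))) L :=
    S.prod_fiberwise fun k => by simpa only using hasSum_taylorSeries_neg_log' (p k)
  have S' : HasSum (fun x : ℕ × ℕ => (r ^ (x.2 + 1)) ^ (x.1 + 1) / (x.1 + 1)) L :=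
    (Equiv.prodComm ℕ ℕ).hasSum_iff.2 S
  refine ⟨L, S'.prod_fiberwise fun m => ?_, a.neg.cexp.congr_fun fun k => ?_⟩
  · have k := ((hasSum_geometric_of_norm_lt_one (p m)).mul_left (r ^ (m + 1))).div_const ((m : ℂ) + 1)
    rw [← div_eq_mul_inv] at k
    exact k.congr_fun fun k => by ring
  · have n : 1 - r ^ (k + 1) ≠ 0 := fun e => by
      have := p k
      rw [← sub_eq_zero.1 e] at this
      simp at this
    rw [Function.comp, neg_neg, exp_log n]

/-- the Lambert series and the logarithm of the discriminant -/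
theorem lam (τ : ℍ) : ∃ L : ℝ, HasSum (fun m : ℕ => (cexp (2 * π * I * τ) ^ (m + 1) /
    (1 - cexp (2 * π * I * τ) ^ (m + 1))).re / (m + 1)) L ∧
      Real.log ‖ModularForm.discriminant τ‖ = -2 * π * τ.im - 24 * L := by
  obtain ⟨L, a, b⟩ := lam0 (norm_exp_two_pi_I_lt_one τ)
  refine ⟨L.re, (hasSum_re a).congr_fun fun m => by
    rw [← Nat.cast_succ, ← Nat.cast_succ, div_natCast_re], ?_⟩
  rw [ModularForm.discriminant, ModularForm.eta, funext fun n => congrArg (1 - ·)
    (ModularForm.eta_q_eq_pow n τ), b.tprod_eq, norm_pow, norm_mul, norm_exp,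
    Function.Periodic.norm_qParam, ← Real.exp_add, Real.log_pow, Real.log_exp, neg_re, coe_im]
  push_cast
  ring

end Vale.Agent.P004R.Kl
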