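import Vale.Agent.P004R.St2
import Vale.Agent.P004R.Mu0
import Vale.Agent.P022K.G2.Tr
import Vale.Agent.P022K.G2.Plc
import Vale.Agent.P004R.Ins

/-!
# P004R: one level of the tower
-/

set_option autoImplicit false
set_option linter.all false

open NumberField
open scoped Pointwise PowerSeries NumberTheorySymbols

noncomputable section

namespace Vale.Agent.P004R

open Vale.Agent.P022 P027H P027M.M P004K
open Vale.Agent.P022D.W (dec)
open Vale.Agent.P022E.GW (Ov Fb)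
open Vale.Agent.P022K.G2 (Tv)
open Vale.Agent.P004S (nu)

namespace Lv

variable {P : Ideal (𝓞 Qb)} {φ : GQ} {a b : Qb}

theorem zp_add (hP : P.IsPrime) (h : Zp P a) (h' : Zp P b) : Zp P (a + b) := by
  obtain ⟨s, t, s1, t1, e⟩ := h
  obtain ⟨s', t', s2, t2, e'⟩ := h'
  refine ⟨s * s', s' * t + s * t', fun k => (hP.mem_or_mem k).elim s1 s2,
    P.add_mem (P.mul_mem_left _ t1) (P.mul_mem_left _ t2), ?_⟩
  simp only [RingOfIntegers.coe_eq_algebraMap, map_add, map_mul] at e e' ⊢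
  rw [← e, ← e']; ring

theorem zp_int (n : ℤ) (h : Zp P a) : Zp P (n * a) := by
  obtain ⟨s, t, s1, t1, e⟩ := h
  refine ⟨s, n * t, s1, P.mul_mem_left _ t1, ?_⟩
  simp only [RingOfIntegers.coe_eq_algebraMap, map_mul, map_intCast] at e ⊢
  rw [← e]; ring

theorem zp_zero (hP : P.IsPrime) : Zp P 0 :=
  ⟨1, 0, fun k => hP.ne_top ((Ideal.eq_top_iff_one _).2 k), P.zero_mem, by simp⟩

theorem vn_congr (hP : P.IsPrime) {R : Finset GQ} {n l : ℕ} {e : GQ → ZMod n} {h h' : GQ → Qb}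
    (k : ∀ g ∈ R, Zp P (h g - h' g)) (v : Vn P R e h l) : Vn P R e h' l := fun i hi => by
  have := zp_add hP (v i hi) (Finset.sum_induction
    (fun g => ((-((e g).val.choose i : ℤ) : ℤ) : Qb) * (h g - h' g)) (Zp P)
    (fun _ _ => zp_add hP) (zp_zero hP) fun g hg => zp_int _ (k g hg))
  rw [← Finset.sum_add_distrib] at this
  convert this using 2 with g
  push_cast; ring

theorem unit_of {m : ℕ} {x : ZMod (2 * 2 ^ m)} (h : (x.val : ZMod 2) = 1) : IsUnit x := by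
  rw [← ZMod.natCast_zmod_val x, ZMod.isUnit_iff_coprime]
  have := (ZMod.natCast_eq_one_iff_odd.1 h).coprime_two_right
  exact this.mul_right (this.pow_right _)

/-- the model ring -/
theorem tq (J : ℕ) : Tq (Ideal.Quotient.mk (Ideal.span {(PowerSeries.X : (ZMod 2)⟦X⟧) ^ J})) J :=
  ⟨Ideal.Quotient.mk_surjective, fun x => by
    rw [Ideal.Quotient.eq_zero_iff_mem, Ideal.mem_span_singleton]⟩

end Lv

open Lv

variable {K : Type} [Field K] [NumberField K] {j : K →+* Qb} {d₁ d₂ c M : ℕ} {S : Finset ℕ}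
  {e : GQ → ZMod (2 * M)} {P : ℕ → Ideal (𝓞 Qb)} {φ : ℕ → GQ}

/-- the Frobenius elements at the primes of `S` generate the layer -/
theorem frob_unit (y : Ly j c M e) (s : Sh S d₁ d₂ c)
    (par : ∀ g ∈ GK j, ((e g).val : ZMod 2) = nu (d₁ * c : ℕ) g) {p : ℕ} (hp : p ∈ S)
    {Q : Ideal (𝓞 Qb)} {ψ : GQ} (o : Ov p Q) (f : Fb p Q ψ) (m : ψ ∈ GK j) :
    IsUnit (e ψ) ∧ ¬ p ∣ c := by
  obtain ⟨k, rfl⟩ := y.pow
  have c0 : c ≠ 0 := y.sq.ne_zero
  by_cases h2 : p = 2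
  · subst h2
    have c8 : c % 8 = 1 := by
      rw [← Nat.prod_primeFactors_of_squarefree y.sq]
      exact Finset.prod_induction _ (· % 8 = 1) (fun a b ha hb => by rw [Nat.mul_mod, ha, hb]) rfl
        fun q hq => s.c8 q (Nat.prime_of_mem_primeFactors hq) (Nat.dvd_of_mem_primeFactors hq)
    have : d₁ * c % 8 = 5 := by rw [Nat.mul_mod, s.m1, c8]
    refine ⟨unit_of ((par ψ m).trans ((P004S.z2 _).resolve_left fun k => ?_)), by omega⟩
    have := (Mu.fb_two o (by omega) f).1 k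
    omega
  · have j1 := ((s.inS p hp).2 h2).1
    have nd := Mu.nd_of o.1 (Or.inl j1)
    refine ⟨unit_of ((par ψ m).trans ((P004S.z2 _).resolve_left fun k => ?_)),
      fun k => nd ((Int.natCast_dvd_natCast.2 k).mul_left _)⟩
    rw [Mu.nu_fb o h2 f nd, ← Nat.cast_mul, if_pos k] at j1
    exact absurd j1 (by decide)

/-- **the lower bound for the rank one group** -/
theorem low (fld : FLD) (uni : UNI) (cnf : CNF) (bt : BT2) (dpt : DPT) (shp : SHP)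
    (kd : Kd j (d₁ * d₂)) (y : Ly j c M e) (s : Sh S d₁ d₂ c)
    (par : ∀ g ∈ GK j, ((e g).val : ZMod 2) = nu (d₁ * c : ℕ) g)
    (hP : ∀ p ∈ S, Ov p (P p) ∧ dec (P p) ≤ GK j ∧ Fb p (P p) (φ p) ∧ φ p ∈ GK j)
    {R : Finset GQ} (tv : Tv (GK j) (Hc j c) R) {A : Type} [CommRing A] {ρ : (ZMod 2)⟦X⟧ →+* A}
    (t : Tq ρ (2 * M)) [Finite (Z0 (GK j) (S ∪ c.primeFactors) (r1 (ch ρ e)) (P 2))]
    (sm : Nat.card (Z0 (GK j) (S ∪ c.primeFactors) (r1 (ch ρ e)) (P 2)) < 2 ^ M) :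
    jc j c ≠ 0 ∧ (∀ g ∈ GK j, P004K.Ip (P 2) (ij j c g)) ∧
    ∀ l, l + 1 ≤ M → Vn (P 2) R e (ij j c) l → 2 ^ (l + 2 * (S.erase 2).card) ≤
      Nat.card (Z0 (GK j) (S ∪ c.primeFactors) (r1 (ch ρ e)) (P 2)) := by
  classical
  have u := fun p hp => frob_unit y s par hp (hP p hp).1 (hP p hp).2.2.1 (hP p hp).2.2.2
  obtain ⟨o2, d2, f2, m2⟩ := hP 2 s.two
  obtain ⟨F, H, _, _, _, _, _, jH, σ, fl, cp, pl⟩ := fld K j c M e y (φ 2) m2 (u 2 s.two).1
  obtain ⟨γ, hγ⟩ : ∃ γ, γ ∉ GK j := by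
    by_contra k
    push Not at k
    obtain ⟨γ, hγ⟩ := Mu.ex_k
    have := P004S.nu_neg_conj (d := -((d₁ * d₂ : ℕ) : ℤ))
      (by have := kd.m8; omega) hγ
    rw [(kd.gk γ).1 (k γ)] at this
    exact absurd this (by decide)
  have q := fun p hp => pl p (P p) (φ p) (hP p hp).1 (u p hp).2 (hP p hp).2.1 (hP p hp).2.2.1
    (u p hp).1 γ hγ
  obtain ⟨i2, b2, -, n1, n2, n3⟩ := q 2 s.two
  have od : ∀ {n : ℤ}, ¬ ((2 : ℕ) : ℤ) ∣ n → Odd n := fun h =>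
    Int.not_even_iff_odd.1 fun k => h k.two_dvd
  obtain ⟨s0, us⟩ := uni K j c y.iq (Nat.odd_iff.2 (by have := (u 2 s.two).2; omega)) _ _ o2 d2 f2
  obtain ⟨j0, j1, w, hw, dp⟩ := dpt K j c M e y F H jH _ σ fl cp _ o2 f2 _ i2 b2 s0 us R tv
  obtain ⟨x0, x1⟩ := cnf K j c M e y F H jH _ σ fl cp (od n1) (od n2) (od n3) _ s0 us R tv w hw
  refine ⟨j0, j1, fun l hl v => ?_⟩
  have me : ∀ i : S.erase 2, i.1 ∈ S := fun i => Finset.mem_of_mem_erase i.2
  have pd : Pd σ M (fun i : S.erase 2 => i.1) _ _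
      (fun i => below (jH.comp (algebraMap F H)) (P i))
      (fun i => below (jH.comp (algebraMap F H)) (γ • P i)) :=
    ⟨cp, i2, fun i => ⟨Finset.ne_of_mem_erase i.2, (q i (me i)).1⟩, Subtype.val_injective⟩
  obtain ⟨κ, hκ⟩ := shp K j c M e y F H jH _ σ fl cp _ o2 f2 d2 _ _ i2 b2 (S ∪ c.primeFactors)
    (Finset.mem_union_left _ s.two)
    (fun q h1 h2 => Finset.mem_union_right _ (Nat.mem_primeFactors.2 ⟨h1, h2, y.sq.ne_zero⟩))
    (md H (below (jH.comp (algebraMap F H)) (γ • P 2))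
      (fun i : S.erase 2 => below (jH.comp (algebraMap F H)) (γ • P i)) *
      ∏ i : S.erase 2, up H (below (jH.comp (algebraMap F H)) (P i))) (fun Q hQ le => by
      rcases hQ.mul_le.1 le with k | k
      · rcases hQ.mul_le.1 k with k | k
        · exact ⟨2, Finset.mem_union_left _ s.two, Nat.prime_two,
            hQ.le_of_pow_le k (In.ip_mem i2).2⟩
        · obtain ⟨i, -, k⟩ := hQ.prod_le.1 k
          exact ⟨i, Finset.mem_union_left _ (me i), (s.inS _ (me i)).1, k (In.ip_mem (q i (me i)).1).2⟩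
      · obtain ⟨i, -, k⟩ := hQ.prod_le.1 k
        exact ⟨i, Finset.mem_union_left _ (me i), (s.inS _ (me i)).1, k (In.ip_mem (q i (me i)).1).1⟩)
    A ρ t
  obtain ⟨b, b1, b3⟩ := bt F H σ M _ _ _ _ _ _ pd w _ (dp l hl v) x0 _ κ hκ sm
  rw [Fintype.card_coe] at b1
  exact (Nat.pow_le_pow_right two_pos (by omega)).trans b1

/-- **one level**: the order of the analytic element against the size of the Selmer group -/
theorem lev (r1' : P004K.RC1) (fld : FLD) (uni : UNI) (cnf : CNF) (bt : BT2) (dpt : DPT) (shp : SHP)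
    (shf : SHF) (lex : LEX) (dbl : DBL) (kd : Kd j (d₁ * d₂)) (S : Finset ℕ) (k : ℕ) :
    ∃ B : ℕ, ∀ (c M : ℕ) (e : GQ → ZMod (2 * M)), Ly j c M e → Sh S d₁ d₂ c →
    (∀ g ∈ GK j, ((e g).val : ZMod 2) = nu (d₁ * c : ℕ) g) → c.primeFactors.card ≤ k → B < M →
    ∀ (P : ℕ → Ideal (𝓞 Qb)) (φ : ℕ → GQ),
    (∀ p ∈ S, Ov p (P p) ∧ dec (P p) ≤ GK j ∧ Fb p (P p) (φ p) ∧ φ p ∈ GK j) →
    jc j c ≠ 0 ∧ ∀ (L : List ℕ), L.Nodup → L.toFinset = S.erase 2 → ∃ l < B,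
      (∀ R, Tv (GK j) (Hc j c) R → ∀ h : GQ → Qb,
        (∀ g ∈ R, Zp (P 2) (h g - dpl (ij j c) (L.map φ) g)) → ¬ Vn (P 2) R e h (l + 1)) ∧
      ∀ (A : Type) [CommRing A] (ρ : (ZMod 2)⟦X⟧ →+* A) J, Tq ρ J → 0 < J → J ≤ 2 * M →
      ∀ b : GQ → Matrix (Fin 2) (Fin 2) (ZMod 2), P004F.Pr.Gd (GK j) (S ∪ c.primeFactors) b →
      (∀ g ∈ GK j, (b g).trace = 0) →
      Nat.card (Z0 (GK j) (S ∪ c.primeFactors) (r2 ρ (ch ρ e) b) (P 2)) ≤ 2 ^ (2 * B) ∧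
      (2 ≤ J → 2 * l ≤ J → 2 ^ (2 * l) ≤
        Nat.card (Z0 (GK j) (S ∪ c.primeFactors) (r2 ρ (ch ρ e) b) (P 2))) := by
  classical
  obtain ⟨C, hC⟩ := lex K j d₁ d₂ k S kd
  refine ⟨C, fun c M e y s par hk hM P φ hP => ?_⟩
  obtain ⟨o2, d2, f2, m2⟩ := hP 2 s.two
  have c0 : 0 < c := Nat.pos_of_ne_zero y.sq.ne_zero
  obtain ⟨-, fin, le, mono⟩ := hC c M e y s par hk _ o2 _ _ _ (tq (2 * M)) le_rfl
  have lt := le.trans_lt (Nat.lt_two_pow_self (n := C))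
  obtain ⟨-, op, nm, cm, -⟩ := r1' K j y.iq c c0
  obtain ⟨R, tv⟩ := P022K.G2.ex_tv (Γ := GK j) (U := Hc j c) fun k => P022K.G2.Plc.idx op
    (Subgroup.index_eq_zero_of_relIndex_eq_zero k)
  obtain ⟨j0, j1, lo⟩ := low fld uni cnf bt dpt shp kd y s par hP tv (tq (2 * M))
    (lt.trans_le (Nat.pow_le_pow_right two_pos hM.le))
  refine ⟨j0, fun L nd hL => ?_⟩
  rw [← hL, List.toFinset_card_of_nodup nd] at lo
  have bd : ∀ l, l + 1 ≤ M → Vn (P 2) R e (ij j c) l → l + 2 * L.length < C := fun l hl v =>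
    (Nat.pow_lt_pow_iff_right one_lt_two).1 ((lo l hl v).trans_lt lt)
  have ex : ∃ l, ¬ Vn (P 2) R e (ij j c) (l + 1) :=
    ⟨C, fun v => absurd (bd C hM fun i hi => v i (by omega)) (by omega)⟩
  have v : Vn (P 2) R e (ij j c) (Nat.find ex) := fun i hi =>
    not_not.1 (Nat.find_min ex hi) i (Nat.lt_succ_self i)
  have nv := Nat.find_spec ex
  have lC : Nat.find ex ≤ C :=
    Nat.find_min' ex fun v => absurd (bd C hM fun i hi => v i (by omega)) (by omega)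
  generalize Nat.find ex = l at v nv lC
  have l1 := bd l (by omega) v
  have iv : ∀ g, ∀ u ∈ Hc j c, ij j c (g * u) = ij j c g := fun g u hu => by
    rw [ij, ij, AlgEquiv.mul_apply, show u (jc j c) = jc j c from hu.2]
  refine ⟨l + 2 * L.length, l1, fun R' tv' h hh w => nv fun i hi => ?_,
    fun A _ ρ J t J2 JM b gb tr => ?_⟩
  · obtain ⟨m, rfl⟩ := y.pow
    rw [← tv.sum_of R' id tv'.mem tv'.ex tv'.un _ fun g hg u hu hu' => by
      rw [iv g u hu', y.add g hg u hu, y.ker u hu', add_zero]]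
    refine shf _ _ R' _ e _ _ (L.map φ) _ tv' inf_le_left cm y.add y.ker o2
      (fun g hg => ⟨j1 g hg, iv g⟩) (fun ψ hψ => ?_) (by rw [List.length_map]; omega)
      (by rw [List.length_map, Nat.add_right_comm]; exact vn_congr o2.2.1 hh w) i hi
    obtain ⟨p, hp, rfl⟩ := List.mem_map.1 hψ
    have ps := Finset.mem_of_mem_erase (hL ▸ List.mem_toFinset.2 hp)
    exact ⟨(hP p ps).2.2.2, (frob_unit y s par ps (hP p ps).1 (hP p ps).2.2.1 (hP p ps).2.2.2).1⟩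
  · obtain ⟨g1, -, le', -⟩ := hC c M e y s par hk _ o2 A ρ J t JM
    obtain ⟨q, q', hq, -, -, dv⟩ := y.two
    obtain ⟨Q, oQ⟩ := Mu.ex_pl hq
    have qc := (dvd_mul_right q q').trans dv
    obtain ⟨-, a2, a3⟩ := dbl A ρ J t J2 _ _ _ b _ g1 gb tr o2 d2 ⟨q,
      Finset.mem_union_right _ (Nat.mem_primeFactors.2 ⟨hq, qc, c0.ne'⟩), (y.ram q Q oQ qc).1, Q, oQ,
      (y.ram q Q oQ qc).2.1⟩
    refine ⟨a2.trans ?_, fun J2 k => a3 _ k ((lo l (by omega) v).trans (mono A ρ J t J2 JM))⟩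
    rw [pow_mul']
    exact Nat.pow_le_pow_left (le'.trans Nat.lt_two_pow_self.le) 2

end Vale.Agent.P004R
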