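import Vale.Agent.P004R.Qf
import Vale.Agent.P004F.Defs

/-! # P004R: the depleted Heegner points and the values of `1 / j` -/

set_option autoImplicit false
set_option linter.all false

open NumberField

noncomputable section

namespace Vale.Agent.P004R

open Vale.Agent.P022 P004K P004F P004F.Qx
open P004M.TE (ga)

/-- the parity of the coefficients -/
theorem par_e (e : Crv) (h : ∀ l : ℕ, l.Prime → l ∉ e.S → Even (e.a l)) (n : ℕ)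
    (hn : n.Coprime e.S.prod) : Odd (e.a n) ↔ IsSquare n :=
  Qf.par_a e.rn.one e.rn.te (List.dvd_prod e.two) (fun p hp k =>
    have m : p ∉ e.S := fun m => k (List.dvd_prod m)
    ⟨fun d => (e.bad p hp m).1 (d.mul_right _), h p hp m⟩) n hn

/-- **the analytic side of the anchor in terms of `1 / j`** -/
theorem lnk (qe : QEXP) (qf : QF) (hg1 : HG1) (cj : CJ0) (e : Crv)
    (h : ∀ l : ℕ, l.Prime → l ∉ e.S → Even (e.a l)) : ∃ T : ℕ, ∀ b : Fld e, T ≤ b.δ' →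
    ∀ c : ℕ, 0 < c → c.Coprime (e.N * e.S.prod) → jc b.j c ≠ 0 → ∀ g ∈ GK b.j,
    Zp (e.P 2) (zf (ga g (dep e.N e.w e.a e.S b.φ (b.Y c))) / (e.S.prod ^ 2 : ℕ) -
      dpl (ij b.j c) ((e.S.erase 2).map b.φ) g) := by
  have hp : ∀ p ∈ e.S, p.Prime := fun p k => (e.ov p k).1
  have hP : ∀ p ∈ e.S, (e.P p).IsPrime ∧ (p : 𝓞 Qb) ∈ e.P p := fun p k => (e.ov p k).2
  obtain ⟨u, hu, s, hs, hq, h1⟩ := qe _ _ _ _ _ _ _ _ _ _ e.rn e.par e.S e.nd hp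
  obtain ⟨T, h1⟩ := h1 e.P hP
  obtain ⟨T', h2⟩ := qf e.N e.a e.S e.rn.pos e.nd hp e.two (par_e e h) u hu s hs (hq 2 e.two).1
    (hq 2 e.two).2 e.P hP
  refine ⟨max T T', fun b hb c c0 cp j0 g hg => ?_⟩
  have hM : 0 < e.N * e.S.prod ^ 2 :=
    Nat.mul_pos e.rn.pos (pow_pos (List.prod_pos fun p k => (hp p k).pos) 2)
  obtain ⟨τ, hτ⟩ := (hg1 b.K b.j b.iq _ c _ hM c0 (cp.coprime_mul_right_right.mul_right
    (cp.coprime_mul_left_right.pow_right 2))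
    (Qf.sp_sq hp b.ch.spl (fun _ => id) e.rn.pos b.ch.lev b.ch.cop).cn).1
  obtain ⟨σ, hσ⟩ := ex_ex g
  obtain ⟨τ', c'⟩ := (cj σ _ hM).1 τ
  exact h2 b.δ' (le_of_max_le_right hb) b.adm.sq b.K b.j b.iq b.θ b.th _ _ _ _ b.ch c c0 cp j0 g hg
    σ τ τ' hσ hτ c' _ ((h1 b.δ' (le_of_max_le_left hb) b.adm.sq b.K b.j b.iq b.θ b.th _ _ _ _ b.ch
      c c0 cp _ (b.hg c c0 cp.coprime_mul_right_right) g hg 2 e.two).2 σ τ τ' hσ hτ c')

/-- from `Vn` to `An` -/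
theorem an_of {e : Crv} (b : Fld e) {c n l : ℕ} {ε : GQ → ZMod n}
    (h : ∀ R, P022K.G2.Tv (GK b.j) (Hc b.j c) R → ¬ Vn (e.P 2) R ε (fun g =>
      zf (ga g (dep e.N e.w e.a e.S b.φ (b.Y c))) / (e.S.prod ^ 2 : ℕ)) (l + 1)) :
    b.An e.S c (fun g => (ε g).val) l := fun R tv => by
  by_contra k
  refine h R ⟨tv.1, fun g hg => ?_, fun r hr r' hr' m => ?_⟩ fun i hi =>
    not_not.1 fun z => k ⟨i, Nat.lt_succ_iff.1 hi, z⟩
  · obtain ⟨r, ⟨h1, h2⟩, -⟩ := tv.2 g hg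
    exact ⟨r, h1, by simpa using inv_mem h2⟩
  · exact (tv.2 r (tv.1 r hr)).unique ⟨hr, by simpa using one_mem _⟩ ⟨hr', m⟩

end Vale.Agent.P004R
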