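import Vale.Agent.P004R.St
import Vale.Agent.P004R.Gl

/-!
# P004R: elementary properties of a layer
-/

set_option autoImplicit false
set_option linter.all false

open NumberField Module IsDedekindDomain
open scoped Pointwise

noncomputable section

namespace Vale.Agent.P004R

open Vale.Agent.P022 Vale.Agent.P022.H916 P004K Gl
open Vale.Agent.P027M.S (Inert)
open Vale.Agent.P022D.W (dec)
open Vale.Agent.P022E.GW (Ov Fb)

variable {K : Type} [Field K] [NumberField K] {j : K →+* Qb} {c M : ℕ} {e : GQ → ZMod (2 * M)}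
  {P : Ideal (𝓞 Qb)} {g t : GQ}

theorem Ly.M0 (h : Ly j c M e) : 0 < M := by
  obtain ⟨m, rfl⟩ := h.pow
  positivity

theorem Ly.c0 (h : Ly j c M e) : 0 < c := Nat.pos_of_ne_zero h.sq.ne_zero

theorem Ly.one (h : Ly j c M e) : e 1 = 0 := h.ker 1 (one_mem _)

theorem Ly.inv (h : Ly j c M e) (m : g ∈ GK j) : e g⁻¹ = -e g := by
  have := h.add _ (inv_mem m) _ m
  rw [inv_mul_cancel, h.one] at this
  exact eq_neg_of_add_eq_zero_left this.symm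

theorem Ly.epow (h : Ly j c M e) (m : g ∈ GK j) (i : ℕ) : e (g ^ i) = i * e g := by
  induction i with
  | zero => rw [pow_zero, h.one, Nat.cast_zero, zero_mul]
  | succ i ih => rw [pow_succ, h.add _ (pow_mem m i) _ m, ih, Nat.cast_succ, add_mul, one_mul]

theorem Ly.cj (h : Ly j c M e) (m : g ∈ GK j) (m' : t ∈ GK j) : e (g * t * g⁻¹) = e t := by
  rw [h.add _ (mul_mem m m') _ (inv_mem m), h.add _ m _ m', h.inv m]
  ring

theorem Ly.cj' (h : Ly j c M e) (r : RC1) (m : g ∉ GK j) (m' : t ∈ GK j) :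
    g * t * g⁻¹ ∈ GK j ∧ e (g * t * g⁻¹) = -e t := by
  have a := (r K j h.iq c h.c0).2.2.2.2.1 g m t m'
  have b : g * t * g⁻¹ ∈ GK j := by simpa using (GK j).mul_mem a.1 (inv_mem m')
  have d := h.ker _ a
  rw [h.add _ b _ m'] at d
  exact ⟨b, eq_neg_of_add_eq_zero_left d⟩

theorem Ly.nor (h : Ly j c M e) (r : RC1) {U : Subgroup GQ} {a : ZMod (2 * M)}
    (hU : ∀ g, g ∈ U ↔ g ∈ GK j ∧ a * e g = 0) : U.Normal := ⟨fun t ht g => by
  obtain ⟨m, z⟩ := (hU t).1 ht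
  rw [hU]
  by_cases k : g ∈ GK j
  · exact ⟨mul_mem (mul_mem k m) (inv_mem k), by rw [h.cj k m, z]⟩
  · exact ⟨(h.cj' r k m).1, by rw [(h.cj' r k m).2, mul_neg, z, neg_zero]⟩⟩

theorem Ly.nor' (h : Ly j c M e) {U : Subgroup GQ} {a : ZMod (2 * M)}
    (hU : ∀ g, g ∈ U ↔ g ∈ GK j ∧ a * e g = 0) : ∀ g ∈ GK j, ∀ u ∈ U, g * u * g⁻¹ ∈ U :=
  fun g k t ht => by
  obtain ⟨m, z⟩ := (hU t).1 ht
  exact (hU _).2 ⟨mul_mem (mul_mem k m) (inv_mem k), by rw [h.cj k m, z]⟩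

theorem inert_dec (hP : P.IsPrime) (h : Inert P t) : t ∈ dec P :=
  mem_of_frob hP one_ne_zero fun x => by rw [pow_one]; exact h x

/-- ramified primes -/
theorem Ly.tot (h : Ly j c M e) (hP : P.IsPrime) (m : (c : 𝓞 Qb) ∈ P) :
    ∃ t ∈ GK j, Inert P t ∧ e t = 1 := by
  rw [← Nat.prod_primeFactors_of_squarefree h.sq, Nat.cast_prod] at m
  obtain ⟨q, hq, a⟩ := Ideal.IsPrime.prod_mem_iff.1 m
  obtain ⟨-, b, t, d, f⟩ := h.ram q P ⟨Nat.prime_of_mem_primeFactors hq, hP, a⟩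
    (Nat.dvd_of_mem_primeFactors hq)
  exact ⟨t, b (inert_dec hP d), d, f⟩

theorem Ly.ex_t (h : Ly j c M e) : ∃ t ∈ GK j, e t = 1 := by
  obtain ⟨q, q', a, -, -, b⟩ := h.two
  obtain ⟨P, hP, m⟩ := exists_prime a
  obtain ⟨k, rfl⟩ := (dvd_mul_right q q').trans b
  obtain ⟨t, d, -, f⟩ := h.tot hP (by rw [Nat.cast_mul]; exact P.mul_mem_right _ m)
  exact ⟨t, d, f⟩

theorem cop_top (c : ℕ) : Cop c (⊤ : Ideal (𝓞 K)) := ⟨top_ne_bot, top_sup_eq _⟩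

/-- unramified primes -/
theorem Ly.unr (h : Ly j c M e) (r : RC2) (hP : P.IsPrime) (h0 : P ≠ ⊥) (m : (c : 𝓞 Qb) ∉ P)
    (k : g ∈ GK j) (i : Inert P g) : e g = 0 := by
  obtain ⟨-, -, -, -, a, -, b⟩ := r K j h.iq c h.c0
  have d := b P hP h0 m g k 0 fun x => by rw [pow_zero, pow_one]; exact i x
  rw [pow_zero, Ideal.one_eq_top] at d
  exact h.ker g ((a _ g (cop_top c) d).2 ⟨1, 0, by simp⟩)

/-- the powers of a generator -/
theorem Ly.gen (h : Ly j c M e) (m : t ∈ GK j) (u : IsUnit (e t)) (k : g ∈ GK j) :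
    ∃ i : ℕ, e (g⁻¹ * t ^ i) = 0 := by
  have : NeZero (2 * M) := ⟨by have := h.M0; omega⟩
  obtain ⟨b, hb⟩ := u.exists_left_inv
  refine ⟨(e g * b).val, ?_⟩
  rw [h.add _ (inv_mem k) _ (pow_mem m _), h.inv k, h.epow m, ZMod.natCast_zmod_val, mul_assoc, hb]
  ring

theorem Ly.dvd (h : Ly j c M e) (m : t ∈ GK j) (u : IsUnit (e t)) (i : ℕ) :
    (e (t ^ i) = 0 ↔ 2 * M ∣ i) ∧ (2 * e (t ^ i) = 0 ↔ M ∣ i) := by
  rw [h.epow m, ← mul_assoc, u.mul_left_eq_zero, u.mul_left_eq_zero, ZMod.natCast_eq_zero_iff,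
    show (2 : ZMod (2 * M)) * i = (2 * i : ℕ) by push_cast; rfl, ZMod.natCast_eq_zero_iff]
  exact ⟨Iff.rfl, Nat.mul_dvd_mul_iff_left two_pos⟩

/-- the dictionary for a field of the layer -/
theorem Ly.dict (h : Ly j c M e) {L : Type} [Field L] [NumberField L] {jL : L →+* Qb}
    {a : ZMod (2 * M)} {n : ℕ} (hU : ∀ g, g ∈ GK jL ↔ g ∈ GK j ∧ a * e g = 0)
    (hn : ∀ t ∈ GK j, IsUnit (e t) → ∀ i, a * e (t ^ i) = 0 ↔ n ∣ i) :
    ∃ (_ : Algebra K L) (_ : IsGalois K L) (ρ : GK j →* (L ≃ₐ[K] L)), Dict j jL ρ ∧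
      Nat.card (L ≃ₐ[K] L) = n ∧
      ∀ t : GK j, IsUnit (e t) → ∀ τ, τ ∈ Submonoid.powers (ρ t) := by
  obtain ⟨ι, hι⟩ := ex_hom (j := j) (jL := jL) fun g m => ((hU g).1 m).1
  let _ := ι.toAlgebra
  obtain ⟨G, ρ, D⟩ := ex_dict (j := j) (jL := jL) hι (h.nor' hU)
  have k := fun t (m : t ∈ GK j) (u : IsUnit (e t)) => card_eq D m (n := n)
    (fun i => by rw [hU, hn t m u, and_iff_right (pow_mem m i)]) fun g k => by
      obtain ⟨i, hi⟩ := h.gen m u k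
      exact ⟨i, (hU _).2 ⟨mul_mem (inv_mem k) (pow_mem m i), by rw [hi, mul_zero]⟩⟩
  obtain ⟨t, m, u⟩ := h.ex_t
  exact ⟨_, G, ρ, D, (k t m (u ▸ isUnit_one)).2, fun t u => (k t t.2 u).1⟩

end Vale.Agent.P004R
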