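import Vale.Agent.P004Z.EF.Gen
import Vale.Agent.P004F.Qx.St

/-! # P004R, row QF, part 0: the expansion of `∑ 1 / j (k² τ)` modulo two -/

set_option autoImplicit false
set_option linter.all false

open UpperHalfPlane CongruenceSubgroup ModularForm PowerSeries
open scoped MatrixGroups Classical

noncomputable section

namespace Vale.Agent.P004R.Qf

open Vale.Agent.P022 Vale.Agent.P022.H218.L3 Vale.Agent.P022.H231.L3 Vale.Agent.P022.H236.L3
  Vale.Agent.P022.H542.L3 Vale.Agent.P027M.M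
open P004Z.EF (Val jN)
open H790.A (DZ E4Z)

section val

variable {τ : ℍ} {x y : Mer} {c c' : ℂ}

theorem val_add (h : Val τ x c) (h' : Val τ y c') : Val τ (x + y) (c + c') := by
  obtain ⟨g, k, hk, e, v⟩ := h
  obtain ⟨g', k', hk', e', v'⟩ := h'
  refine ⟨g * k' + g' * k, k * k', mul_ne_zero hk hk', ?_, ?_⟩
  · rw [map_mul, map_add, map_mul, map_mul, ← e, ← e']
    ring
  · show g.1 τ * k'.1 τ + g'.1 τ * k.1 τ = (c + c') * (k.1 τ * k'.1 τ)
    rw [v, v']
    ring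

theorem val_mul (h : Val τ x c) (h' : Val τ y c') : Val τ (x * y) (c * c') := by
  obtain ⟨g, k, hk, e, v⟩ := h
  obtain ⟨g', k', hk', e', v'⟩ := h'
  refine ⟨g * g', k * k', mul_ne_zero hk hk', ?_, ?_⟩
  · rw [map_mul, map_mul, ← e, ← e']
    ring
  · show g.1 τ * g'.1 τ = (c * c') * (k.1 τ * k'.1 τ)
    rw [v, v']
    ring

theorem val_uniq (h : Val τ x c) (h' : Val τ x c') : c = c' := by
  obtain ⟨g, k, hk, e, v⟩ := h
  obtain ⟨g', k', hk', e', v'⟩ := h'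
  have h1 : g * k' = g' * k := IsFractionRing.injective Hol Mer (by
    rw [map_mul, map_mul, ← e, ← e']
    ring)
  have h2 : g.1 τ * k'.1 τ = g'.1 τ * k.1 τ := congrFun (congrArg Subtype.val h1) τ
  rw [v, v'] at h2
  exact mul_right_cancel₀ (mul_ne_zero hk hk') (by linear_combination h2)

theorem val_inc (τ : ℍ) {f : ℍ → ℂ} (hf : f ∈ Hol) : Val τ (inc f hf) (f τ) :=
  ⟨⟨f, hf⟩, 1, one_ne_zero, by rw [map_one, mul_one]; rfl, (mul_one _).symm⟩

theorem val_const (τ : ℍ) (c : ℂ) : Val τ (algebraMap ℂ Mer c) c := by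
  rw [← inc_const]
  exact val_inc τ _

theorem val_sum {ι : Type} (s : Finset ι) {x : ι → Mer} {c : ι → ℂ}
    (h : ∀ i ∈ s, Val τ (x i) (c i)) : Val τ (∑ i ∈ s, x i) (∑ i ∈ s, c i) := by
  induction s using Finset.induction_on with
  | empty => simpa using val_const τ 0
  | insert a s ha ih =>
    rw [Finset.sum_insert ha, Finset.sum_insert ha]
    exact val_add (h a (Finset.mem_insert_self _ _))
      (ih fun i hi => h i (Finset.mem_insert_of_mem hi))

theorem val_inv (hx : x ≠ 0) (h : Val τ x c) (h' : Val τ x⁻¹ c') : c ≠ 0 ∧ c' = c⁻¹ := by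
  have h1 := val_mul h h'
  rw [mul_inv_cancel₀ hx] at h1
  have h2 : c * c' = 1 := val_uniq h1 (by simpa using val_const τ 1)
  exact ⟨left_ne_zero_of_mul_eq_one h2, (inv_eq_of_mul_eq_one_right h2).symm⟩

theorem val_jN {N : ℕ} (hN : 0 < N) {τ τ' : ℍ} (h : (τ' : ℂ) = N * τ) :
    Val τ (jN N hN) (jf τ') := by
  have e : gl !![(N : ℤ), 0; 0, 1] (diag_pos hN) • τ = τ' :=
    UpperHalfPlane.ext ((dg_coe hN τ).trans h.symm)
  rw [jN, pbz, jM, pb_inc, ← e]
  exact val_inc τ _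

theorem jN_ne {N : ℕ} (hN : 0 < N) : jN N hN ≠ 0 := by
  rw [jN, map_ne_zero]
  simpa using jM_ne_const 0

end val

theorem ls_zero_eq (F : PowerSeries ℂ) : ls 0 F = HahnSeries.ofPowerSeries ℤ ℂ F := by
  rw [ls]
  exact one_mul _

/-- `1 / j` is `Δ` modulo two -/
theorem ex_inv : ∃ W : PowerSeries ℤ, H790.A.red W = H790.A.D ∧ ExM 1 (ls 0 (toCi W)) jM⁻¹ := by
  have hD : ExL 1 (ls 0 (toCi DZ)) discriminant := by
    have e : qExpansion 1 (discriminant : ℍ → ℂ) = toCi DZ := H790.A.qExp_disc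
    have := isMF_exL (N := 1) one_ne_zero (Subgroup.mem_top _) isMF_disc
    rwa [Nat.cast_one, e, ← ls_zero_eq] at this
  have hE : E4i = E4Z := PowerSeries.map_injective (Int.castRingHom ℂ) Int.cast_injective
    (qExp_E4i.symm.trans H790.A.qExp_E4)
  have n0 : ls 0 (toCi DZ) ≠ 0 := hD.ne_zero isMF_disc.hol disc_ne
  have hu : IsUnit (constantCoeff (E4i ^ 3)) := by rw [map_pow]; exact E4i_unit.pow 3
  obtain ⟨W, hW⟩ := div_ls DZ (E4i ^ 3) 0 0 hu
  have h3 : ls 0 (toCi E4i) ^ 3 = ls 0 (toCi (E4i ^ 3)) := by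
    rw [pow_three, ls_mul, ls_mul, pow_three]
    simp only [toCi, map_mul, add_zero]
  have h4 : ExM 1 (ls 0 (toCi (E4i ^ 3)) / ls 0 (toCi DZ)) jM := by
    refine ExL.exM_inc _ ?_
    have := (exL_E4_one.pow 3).div one_ne_zero hD n0
    rwa [h3] at this
  have n1 : ls 0 (toCi (E4i ^ 3)) ≠ 0 := by
    rw [← h3]
    exact pow_ne_zero _ (exL_E4_one.ne_zero isMF_E4.hol E4_ne)
  refine ⟨W, ?_, ?_⟩
  · rw [div_eq_iff n1, ls_mul] at hW
    have h5 : DZ = W * E4i ^ 3 := PowerSeries.map_injective (Int.castRingHom ℂ) Int.cast_injective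
      (by rw [map_mul]; exact ls_inj (m := 0) hW)
    rw [← H790.A.red_DZ, h5, map_mul, map_pow, hE, H790.A.red_E4Z, one_pow, mul_one]
  · have := h4.inv one_ne_zero
    rwa [inv_div, hW, sub_zero] at this

/-- the odd squares prime to `R` -/
def Os (R n : ℕ) : Prop := ∃ a : ℕ, Odd a ∧ a.Coprime R ∧ n = a ^ 2

/-- the parity of the number of divisors of a squarefree number -/
theorem card_sf {g : ℕ} (hg : Squarefree g) :
    ((g.divisors.card : ℕ) : ZMod 2) = if g = 1 then 1 else 0 := by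
  rw [H790.A.card_div hg.ne_zero]
  refine if_congr ⟨fun ⟨a, ha⟩ => ?_, fun h => h ▸ IsSquare.one⟩ rfl rfl
  have : a = 1 := Nat.isUnit_iff.1 (hg a ha.symm.dvd)
  rw [ha, this]

/-- the depletion, modulo two -/
theorem dep_sum {R : ℕ} (hR : Squarefree R) (ho : Odd R) (n : ℕ) :
    ∑ k ∈ R.divisors, (if k ^ 2 ∣ n then coeff (n / k ^ 2) H790.A.D else 0) =
      if Os R n then 1 else 0 := by
  by_cases h : ∃ m : ℕ, Odd m ∧ n = m ^ 2
  · obtain ⟨m, hm, rfl⟩ := h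
    have m0 : m ≠ 0 := by rintro rfl; simp at hm
    have e1 : ∀ k ∈ R.divisors, (if k ^ 2 ∣ m ^ 2 then coeff (m ^ 2 / k ^ 2) H790.A.D else 0) =
        if k ∣ m then (1 : ZMod 2) else 0 := fun k hk => by
      refine if_ctx_congr (Nat.pow_dvd_pow_iff two_ne_zero) (fun h => ?_) fun _ => rfl
      obtain ⟨a, rfl⟩ := h
      have k0 : 0 < k := Nat.pos_of_mem_divisors hk
      rw [mul_pow, Nat.mul_div_cancel_left _ (pow_pos k0 2), H790.A.D, coeff_mk,
        if_pos ⟨a, (Nat.odd_mul.1 hm).2, rfl⟩]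
    have e2 : R.divisors.filter (· ∣ m) = (Nat.gcd m R).divisors := by
      ext k
      simp only [Finset.mem_filter, Nat.mem_divisors, Nat.dvd_gcd_iff]
      exact ⟨fun h => ⟨⟨h.2, h.1.1⟩, (Nat.gcd_pos_of_pos_left _ (Nat.pos_of_ne_zero m0)).ne'⟩,
        fun h => ⟨⟨h.1.2, hR.ne_zero⟩, h.1.1⟩⟩
    rw [Finset.sum_congr rfl e1, ← Finset.sum_filter, Finset.sum_const, nsmul_eq_mul, mul_one, e2,
      card_sf (hR.squarefree_of_dvd (Nat.gcd_dvd_right m R))]
    refine if_congr ⟨fun h => ⟨m, hm, h, rfl⟩, fun ⟨a, _, h, e⟩ => ?_⟩ rfl rfl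
    rw [Nat.pow_left_injective two_ne_zero e]
    exact h
  · rw [if_neg fun ⟨a, h1, _, h2⟩ => h ⟨a, h1, h2⟩]
    refine Finset.sum_eq_zero fun k hk => ?_
    split_ifs with h1
    · obtain ⟨l, rfl⟩ := h1
      have k0 : 0 < k := Nat.pos_of_mem_divisors hk
      rw [Nat.mul_div_cancel_left _ (pow_pos k0 2), H790.A.D, coeff_mk, if_neg]
      rintro ⟨a, ha, rfl⟩
      exact h ⟨k * a, (Odd.of_dvd_nat ho (Nat.dvd_of_mem_divisors hk)).mul ha, by ring⟩
    · rfl

/-- `1 / j (k τ)` -/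
def iN (k : ℕ) : Mer := if h : 0 < k then (jN k h)⁻¹ else 0

theorem jN_le {k M : ℕ} (hk : 0 < k) (h : k ∣ M) : jN k hk ∈ MF (Gamma0 M) := by
  refine MF_mono (fun γ hγ => ?_) (P004Z.EF.Gn.jN_mem hk)
  rw [Gamma0_mem, ZMod.intCast_zmod_eq_zero_iff_dvd] at hγ ⊢
  exact (Int.natCast_dvd_natCast.2 h).trans hγ

theorem iN_mem {k M : ℕ} (h : k ∣ M) : iN k ∈ MF (Gamma0 M) := by
  rw [iN]
  split_ifs with hk
  exacts [inv_mem (jN_le hk h), zero_mem _]

theorem ex_iN : ∃ W : PowerSeries ℤ, H790.A.red W = H790.A.D ∧ ∀ (k : ℕ) (hk : 0 < k),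
    ExM 1 (ls 0 (toCi (expand k hk.ne' W))) (iN k) := by
  obtain ⟨W, h1, h2⟩ := ex_inv
  refine ⟨W, h1, fun k hk => ?_⟩
  have h3 := h2.mulTau hk (pb_pbz _ (diag_pos hk)) (dg_coe hk)
  have e : expand k hk.ne' (toCi W) = toCi (expand k hk.ne' W) := by
    ext n
    simp only [coeff_expand, coeff_map]
    split_ifs <;> simp
  rw [sb_ls hk.ne' hk, mul_zero, e, map_inv₀] at h3
  rw [iN, dif_pos hk]
  exact h3

theorem exM_sum {ι : Type} (s : Finset ι) {X : ι → LS} {x : ι → Mer}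
    (h : ∀ i ∈ s, ExM 1 (X i) (x i)) : ExM 1 (∑ i ∈ s, X i) (∑ i ∈ s, x i) := by
  induction s using Finset.induction_on with
  | empty => simpa using ExM.const 1 0
  | insert a s ha ih =>
    rw [Finset.sum_insert ha, Finset.sum_insert ha]
    exact (h a (Finset.mem_insert_self _ _)).add (ih fun i hi => h i (Finset.mem_insert_of_mem hi))

/-- **the expansion of `∑ 1 / j (k² τ)`** -/
theorem ex_sum {R : ℕ} (hR : Squarefree R) (ho : Odd R) : ∃ W : PowerSeries ℤ,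
    ExM 1 (ls 0 (toCi W)) (∑ k ∈ R.divisors, iN (k ^ 2)) ∧
    ∀ n, ((coeff n W : ℤ) : ZMod 2) = if Os R n then 1 else 0 := by
  obtain ⟨W, h1, h2⟩ := ex_iN
  let F : ℕ → PowerSeries ℤ := fun k => if h : 0 < k ^ 2 then expand (k ^ 2) h.ne' W else 0
  have hp : ∀ k ∈ R.divisors, 0 < k ^ 2 := fun k hk => pow_pos (Nat.pos_of_mem_divisors hk) 2
  refine ⟨∑ k ∈ R.divisors, F k, ?_, fun n => ?_⟩
  · have e : ls 0 (toCi (∑ k ∈ R.divisors, F k)) = ∑ k ∈ R.divisors, ls 0 (toCi (F k)) := by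
      simp only [ls_zero_eq, toCi, map_sum]
    rw [e]
    refine exM_sum _ fun k hk => ?_
    simp only [F, dif_pos (hp k hk)]
    exact h2 _ (hp k hk)
  · rw [← dep_sum hR ho n, map_sum, Int.cast_sum]
    refine Finset.sum_congr rfl fun k hk => ?_
    simp only [F, dif_pos (hp k hk)]
    rw [coeff_expand, ← h1, H790.A.red, coeff_map]
    split_ifs <;> simp

end Vale.Agent.P004R.Qf
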