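import Vale.Agent.P004R.Qf0

/-! # P004R, row QF, part 1: the comparison at Heegner points -/

set_option autoImplicit false
set_option linter.all false

open UpperHalfPlane NumberField CongruenceSubgroup PowerSeries
open scoped MatrixGroups Classical

noncomputable section

namespace Vale.Agent.P004R.Qf

open Vale.Agent.P022 Vale.Agent.P022.H218.L3 Vale.Agent.P022.H231.L3 Vale.Agent.P022.H236.L3
  Vale.Agent.P022.H542.L3 P027H Vale.Agent.P027M.M P004K P004F.Qx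
open P004Z.EF (Val jN)

/-- the parity of the coefficients of an eigenform with even eigenvalues -/
theorem par_a {N R : ℕ} {a : ℕ → ℤ} (h1 : a 1 = 1) (te : P004N.TE N a fun n => (a n : ℂ))
    (h2 : 2 ∣ R) (hR : ∀ p : ℕ, p.Prime → ¬ p ∣ R → ¬ p ∣ N ∧ Even (a p)) (n : ℕ)
    (hn : n.Coprime R) : Odd (a n) ↔ IsSquare n := by
  have od : ∀ m : ℕ, m.Coprime R → Odd m := fun m hm =>
    Nat.coprime_two_right.1 (hm.coprime_dvd_right h2)
  induction n using Nat.strong_induction_on with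
  | _ n ih =>
    rcases eq_or_ne n 1 with rfl | n1
    · simp [h1]
    obtain ⟨p, hp, m, rfl⟩ := Nat.exists_prime_and_dvd n1
    have cp : p.Coprime R := Nat.Coprime.coprime_mul_right hn
    obtain ⟨k1, k2⟩ := hR p hp (hp.coprime_iff_not_dvd.1 cp)
    have e : a (p * m) + (if p ∣ m then (p : ℤ) * a (m / p) else 0) = a p * a m := by
      have := te p hp k1 m
      beta_reduce at this
      split_ifs at this ⊢ <;> exact_mod_cast this
    have e2 := k2.mul_right (a m)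
    rw [← e, Int.even_add'] at e2
    rw [e2]
    by_cases hm : p ∣ m
    · obtain ⟨l, rfl⟩ := hm
      have cl : l.Coprime R := (Nat.Coprime.coprime_mul_left hn).coprime_mul_left
      have l0 : 0 < l := (od l cl).pos
      have op : Odd (p : ℤ) := by exact_mod_cast od p cp
      rw [if_pos (dvd_mul_right p l), Nat.mul_div_cancel_left _ hp.pos, Int.odd_mul,
        and_iff_right op]
      refine (ih l ((Nat.le_mul_of_pos_left l hp.pos).trans_lt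
        (lt_mul_of_one_lt_left (Nat.mul_pos hp.pos l0) hp.one_lt)) cl).trans
        ⟨fun ⟨b, b3⟩ => ⟨p * b, by rw [b3]; ring⟩, fun ⟨b, b3⟩ => ?_⟩
      obtain ⟨c, rfl⟩ : p ∣ b := (hp.dvd_mul.1 (b3 ▸ dvd_mul_right p _)).elim id id
      exact ⟨c, Nat.eq_of_mul_eq_mul_left (Nat.mul_pos hp.pos hp.pos) (by linear_combination b3)⟩
    · rw [if_neg hm]
      refine iff_of_false (by simp) fun ⟨b, b3⟩ => ?_
      obtain ⟨c, rfl⟩ : p ∣ b := (hp.dvd_mul.1 (b3 ▸ dvd_mul_right p _)).elim id id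
      exact hm ⟨c ^ 2, Nat.eq_of_mul_eq_mul_left hp.pos (by linear_combination b3)⟩

section absval

variable {V : AbsoluteValue ℂ ℝ} {P : Ideal (𝓞 Qb)}

theorem v_int (hV : IsNonarchimedean V) (k : ℤ) : V k ≤ 1 :=
  hV.apply_intCast_le_one_of_isNonarchimedean

theorem v_two (hV : Vp V P) (hP : P.IsPrime) (h2 : (2 : 𝓞 Qb) ∈ P) : V 2 < 1 := by
  have := (hV.2 2).2.1 ⟨1, 2, fun h => hP.ne_top ((Ideal.eq_top_iff_one _).2 h), h2, by simp; rfl⟩
  rwa [map_ofNat] at this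

theorem v_odd (hV : IsNonarchimedean V) (h2 : V 2 < 1) {d : ℤ} (hd : Odd d) : V d = 1 := by
  obtain ⟨k, rfl⟩ := hd
  refine le_antisymm (v_int hV _) ?_
  by_contra h
  have h3 := hV ((2 * k + 1 : ℤ) : ℂ) (-(2 * k))
  have h4 : V (-(2 * (k : ℂ))) < 1 := by
    rw [V.map_neg, V.map_mul]
    nlinarith [v_int hV k, V.nonneg 2, V.nonneg k]
  rw [show ((2 * k + 1 : ℤ) : ℂ) + -(2 * k) = 1 by push_cast; ring, V.map_one] at h3
  exact absurd h3 (not_le.2 (max_lt (not_le.1 h) h4))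

end absval

/-- `Φ` holds at the conjugates of the Heegner points of all but finitely many fields -/
def Ae (P : Ideal (𝓞 Qb)) (M : ℕ) (Φ : ℍ → Prop) : Prop := ∃ T : ℕ, ∀ δ, T ≤ δ → Squarefree δ →
  ∀ (K : Type) [Field K] [NumberField K] (j : K →+* Qb), Iq K →
  ∀ (c : ℕ) (θ : 𝓞 K) (I I' : Ideal (𝓞 K)), θ ^ 2 = -(δ : 𝓞 K) → Sp M I I' → I ≤ below j P →
  (c : 𝓞 Qb) ∉ P → ∀ g ∈ GK j, ∀ σ τ τ', Ex σ g → Hp (JJ j) M I c τ → Cj0 σ M τ τ' → Φ τ'

section ae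

variable {P : Ideal (𝓞 Qb)} {M : ℕ} {Φ Ψ : ℍ → Prop}

theorem Ae.mono (h : Ae P M Φ) (k : ∀ τ, Φ τ → Ψ τ) : Ae P M Ψ := by
  obtain ⟨T, h⟩ := h
  exact ⟨T, fun δ h1 h2 K _ _ j h3 c θ I I' h4 h5 h6 h7 g h8 σ τ τ' h9 h10 h11 =>
    k _ (h δ h1 h2 K j h3 c θ I I' h4 h5 h6 h7 g h8 σ τ τ' h9 h10 h11)⟩

theorem Ae.and (h : Ae P M Φ) (h' : Ae P M Ψ) : Ae P M fun τ => Φ τ ∧ Ψ τ := by
  obtain ⟨T, h⟩ := h
  obtain ⟨T', h'⟩ := h'
  exact ⟨max T T', fun δ h1 h2 K _ _ j h3 c θ I I' h4 h5 h6 h7 g h8 σ τ τ' h9 h10 h11 =>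
    ⟨h δ (le_of_max_le_left h1) h2 K j h3 c θ I I' h4 h5 h6 h7 g h8 σ τ τ' h9 h10 h11,
      h' δ (le_of_max_le_right h1) h2 K j h3 c θ I I' h4 h5 h6 h7 g h8 σ τ τ' h9 h10 h11⟩⟩

theorem Ae.all {ι : Type} (s : Finset ι) {Φ : ι → ℍ → Prop} (h : ∀ i ∈ s, Ae P M (Φ i)) :
    Ae P M fun τ => ∀ i ∈ s, Φ i τ := by
  induction s using Finset.induction_on with
  | empty => exact ⟨0, by simp⟩
  | insert a s ha ih =>
    exact ((h a (Finset.mem_insert_self _ _)).and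
      (ih fun i hi => h i (Finset.mem_insert_of_mem hi))).mono fun τ k =>
      (Finset.forall_mem_insert _ _ _).2 k

end ae

theorem os_iff {R n : ℕ} : Os R n ↔ n.Coprime (2 * R) ∧ IsSquare n := by
  refine ⟨fun ⟨a, h1, h2, h3⟩ => ⟨?_, a, by rw [h3, sq]⟩, fun ⟨h, a, e⟩ => ?_⟩
  · rw [h3]
    exact ((Nat.coprime_two_right.2 h1).mul_right h2).pow_left 2
  · rw [e] at h
    exact ⟨a, Nat.coprime_two_right.1 h.coprime_mul_left.coprime_mul_right_right,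
      h.coprime_mul_left.coprime_mul_left_right, by rw [e, sq]⟩

/-- the coefficients of the two series agree modulo two -/
theorem coef {V : AbsoluteValue ℂ ℝ} (hV : IsNonarchimedean V) (h2 : V 2 < 1) {R : ℕ} {a : ℕ → ℤ}
    (ha : ∀ n : ℕ, n.Coprime (2 * R) → (Odd (a n) ↔ IsSquare n)) {s : LS}
    (hz : Zq 2 s) (hc : Cq 2 (dp (2 * R) a) s) {W : PowerSeries ℤ}
    (hW : ∀ n, ((coeff n W : ℤ) : ZMod 2) = if Os R n then 1 else 0) (n : ℤ) :
    V ((HahnSeries.C (2⁻¹ : ℂ) * (s + HahnSeries.C (-1 : ℂ) * ls 0 (toCi W))).coeff n) ≤ 1 := by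
  rw [HahnSeries.C_mul_eq_smul, HahnSeries.C_mul_eq_smul, HahnSeries.coeff_smul,
    HahnSeries.coeff_add, HahnSeries.coeff_smul, smul_eq_mul, smul_eq_mul]
  rcases lt_or_ge n 0 with h | h
  · rw [hz.1 n h, coeff_ls_of_lt _ _ h]
    simp
  obtain ⟨n, rfl⟩ := Int.eq_ofNat_of_zero_le h
  have e := coeff_ls 0 (toCi W) n
  rw [zero_add, coeff_map, eq_intCast] at e
  rw [e]
  obtain ⟨k, d, hd, e1⟩ := hc n
  have vd : V d = 1 := by
    simpa using v_odd hV h2 (d := d) (by exact_mod_cast Nat.not_even_iff_odd.1 fun h => hd h.two_dvd)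
  have d0 : (d : ℂ) ≠ 0 := fun h => by simp [h] at vd
  have vk : V (k / d) ≤ 1 := by rw [map_div₀, vd, div_one]; exact v_int hV k
  by_cases hn : n.Coprime (2 * R)
  · have on : Odd n := Nat.coprime_two_right.1 hn.coprime_mul_right_right
    have vn : V n = 1 := by simpa using v_odd hV h2 (d := n) (by exact_mod_cast on)
    have n0 : (n : ℂ) ≠ 0 := fun h => by simp [h] at vn
    obtain ⟨l, hl⟩ : Even (a n - n * coeff n W) := by
      rw [Int.even_sub', Int.odd_mul, and_iff_right (by exact_mod_cast on), ha n hn,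
        ← ZMod.intCast_eq_one_iff_odd, hW, os_iff, and_iff_right hn]
      simp
    have hl' : (a n : ℂ) - n * (coeff n W : ℤ) = l + l := by exact_mod_cast hl
    rw [dp, if_pos hn] at e1
    have e3 : 2⁻¹ * (s.coeff n + -1 * ((coeff n W : ℤ) : ℂ)) = k / d + l / n := by
      push_cast at e1
      field_simp at e1 ⊢
      linear_combination e1 + d * hl'
    rw [e3]
    exact (hV _ _).trans (max_le vk (by rw [map_div₀, vn, div_one]; exact v_int hV l))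
  · obtain ⟨l, hl⟩ : Even (coeff n W) := by
      rw [← ZMod.intCast_eq_zero_iff_even, hW, if_neg fun h => hn (os_iff.1 h).1]
    have hl' : ((coeff n W : ℤ) : ℂ) = l + l := by exact_mod_cast hl
    rw [dp, if_neg hn] at e1
    have e3 : 2⁻¹ * (s.coeff n + -1 * ((coeff n W : ℤ) : ℂ)) = k / d + (-l : ℤ) := by
      push_cast at e1 ⊢
      field_simp
      linear_combination e1 - d * hl'
    rw [e3]
    exact (hV _ _).trans (max_le vk (v_int hV _))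

/-- **the comparison** -/
theorem cmp (mpc : MPC) {V : AbsoluteValue ℂ ℝ} {P : Ideal (𝓞 Qb)} {M R : ℕ} (hP : P.IsPrime)
    (h2 : (2 : 𝓞 Qb) ∈ P) (hV : Vp V P) (hM : 0 < M) (hR : Squarefree R) (ho : Odd R)
    (hd : R ^ 2 ∣ M) {a : ℕ → ℤ}
    (ha : ∀ n : ℕ, n.Coprime (2 * R) → (Odd (a n) ↔ IsSquare n))
    {u : Mer} (hu : u ∈ MF (Gamma0 M)) {s : LS} (hs : ExM 1 s u) (hz : Zq 2 s)
    (hc : Cq 2 (dp (2 * R) a) s) :
    Ae P M fun τ => ∀ y, Val τ u y → ∀ t : ℕ → ℍ, (∀ k ∈ R.divisors, (t k : ℂ) = k ^ 2 * τ) →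
      (∀ k ∈ R.divisors, 1 ≤ V (jf (t k))) ∧
        V (y - ∑ k ∈ R.divisors, (jf (t k))⁻¹) ≤ V 2 := by
  have P0 : P ≠ ⊥ := fun h => by
    rw [h, Ideal.mem_bot] at h2
    exact two_ne_zero h2
  have v2 := v_two hV hP h2
  have hp : ∀ k ∈ R.divisors, 0 < k ^ 2 := fun k hk => pow_pos (Nat.pos_of_mem_divisors hk) 2
  have hm : ∀ k ∈ R.divisors, iN (k ^ 2) ∈ MF (Gamma0 M) := fun k hk =>
    iN_mem ((pow_dvd_pow_of_dvd (Nat.dvd_of_mem_divisors hk) 2).trans hd)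
  obtain ⟨W, hW1, hW2⟩ := ex_sum hR ho
  obtain ⟨W0, -, hW0⟩ := ex_iN
  have a1 : Ae P M fun τ => ∀ k ∈ R.divisors, ∃ c, V c ≤ 1 ∧ Val τ (iN (k ^ 2)) c :=
    Ae.all _ fun k hk => mpc V P M hP P0 hV hM _ (hm k hk) _ (hW0 _ (hp k hk)) fun n => by
      obtain ⟨z, hz⟩ := coeff_ls_int (expand (k ^ 2) (hp k hk).ne' W0) 0 n
      rw [hz]
      exact v_int hV.1 z
  have a2 : Ae P M fun τ => ∃ c, V c ≤ 1 ∧ Val τ (algebraMap ℂ Mer 2⁻¹ *
      (u + algebraMap ℂ Mer (-1) * ∑ k ∈ R.divisors, iN (k ^ 2))) c :=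
    mpc V P M hP P0 hV hM _ (mul_mem (algebraMap_mem _ _) (add_mem hu (mul_mem (algebraMap_mem _ _)
      (sum_mem hm)))) _ ((ExM.const 1 _).mul (hs.add ((ExM.const 1 _).mul hW1)))
      (coef hV.1 v2 ha hz hc hW2)
  refine (a1.and a2).mono fun τ ⟨b1, c, c1, c2⟩ y hy t ht => ?_
  have b2 : ∀ k ∈ R.divisors, 1 ≤ V (jf (t k)) ∧ Val τ (iN (k ^ 2)) (jf (t k))⁻¹ := fun k hk => by
    obtain ⟨e, e1, e2⟩ := b1 k hk
    have e3 := e2
    rw [iN, dif_pos (hp k hk)] at e3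
    obtain ⟨e4, rfl⟩ := val_inv (jN_ne _) (val_jN (hp k hk) (by rw [ht k hk]; simp)) e3
    rw [map_inv₀] at e1
    exact ⟨(inv_le_one₀ (V.pos e4)).1 e1, e2⟩
  refine ⟨fun k hk => (b2 k hk).1, ?_⟩
  have e := val_uniq c2 (val_mul (val_const τ _) (val_add hy (val_mul (val_const τ _)
    (val_sum _ fun k hk => (b2 k hk).2))))
  rw [show y - ∑ k ∈ R.divisors, (jf (t k))⁻¹ = 2 * c by rw [e]; ring, V.map_mul]
  exact mul_le_of_le_one_right (V.nonneg _) c1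

end Vale.Agent.P004R.Qf
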