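import Vale.Agent.P004R.Twr0

/-!
# P004R: the tower
-/

set_option autoImplicit false

open NumberField IsDedekindDomain
open scoped NumberTheorySymbols Pointwise

noncomputable section

namespace Vale.Agent.P004R

open Vale.Agent.P022 (Qb GQ GK below IsConj IsFrob)
open P004K
open Vale.Agent.P027M.S (Inert)
open Vale.Agent.P022D.W (dec)
open Vale.Agent.P022E.GW (Ov Fb)
open Vale.Agent.P004S Cb

namespace Wr

variable {K : Type} [Field K] [NumberField K] {j : K →+* Qb}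

/-- the group which fixes the square roots of the elements of `X` -/
def Kx (X : Finset ℕ) : Subgroup GQ := ⨅ x ∈ X, kn (x : ℤ)

theorem mem_kx {X : Finset ℕ} {g : GQ} : g ∈ Kx X ↔ ∀ x ∈ X, nu x g = 0 := by
  simp only [Kx, Subgroup.mem_iInf, mem_kn]

theorem kx_open (X : Finset ℕ) : IsOpen (Kx X : Set GQ) := by
  simp only [Kx, Subgroup.coe_iInf]
  exact isOpen_biInter_finset fun x _ => kn_open _

/-- the classes of the Frobenius elements -/
theorem elems {d₁ d₂ k n : ℕ} (hK : Kd j (d₁ * d₂)) {A : Finset K} {X S : Finset ℕ}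
    (hX : ∀ x ∈ X, x.Prime ∧ x ≠ 2) (hδ : (d₁ * d₂).primeFactors ⊆ X)
    (hS : ∀ p ∈ X, p ∈ S → ¬ p ∣ d₁ * d₂ ∧ ∀ P, Ov p P → ∀ g, Inert P g → g ∈ Fg j A n)
    {α β : Fin (k + 1) → ℕ} (hαβ : ∀ i, α i ∈ d₁.primeFactors ∧ β i ∈ d₂.primeFactors)
    (hgs : ∀ x ∈ (d₁ * d₂).primeFactors,
      (-1) ^ (Finset.univ.filter fun i => α i = x ∨ β i = x).card = gs d₁ d₂ x)
    {g₀ : GQ} (h0 : g₀ ∈ Fg j A n) (hg : ∀ x ∈ X, (nu x g₀ = 0 ↔ gs d₁ d₂ x = 1)) :
    ∃ g : Fin (k + 1) → GQ, (∀ i, g i ∈ GK j ∧ Fx {1} (2 ^ (n + 3)) (g i)) ∧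
      (List.ofFn g).prod ∈ Fg j A n ∧
      (∀ x ∈ (d₁ * d₂).primeFactors, ∀ i, sh x (g i) = if α i = x ∨ β i = x then -1 else 1) ∧
      ∀ x ∈ X, ¬ x ∣ d₁ * d₂ → ∏ i, sh x (g i) = J(d₁ | x) * if x ∈ S then -1 else 1 := by
  classical
  have δ0 : d₁ * d₂ ≠ 0 := hK.sq.ne_zero
  obtain ⟨τ, t1, t2⟩ := ex_nu X hX (Fg j A n) (fun x => if x ∈ S then 1 else 0)
    fun x hx e => (hS x hx (by simpa using e)).2
  have sq : Squarefree (-((d₁ * d₂ : ℕ) : ℤ)) :=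
    Int.squarefree_natAbs.1 (by simpa only [Int.natAbs_neg, Int.natAbs_natCast] using hK.sq)
  have H : ∀ i : Fin k, ∃ t ∈ GK j ⊓ fxg {1} (2 ^ (n + 3)), ∀ x : ℕ, x.Prime →
      sh x t = if α i.succ = x ∨ β i.succ = x then -1 else 1 := fun i => by
    obtain ⟨a, b⟩ := hαβ i.succ
    rw [Nat.mem_primeFactors] at a b
    have a' : α i.succ ∣ d₁ * d₂ := a.2.1.mul_right _
    have b' : β i.succ ∣ d₁ * d₂ := b.2.1.mul_left _
    obtain ⟨u, u1, u2, u3⟩ := ex_tau a.1 (hX _ (hδ (Nat.mem_primeFactors.2 ⟨a.1, a', δ0⟩))).2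
    obtain ⟨v, v1, v2, v3⟩ := ex_tau b.1 (hX _ (hδ (Nat.mem_primeFactors.2 ⟨b.1, b', δ0⟩))).2
    refine ⟨u * v, ⟨(hK.gk _).2 ?_, (fxg _ _).mul_mem (u1 _) (v1 _)⟩, fun x hx => ?_⟩
    · rw [nu_mul, u2 _ sq (dvd_neg.2 (by exact_mod_cast a')),
        v2 _ sq (dvd_neg.2 (by exact_mod_cast b'))]
      rfl
    · have ne : α i.succ ≠ β i.succ := fun e => a.1.prime.not_isUnit
        (hK.sq _ (mul_dvd_mul a.2.1 (e ▸ b.2.1)))
      rw [map_mul, u3 x hx, v3 x hx]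
      by_cases p : α i.succ = x
      · simp [p, show β i.succ ≠ x from fun e => ne (p.trans e.symm)]
      · simp [p]
  choose t ht hs using H
  have tm : (List.ofFn t).prod ∈ GK j ⊓ fxg {1} (2 ^ (n + 3)) :=
    Subgroup.list_prod_mem _ fun x hx => by
      obtain ⟨i, rfl⟩ := List.mem_ofFn.1 hx
      exact ht i
  have hG := (Fg j A n).mul_mem h0 t1
  have pr : (List.ofFn (Fin.cons (g₀ * τ * (List.ofFn t).prod⁻¹) t : Fin (k + 1) → GQ)).prod =
      g₀ * τ := by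
    simp only [List.ofFn_succ, List.prod_cons, Fin.cons_zero, Fin.cons_succ, inv_mul_cancel_right]
  have tot : ∀ x ∈ X, gs d₁ d₂ x = 1 ∨ gs d₁ d₂ x = -1 →
      ∏ i, sh x ((Fin.cons (g₀ * τ * (List.ofFn t).prod⁻¹) t : Fin (k + 1) → GQ) i) =
        gs d₁ d₂ x * if x ∈ S then -1 else 1 := fun x hx e => by
    rw [← sh_list, pr, map_mul]
    congr 1
    · rcases e with e | e
      · rw [e]; exact sh_kn ((hg x hx).2 e)
      · rw [e]
        exact sz_neg.2 ((z2 _).resolve_left fun k => by rw [(hg x hx).1 k] at e; omega)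
    · show sz _ = _
      rw [t2 x hx]
      split_ifs <;> rfl
  refine ⟨Fin.cons (g₀ * τ * (List.ofFn t).prod⁻¹) t, fun i => ?_, by rwa [pr], fun x hx i => ?_,
    fun x hx d => ?_⟩
  · induction i using Fin.cases with
    | zero => exact Subgroup.mul_mem (GK j ⊓ fxg {1} (2 ^ (n + 3))) hG.1 (inv_mem tm)
    | succ i => exact ht i
  · have px := Nat.prime_of_mem_primeFactors hx
    induction i using Fin.cases with
    | succ i => exact hs i x px
    | zero =>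
      have e := tot x (hδ hx) (hgs x hx ▸ neg_one_pow_eq_or ℤ _)
      rw [if_neg fun s => (hS x (hδ hx) s).1 (Nat.dvd_of_mem_primeFactors hx), mul_one, ← hgs x hx,
        ← Finset.prod_const, Finset.prod_filter, Fin.prod_univ_succ, Fin.prod_univ_succ] at e
      simp only [Fin.cons_succ, hs _ x px] at e
      exact mul_right_cancel₀ (Finset.prod_ne_zero_iff.2 fun i _ => by split_ifs <;> simp) e
  · have d1 : ¬ x ∣ d₁ := fun e => d (e.mul_right _)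
    have e : gs d₁ d₂ x = J(d₁ | x) := if_neg d1
    rw [← e]
    refine tot x hx ?_
    rw [e, ← mul_self_eq_one_iff]
    exact jac_sq (hX x hx).1 d1

/-- the primes -/
theorem primes (chb : CHB) {δ k n m : ℕ} (hK : Kd j δ) {A : Finset K} {X S : Finset ℕ}
    {U : ℕ → Subgroup GQ} {Gq : ℕ → GQ → Prop} (hN : Nq j S U Gq) (hS : S ⊆ insert 2 X)
    (hX : ∀ x ∈ X, x.Prime) (hF : UnS (insert 2 X) (Fg j A n)) {h : GQ}
    (h1 : h ∈ Fg j A n ⊓ Kx X) (hm : ∀ g, Fx {1} 4 g → ∃ k ≤ 2, Gq m (g * h ^ k))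
    (g : Fin k → GQ) (hg : ∀ i, Fx {1} 4 (g i)) (μ : Fin k → Fin k → Prop)
    (hμ : ∀ i i', μ i i' → μ i' i) :
    ∃ (q : Fin k → ℕ) (P : Fin k → Ideal (𝓞 Qb)) (φ : Fin k → GQ), Function.Injective q ∧
      ∀ i, q i ∉ insert 2 X ∧ Ov (q i) (P i) ∧ Fb (q i) (P i) (φ i) ∧
        (g i)⁻¹ * φ i ∈ Fg j A n ⊓ Kx X ∧ (∀ ψ, IsFrob (q i) ψ → Gq m ψ) ∧
        ∀ i', i' ≠ i → (J(q i | q i') = -1 ↔ μ i i') := by
  classical
  obtain ⟨o, nm, un⟩ := hN.opn m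
  choose e _ he using fun i => hm (g i) (hg i)
  have le := Subgroup.normalCore_le ((Fg j A n ⊓ Kx X) ⊓ U m)
  have uT : UnS (insert 2 X) (U m) := fun l P a b => un l P a fun c => b (hS c)
  obtain ⟨q, P, φ, hq, H⟩ := chb ((Fg j A n ⊓ Kx X) ⊓ U m).normalCore (insert 2 X)
    (core_open (((fg_open hK A n).inter (kx_open X)).inter o)) inferInstance
    (uns_core fun l P a b t ht => ⟨⟨hF l P a b t ht, mem_kx.2 fun x hx => by
      rw [Finset.mem_insert, not_or] at b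
      refine nu_inert a b.1 (fun d => b.2 ?_) ht
      rwa [(Nat.prime_dvd_prime_iff_eq a.1 (hX x hx)).1 (by exact_mod_cast d)]⟩, uT l P a b t ht⟩)
    (Finset.mem_insert_self _ _) (fun w hw => fx_four (le hw).1.1.1.2) k (fun i => g i * h ^ e i) μ
    (fun i => (fxg {1} 4).mul_mem (hg i) ((fxg {1} 4).pow_mem (fx_four h1.1.1.2) _)) hμ
  refine ⟨q, P, φ, hq, fun i => ?_⟩
  obtain ⟨a, b, c, d, f⟩ := H i
  refine ⟨a, b, c, ?_, fun ψ hψ => ?_, f⟩
  · simpa [mul_assoc] using mul_mem (pow_mem h1 (e i)) (le d).1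
  · obtain ⟨x, s, hs, rfl⟩ := fb_cj b c hψ
    have k1 := hN.stb m _ _ (le d).2 (he i)
    rw [mul_inv_cancel_left] at k1
    have k2 := hN.stb m _ _ (nm.conj_mem s (uT _ _ b a s hs) (φ i)⁻¹) k1
    exact hN.cj m _ x (by simpa [mul_assoc] using k2)

end Wr

open Wr in
theorem twr (r1 : RC1) (r2 : RC2) (ext : EXT) (ki : KI) (chb : CHB) (red : RED) : TWR := by
  classical
  intro K _ _ j d₁ d₂ S U Gq hK m1 hc S2 hS hN
  have m8 := hK.m8
  have m2 : d₂ % 8 = 3 := by rw [Nat.mul_mod, m1] at m8; omega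
  have δ0 : d₁ * d₂ ≠ 0 := hK.sq.ne_zero
  obtain ⟨A, B, hB, hA, E⟩ := ext K j _ hK (2 * (d₁ * d₂) * ∏ p ∈ S, p)
    (Nat.pos_of_ne_zero (mul_ne_zero (mul_ne_zero two_ne_zero δ0)
      (Finset.prod_ne_zero_iff.2 fun p hp => (hS p hp).1.ne_zero)))
  obtain ⟨k, α, β, hαβ, hgs, R⟩ := red d₁ d₂ hK.sq m1 m2 hc
  have cB : ∀ x : ℕ, x.Prime → ∀ b ∈ B, x ∣ b → x ≠ 2 ∧ ¬ x ∣ d₁ * d₂ ∧ x ∉ S := by
    intro x hx b hb d
    have c : ¬ x ∣ 2 * (d₁ * d₂) * ∏ p ∈ S, p :=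
      hx.coprime_iff_not_dvd.1 ((hB b hb).2.coprime_dvd_left d)
    exact ⟨fun e => c (e ▸ (dvd_mul_right _ _).mul_right _),
      fun e => c ((e.mul_left _).mul_right _), fun e => c ((Finset.dvd_prod_of_mem _ e).mul_left _)⟩
  have cS : ∀ p ∈ S, p ≠ 2 → ¬ p ∣ d₁ * d₂ := fun p hp p2 d => by
    have e := (hS p hp).2 p2
    have : NeZero p := ⟨(hS p hp).1.ne_zero⟩
    rw [jacobiSym.eq_zero_iff_not_coprime.2 fun c => (hS p hp).1.coprime_iff_not_dvd.1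
      (by simpa [Int.gcd, Int.natAbs_mul, Nat.coprime_comm] using c) d] at e
    exact zero_ne_one e
  obtain ⟨X, xδ, xS, xB, hX⟩ : ∃ X : Finset ℕ, (d₁ * d₂).primeFactors ⊆ X ∧ S ⊆ insert 2 X ∧
      (∀ x : ℕ, x.Prime → ∀ b ∈ B, x ∣ b → x ∈ X) ∧ ∀ x ∈ X, x.Prime ∧ x ≠ 2 := by
    refine ⟨(d₁ * d₂).primeFactors ∪ S.erase 2 ∪ B.biUnion Nat.primeFactors, fun x hx => ?_,
      fun x hx => ?_, fun x hx b hb d => ?_, fun x hx => ?_⟩
    · simp only [Finset.mem_union, hx, true_or]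
    · by_cases e : x = 2 <;> simp [e, hx]
    · exact Finset.mem_union_right _ (Finset.mem_biUnion.2
        ⟨b, hb, Nat.mem_primeFactors.2 ⟨hx, d, (hB b hb).1.ne'⟩⟩)
    · simp only [Finset.mem_union, Finset.mem_erase, Finset.mem_biUnion,
        Nat.mem_primeFactors] at hx
      rcases hx with (⟨a, b, -⟩ | ⟨a, b⟩) | ⟨b, hb, a, d, -⟩
      · exact ⟨a, fun e => by rw [e] at b; omega⟩
      · exact ⟨(hS x b).1, a⟩
      · exact ⟨a, (cB x a b hb d).1⟩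
  obtain ⟨h, hG, hF, m, hm⟩ := hN.ex (A ∪ X.image fun x : ℕ => (x : K)) fun e => by
    rcases Finset.mem_union.1 e with e | e
    · simpa using (hA 0 e).1
    · obtain ⟨x, hx, e⟩ := Finset.mem_image.1 e
      exact (hX x hx).1.ne_zero (by exact_mod_cast e)
  refine ⟨k + 1, m, fun n => ?_⟩
  obtain ⟨g₀, g1, g2, g3, g4⟩ := ki K j d₁ d₂ hK (by omega) A (fun a ha => ⟨(hA a ha).1,
    fun v hv => (hA a ha).2 v fun b hb c => by
      obtain ⟨u, w, e⟩ : IsCoprime (b : 𝓞 K) (2 : ℕ) := Nat.Coprime.cast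
        (((hB b hb).2.coprime_mul_right_right).coprime_mul_right_right)
      exact (Ideal.ne_top_iff_one _).1 v.isPrime.ne_top
        (e ▸ add_mem (Ideal.mul_mem_left _ _ c) (Ideal.mul_mem_left _ _ (by exact_mod_cast hv)))⟩)
    X hX n
  have iF := fun l P => @inert_fg l P K _ _ j _ hK A B (fun a ha => (hA a ha).2) n
  have out : ∀ l : ℕ, l.Prime → l ∉ insert 2 X → l ≠ 2 ∧ ¬ l ∣ d₁ * d₂ ∧ ∀ b ∈ B, ¬ l ∣ b := by
    intro l hl e
    rw [Finset.mem_insert, not_or] at e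
    exact ⟨e.1, fun d => e.2 (xδ (Nat.mem_primeFactors.2 ⟨hl, d, δ0⟩)),
      fun b hb d => e.2 (xB l hl b hb d)⟩
  obtain ⟨g, a1, a2, a3, a4⟩ := elems (S := S) hK hX xδ (fun p hp s =>
    ⟨cS p s (hX p hp).2, fun P o t ht => iF p P o (hX p hp).2 (cS p s (hX p hp).2)
      (fun b hb d => (cB p o.1 b hb d).2.2 s) ht⟩) hαβ hgs (g₀ := g₀) ⟨⟨g1, g2⟩, g3⟩ g4
  obtain ⟨q, P, φ, hq, H⟩ := primes chb (n := n) (A := A) hK hN xS (fun x hx => (hX x hx).1)
    (fun l P o e t ht => iF l P o (out l o.1 e).1 (out l o.1 e).2.1 (out l o.1 e).2.2 ht)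
    (h := h) ⟨⟨⟨hG, fun y hy => hF _ y (Or.inl hy)⟩, fun y ⟨a, ha, e⟩ => hF _ y
      (Or.inr ⟨a, by simp [Finset.mem_coe.1 ha], e⟩)⟩, mem_kx.2 fun x hx => by
      obtain ⟨w, hw⟩ := ex_sqrt (x : ℤ)
      exact (nu_eq_zero hw).2 (hF 1 w (Or.inr ⟨x, Finset.mem_coe.2 (Finset.mem_union_right _
        (Finset.mem_image_of_mem _ hx)), by simpa using hw.symm⟩))⟩ hm
    (Fin.cons 1 g : Fin (k + 2) → GQ) (fun i => by
      induction i using Fin.cases with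
      | zero => exact fun _ _ => rfl
      | succ i => exact fx_four (a1 i).2)
    (fun i i' => (i = 0 ∧ i' = Fin.succ 0) ∨ (i = Fin.succ 0 ∧ i' = 0)) fun i i' => by tauto
  have ov := fun i => (H i).2.1
  have pr := fun i => (ov i).1
  have oo := fun i => out _ (pr i) (H i).1
  have b1 : ∀ i, φ i ∈ GK j ⊓ fxg {1} (2 ^ (n + 3)) := fun i => by
    have : (Fin.cons 1 g : Fin (k + 2) → GQ) i ∈ GK j ⊓ fxg {1} (2 ^ (n + 3)) := by
      induction i using Fin.cases with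
      | zero => exact one_mem _
      | succ i => exact a1 i
    simpa using mul_mem this (H i).2.2.2.1.1.1
  have b2 : ∀ i, q i % 2 ^ (n + 3) = 1 := fun i => fx_mod (ov i) (oo i).1 (H i).2.2.1 (b1 i).2
  have b8 : ∀ i, q i % 8 = 1 := fun i => by
    rw [← Nat.mod_mod_of_dvd _ (show 8 ∣ 2 ^ (n + 3) from ⟨2 ^ n, by ring⟩), b2]
  have b3 : ∀ i Q, Ov (q i) Q → dec Q ≤ GK j := fun i Q o =>
    dec_gk hK (ov i) (oo i).1 (oo i).2.1 (H i).2.2.1 (b1 i).1 o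
  have b4 : ∀ x ∈ X, ∀ i, J(x | q i) = sh x ((Fin.cons 1 g : Fin (k + 2) → GQ) i) := by
    intro x hx i
    have w := mem_kx.1 (H i).2.2.2.1.2
    rw [jac (ov i) (oo i).1 (fun d => (H i).1 (Finset.mem_insert_of_mem (by
      rwa [(Nat.prime_dvd_prime_iff_eq (pr i) (hX x hx).1).1 (by exact_mod_cast d)]))) (H i).2.2.1]
    show sh x (φ i) = _
    rw [← mul_inv_cancel_left ((Fin.cons 1 g : Fin (k + 2) → GQ) i) (φ i), map_mul, sh_kn (w x hx),
      mul_one]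
  have b5 : ∀ x ∈ X, ∀ i, J(q i | x) = J(x | q i) := fun x hx i =>
    jacobiSym.quadratic_reciprocity_one_mod_four (by have := b8 i; omega)
      ((hX x hx).1.odd_of_ne_two (hX x hx).2)
  have b6 : ∀ x ∈ X, J(x | q 0) = 1 := fun x hx => by rw [b4 x hx, Fin.cons_zero, map_one]
  have b7 : ∀ i i', i' ≠ i → J(q i | q i') = 1 ∨ J(q i | q i') = -1 := fun i i' e =>
    jacobiSym.eq_one_or_neg_one (by
      simpa using (Nat.coprime_primes (pr i) (pr i')).2 fun c => e (hq c).symm)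
  have cond := fun i => (⟨ov i, b3 i _ (ov i), (H i).2.2.1, b2 i, (oo i).2.2⟩ :
    Ov (q i) (P i) ∧ dec (P i) ≤ GK j ∧ Fb (q i) (P i) (φ i) ∧ q i % 2 ^ (n + 3) = 1 ∧
      ∀ b ∈ B, ¬ q i ∣ b)
  have hq' : Function.Injective fun i : Fin (k + 1) => q i.succ := hq.comp (Fin.succ_injective _)
  obtain ⟨e₁, c1, c2, c3, c4⟩ := E n (k + 1) (fun i => q i.succ) (fun i => P i.succ)
    (fun i => φ i.succ) hq' (fun i => cond _) fun y hy => by
    have hR : ∀ i, ∀ y ∈ {y : Qb | y ^ 2 ^ (n + 2) ∈ j '' A}, g i y ∈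
        {y : Qb | y ^ 2 ^ (n + 2) ∈ j '' A} := fun i y ⟨a, ha, e⟩ =>
      ⟨a, ha, by rw [← map_pow, ← e]; exact ((a1 i).1 a).symm⟩
    rw [(prod_eq _ g (fun i => φ i.succ) hR (fun i y hy => ?_) y hy).1, a2.2 y hy]
    have w := (H i.succ).2.2.2.1.1.2 y hy
    rw [Fin.cons_succ, AlgEquiv.mul_apply] at w
    rw [← congrArg (g i) w, ← AlgEquiv.mul_apply, mul_inv_cancel, AlgEquiv.one_apply]
  obtain ⟨e₂, f1, f2, f3, f4⟩ := E n 1 (fun _ => q 0) (fun _ => P 0) (fun _ => φ 0)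
    (Function.injective_of_subsingleton _) (fun _ => cond 0)
    (by simpa [mem_fxg] using (H 0).2.2.2.1.1.2)
  simp only [Fin.prod_const, pow_one, forall_const] at f2 f3 f4
  have c0 : ∏ i : Fin (k + 1), q i.succ ≠ 0 := Finset.prod_ne_zero_iff.2 fun i _ => (pr _).ne_zero
  have all : (∏ i : Fin (k + 1), q i.succ) * q 0 = ∏ i, q i := by
    rw [Fin.prod_univ_succ q, mul_comm]
  have dv : ∀ x : ℕ, x.Prime → x ∣ (∏ i : Fin (k + 1), q i.succ) * q 0 → ∃ i, x = q i := by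
    intro x hx d
    rw [all] at d
    obtain ⟨i, -, d⟩ := (Nat.prime_iff.1 hx).exists_mem_finset_dvd d
    exact ⟨i, (Nat.prime_dvd_prime_iff_eq hx (pr i)).1 d⟩
  have n0 : ¬ q 0 ∣ ∏ i : Fin (k + 1), q i.succ := fun d => by
    obtain ⟨i, -, d⟩ := (Nat.prime_iff.1 (pr 0)).exists_mem_finset_dvd d
    exact Fin.succ_ne_zero i (hq ((Nat.prime_dvd_prime_iff_eq (pr 0) (pr _)).1 d)).symm
  have sq : Squarefree ((∏ i : Fin (k + 1), q i.succ) * q 0) := by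
    rw [all]
    exact Finset.squarefree_prod_of_pairwise_isCoprime (fun i _ i' _ e =>
      Nat.coprime_iff_isRelPrime.1 ((Nat.coprime_primes (pr i) (pr i')).2 fun c => e (hq c)))
      fun i _ => (pr i).prime.squarefree
  refine ⟨∏ i : Fin (k + 1), q i.succ, q 0, e₁, e₂, ⟨pr 0, ⟨hK.iq, hK.upm, ⟨n, rfl⟩, sq,
    ⟨q (Fin.succ 0), q 0, pr _, pr _, fun c => Fin.succ_ne_zero _ (hq c),
      mul_dvd_mul_right (Finset.dvd_prod_of_mem _ (Finset.mem_univ _)) _⟩, fun a ha b hb => ?_,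
    fun a ha => ?_, fun x Q o d => ?_⟩, ⟨?_, m1, m2, fun x hx d => ?_, S2, fun p hp => ?_, ?_⟩,
    fun a ha => ?_, f1, c2, f2, fun x hx d => ?_⟩, ?_, fun x hx d => ?_⟩
  · simp only [Pi.add_apply, c1 a ha b hb, f1 a ha b hb]
    abel
  · rw [Pi.add_apply, c2 a ((r1 K j hK.iq _ (Nat.pos_of_ne_zero c0)).2.2.2.2.2 _ (pr 0).pos ha),
      f2 a ((r1 K j hK.iq _ (pr 0).pos).2.2.2.2.2 _ (Nat.pos_of_ne_zero c0) (mul_comm (q 0) _ ▸ ha)),
      add_zero]
  · obtain ⟨i, rfl⟩ := dv x o.1 d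
    refine ⟨(oo i).1, b3 i Q o, ?_⟩
    induction i using Fin.cases with
    | zero =>
      obtain ⟨t, ht, e⟩ := f3 Q o
      exact ⟨t, ht, by
        rw [Pi.add_apply, e, c2 t (inert_hc r2 hK.iq o n0 (b3 _ Q o (inert_dec ht)) ht), zero_add]⟩
    | succ i =>
      obtain ⟨t, ht, e⟩ := c3 i Q o
      exact ⟨t, ht, by
        rw [Pi.add_apply, e, f2 t (inert_hc r2 hK.iq o (fun d => Fin.succ_ne_zero i (hq
          ((Nat.prime_dvd_prime_iff_eq (pr _) (pr 0)).1 d))) (b3 _ Q o (inert_dec ht)) ht), add_zero]⟩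
  · refine (Nat.squarefree_mul (Nat.coprime_of_dvd fun x hx a b => ?_)).2 ⟨hK.sq, sq⟩
    obtain ⟨i, rfl⟩ := dv x hx b
    exact (oo i).2.1 a
  · obtain ⟨i, rfl⟩ := dv x hx d
    exact b8 i
  · refine ⟨(hS p hp).1, fun p2 => ⟨?_, (hS p hp).2 p2⟩⟩
    have pX : p ∈ X := (Finset.mem_insert.1 (xS hp)).resolve_left p2
    have e := a4 p pX (cS p hp p2)
    rw [Nat.cast_mul, jacobiSym.mul_left, jacobiSym.mul_left, jac_left, b5 p pX, b6 p pX]
    simp only [b5 p pX, b4 p pX, Fin.cons_succ]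
    rw [e, if_pos hp, mul_one, ← mul_assoc,
      jac_sq (hS p hp).1 fun d => cS p hp p2 (d.mul_right _), one_mul]
  · refine R (q 0) _ hq' (pr 0) (b8 0) (fun i => ⟨pr _, b8 _, ?_, fun i' e => ?_⟩)
      fun x hx => ⟨by rw [b5 x (xδ hx), b6 x (xδ hx)], fun i => ?_⟩
    · have w := (H i.succ).2.2.2.2.2 0 (Fin.succ_ne_zero i).symm
      split_ifs with e
      · exact w.2 (Or.inr ⟨e ▸ rfl, rfl⟩)
      · exact (b7 _ _ (Fin.succ_ne_zero i).symm).resolve_right fun c => e (Fin.succ_injective _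
          (((w.1 c).resolve_left fun z => Fin.succ_ne_zero _ z.1).1))
    · have e' : i'.succ ≠ i.succ := fun c => e (Fin.succ_injective _ c)
      exact (b7 _ _ e').resolve_right fun c => by simpa using ((H _).2.2.2.2.2 _ e').1 c
    · rw [b5 x (xδ hx), b4 x (xδ hx), Fin.cons_succ, a3 x hx]
  · have u := c4 d₁ (dvd_mul_right _ _) (by omega) (fun b hb => jac_nat _ b (hB b hb).1.ne'
      fun x hx d => ?_) a ha
    · have v := f4 1 (one_dvd _) rfl (fun b hb => jac_nat _ b (hB b hb).1.ne'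
        fun x hx d => by rw [one_mul, b6 x (xB x hx b hb d)]) a ha
      rw [one_mul] at v
      rw [← mul_assoc, Nat.cast_mul, nu_mul_left (by
        exact_mod_cast mul_ne_zero (left_ne_zero_of_mul δ0) c0) (by exact_mod_cast (pr 0).ne_zero),
        ← u, ← v, Pi.add_apply, ZMod.natCast_val, ZMod.natCast_val, ZMod.natCast_val,
        ZMod.cast_add (dvd_mul_right _ _)]
    · obtain ⟨x2, xd, xs⟩ := cB x hx b hb d
      have xX := xB x hx b hb d
      rw [jacobiSym.mul_right' _ (left_ne_zero_of_mul δ0) c0, jac_right _ _ fun i => (pr _).ne_zero]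
      simp only [b4 x xX, Fin.cons_succ]
      rw [a4 x xX xd, if_neg xs, mul_one, ← jacobiSym.quadratic_reciprocity_one_mod_four
        (by omega) (hx.odd_of_ne_two x2), jac_sq hx fun c => xd (c.mul_right _)]
  · obtain ⟨i, rfl⟩ := dv x hx d
    exact b2 i
  · refine (Finset.card_le_card (t := Finset.univ.image fun i : Fin (k + 1) => q i.succ)
      fun x hx => ?_).trans (Finset.card_image_le.trans (by simp))
    have px := Nat.prime_of_mem_primeFactors hx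
    obtain ⟨i, -, d⟩ := (Nat.prime_iff.1 px).exists_mem_finset_dvd (Nat.dvd_of_mem_primeFactors hx)
    exact Finset.mem_image.2 ⟨i, Finset.mem_univ _,
      ((Nat.prime_dvd_prime_iff_eq px (pr _)).1 d).symm⟩
  · obtain ⟨i, rfl⟩ := dv x hx d
    exact (H i).2.2.2.2.1

end Vale.Agent.P004R
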